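import Vale.Agent.P248.Three.Defs

/-!
P248, dimension three: elementary facts on configurations.
-/

noncomputable section

open Set Matrix

namespace Vale.Agent.P248.Three

theorem hull_range {v : ℕ} (x : Fin v → E3) {p : E3} :
    p ∈ convexHull ℝ (range x) ↔
      ∃ l : Fin v → ℝ, (∀ i, 0 ≤ l i) ∧ ∑ i, l i = 1 ∧ ∑ i, l i • x i = p := by
  constructor
  · intro h
    let g : (Fin v → ℝ) →ₗ[ℝ] E3 := Fintype.linearCombination ℝ x
    have hg : g '' stdSimplex ℝ (Fin v) = convexHull ℝ (range x) := by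
      rw [← convexHull_basis_eq_stdSimplex, LinearMap.image_convexHull]
      congr 1
      rw [← range_comp]
      congr 1
      funext i
      show Fintype.linearCombination ℝ x _ = x i
      rw [Fintype.linearCombination_apply]
      simp
    rw [← hg] at h
    obtain ⟨l, ⟨h0, h1⟩, rfl⟩ := h
    exact ⟨l, h0, h1, (Fintype.linearCombination_apply ..).symm⟩
  · rintro ⟨l, h0, h1, rfl⟩
    exact (convex_convexHull ℝ _).sum_mem (fun i _ => h0 i) h1
      fun i _ => subset_convexHull ℝ _ ⟨i, rfl⟩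

/-- A linear functional of a combination. -/
theorem dot_comb {v : ℕ} (x : Fin v → E3) (n : E3) (l : Fin v → ℝ) :
    n ⬝ᵥ (∑ i, l i • x i) = ∑ i, l i * (n ⬝ᵥ x i) := by
  simp [dotProduct_sum, dotProduct_smul]

theorem continuous_dot (n : E3) : Continuous fun p : E3 => n ⬝ᵥ p := by
  simp only [dotProduct]
  fun_prop

namespace Cfg

variable {v f : ℕ} {C : Cfg v f}

theorem isClosed_body (C : Cfg v f) : IsClosed C.body := by
  rw [body, ofPred_forall]
  exact isClosed_iInter fun j => isClosed_le (continuous_dot _) continuous_const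

theorem convex_body (C : Cfg v f) : Convex ℝ C.body := by
  intro p hp q hq a b ha hb hab j
  calc C.nrm j ⬝ᵥ (a • p + b • q) = a * (C.nrm j ⬝ᵥ p) + b * (C.nrm j ⬝ᵥ q) := by
        simp [dotProduct_add, dotProduct_smul]
    _ ≤ a * C.off j + b * C.off j :=
        add_le_add (mul_le_mul_of_nonneg_left (hp j) ha) (mul_le_mul_of_nonneg_left (hq j) hb)
    _ = C.off j := by rw [← add_mul, hab, one_mul]

theorem hull_subset {C : Cfg v f} (h : ∀ i j, C.slack i j ≤ 0) :
    convexHull ℝ (range C.x) ⊆ C.body :=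
  convexHull_min (by rintro _ ⟨i, rfl⟩ j; have := h i j; unfold slack at this; linarith)
    C.convex_body

theorem IsCfg.mem (h : C.IsCfg) (i : Fin v) : C.x i ∈ C.body :=
  h.hull ▸ subset_convexHull ℝ _ ⟨i, rfl⟩

theorem IsCfg.slack_nonpos (h : C.IsCfg) (i : Fin v) (j : Fin f) : C.slack i j ≤ 0 :=
  sub_nonpos.2 (h.mem i j)

theorem IsCfg.compact (h : C.IsCfg) : IsCompact C.body :=
  h.hull ▸ (finite_range _).isCompact_convexHull ℝ

theorem IsCfg.exists_comb (h : C.IsCfg) {p : E3} (hp : p ∈ C.body) :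
    ∃ l : Fin v → ℝ, (∀ i, 0 ≤ l i) ∧ ∑ i, l i = 1 ∧ ∑ i, l i • C.x i = p :=
  (hull_range C.x).1 (h.hull.symm ▸ hp)

/-- The value of a functional at a combination is the combination of the slacks. -/
theorem comb_slack (C : Cfg v f) {l : Fin v → ℝ} (h1 : ∑ i, l i = 1) (j : Fin f) :
    C.nrm j ⬝ᵥ (∑ i, l i • C.x i) - C.off j = ∑ i, l i * C.slack i j := by
  simp only [slack, mul_sub, Finset.sum_sub_distrib, dot_comb, ← Finset.sum_mul, h1, one_mul]

/-- A combination on a supporting plane uses only the points of that plane. -/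
theorem comb_support (hs : ∀ i j, C.slack i j ≤ 0) {l : Fin v → ℝ} (h0 : ∀ i, 0 ≤ l i)
    (h1 : ∑ i, l i = 1) {j : Fin f} (hj : C.nrm j ⬝ᵥ (∑ i, l i • C.x i) = C.off j)
    (i : Fin v) (hi : C.slack i j ≠ 0) : l i = 0 := by
  have e := C.comb_slack h1 j
  rw [hj, sub_self] at e
  have := (Finset.sum_eq_zero_iff_of_nonpos
    (fun k _ => mul_nonpos_of_nonneg_of_nonpos (h0 k) (hs k j))).1 e.symm i (Finset.mem_univ i)
  exact (mul_eq_zero.1 this).resolve_right hi

theorem strict_of_interior {C : Cfg v f} {p : E3} (hp : p ∈ interior C.body) (j : Fin f)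
    (hn : C.nrm j ≠ 0) : C.nrm j ⬝ᵥ p < C.off j := by
  have hpos : 0 < C.nrm j ⬝ᵥ C.nrm j :=
    lt_of_le_of_ne (Finset.sum_nonneg fun k _ => mul_self_nonneg _)
      fun e => hn (dotProduct_self_eq_zero.1 e.symm)
  have ht : Filter.Tendsto (fun t : ℝ => p + t • C.nrm j) (nhds 0) (nhds p) := by
    have : Continuous fun t : ℝ => p + t • C.nrm j := by fun_prop
    simpa using this.tendsto 0
  obtain ⟨t, ht1, ht0⟩ := ((Filter.Eventually.filter_mono nhdsWithin_le_nhds
    (ht (mem_interior_iff_mem_nhds.1 hp))).and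
      (self_mem_nhdsWithin (s := Set.Ioi (0:ℝ)))).exists
  have := ht1 j
  rw [dotProduct_add, dotProduct_smul, smul_eq_mul] at this
  have : 0 < t * (C.nrm j ⬝ᵥ C.nrm j) := mul_pos ht0 hpos
  linarith [ht1 j]

theorem Reduced.nrm_ne (h : C.Reduced) (j : Fin f) : C.nrm j ≠ 0 := by
  intro e
  obtain ⟨p, hp, -⟩ := h.needed j
  obtain ⟨q, hq⟩ := h.solid
  have := interior_subset hq j
  simp only [e, zero_dotProduct] at hp this
  linarith

/-- A functional constant on a facet is a multiple of its normal. -/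
theorem Reduced.facet_span (h : C.Reduced) (j : Fin f) (w : E3)
    (hw : ∀ i k, C.slack i j = 0 → C.slack k j = 0 → w ⬝ᵥ C.x i = w ⬝ᵥ C.x k) :
    ∃ s : ℝ, w = s • C.nrm j := by
  obtain ⟨q, hq⟩ := h.solid
  obtain ⟨p, hp, hpk⟩ := h.needed j
  have hqj := strict_of_interior hq j (h.nrm_ne j)
  set θ := (C.off j - C.nrm j ⬝ᵥ q) / (C.nrm j ⬝ᵥ p - C.nrm j ⬝ᵥ q) with hθ
  have hden : 0 < C.nrm j ⬝ᵥ p - C.nrm j ⬝ᵥ q := by linarith
  have hθ0 : 0 < θ := div_pos (by linarith) hden
  have hθ1 : θ < 1 := (div_lt_one hden).2 (by linarith)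
  set r := (1 - θ) • q + θ • p with hr
  have hdot : ∀ k, C.nrm k ⬝ᵥ r = (1 - θ) * (C.nrm k ⬝ᵥ q) + θ * (C.nrm k ⬝ᵥ p) := fun k => by
    simp [hr, dotProduct_add, dotProduct_smul]
  have hrj : C.nrm j ⬝ᵥ r = C.off j := by
    have : θ * (C.nrm j ⬝ᵥ p - C.nrm j ⬝ᵥ q) = C.off j - C.nrm j ⬝ᵥ q :=
      div_mul_cancel₀ _ hden.ne'
    rw [hdot]; linarith
  have hrk : ∀ k, k ≠ j → C.nrm k ⬝ᵥ r < C.off k := fun k hk => by
    have h1 := mul_lt_mul_of_pos_left (strict_of_interior hq k (h.nrm_ne k))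
      (show 0 < 1 - θ by linarith)
    have h2 := mul_le_mul_of_nonneg_left (hpk k hk) hθ0.le
    rw [hdot]; linarith
  have hev : ∀ d : E3, C.nrm j ⬝ᵥ d = 0 → ∃ t : ℝ, 0 < t ∧ r + t • d ∈ C.body := fun d hd => by
    have e : ∀ᶠ t : ℝ in nhds 0, ∀ k, k ≠ j → C.nrm k ⬝ᵥ (r + t • d) < C.off k := by
      rw [Filter.eventually_all]
      intro k
      rcases eq_or_ne k j with rfl | hk
      · exact Filter.Eventually.of_forall fun t h => absurd rfl h
      · have hc : Continuous fun t : ℝ => C.nrm k ⬝ᵥ (r + t • d) :=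
          (continuous_dot _).comp (by fun_prop)
        exact ((hc.tendsto 0).eventually (gt_mem_nhds (by simpa using hrk k hk))).mono
          fun t h _ => h
    obtain ⟨t, ht, ht0⟩ := ((e.filter_mono nhdsWithin_le_nhds).and
      (self_mem_nhdsWithin (s := Set.Ioi (0:ℝ)))).exists
    refine ⟨t, ht0, fun k => ?_⟩
    rcases eq_or_ne k j with rfl | hk
    · simp [dotProduct_add, dotProduct_smul, hd, hrj]
    · exact (ht k hk).le
  have val : ∀ y ∈ C.body, C.nrm j ⬝ᵥ y = C.off j → ∀ i, C.slack i j = 0 →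
      w ⬝ᵥ y = w ⬝ᵥ C.x i := by
    intro y hy hyj i hi
    obtain ⟨l, l0, l1, rfl⟩ := h.toIsCfg.exists_comb hy
    rw [dot_comb]
    calc ∑ k, l k * (w ⬝ᵥ C.x k) = ∑ k, l k * (w ⬝ᵥ C.x i) := by
          refine Finset.sum_congr rfl fun k _ => ?_
          by_cases hk : C.slack k j = 0
          · rw [hw k i hk hi]
          · simp [comb_support h.toIsCfg.slack_nonpos l0 l1 hyj k hk]
      _ = w ⬝ᵥ C.x i := by rw [← Finset.sum_mul, l1, one_mul]
  have hrb : r ∈ C.body := fun k => by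
    rcases eq_or_ne k j with rfl | hk
    exacts [hrj.le, (hrk k hk).le]
  obtain ⟨i, hi⟩ : ∃ i, C.slack i j = 0 := by
    by_contra hne
    push Not at hne
    obtain ⟨l, l0, l1, e⟩ := h.toIsCfg.exists_comb hrb
    have : ∀ k, l k = 0 := fun k =>
      comb_support h.toIsCfg.slack_nonpos l0 l1 (e ▸ hrj) k (hne k)
    simp [this] at l1
  have orth : ∀ d : E3, C.nrm j ⬝ᵥ d = 0 → w ⬝ᵥ d = 0 := fun d hd => by
    obtain ⟨t, ht0, ht⟩ := hev d hd
    have e1 := val _ ht (by simp [dotProduct_add, dotProduct_smul, hd, hrj]) i hi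
    rw [← val r hrb hrj i hi, dotProduct_add, dotProduct_smul, smul_eq_mul] at e1
    exact (mul_eq_zero.1 (by linarith : t * (w ⬝ᵥ d) = 0)).resolve_left ht0.ne'
  set s := (w ⬝ᵥ C.nrm j) / (C.nrm j ⬝ᵥ C.nrm j) with hs
  have hnn : C.nrm j ⬝ᵥ C.nrm j ≠ 0 := fun e => h.nrm_ne j (dotProduct_self_eq_zero.1 e)
  refine ⟨s, ?_⟩
  have hperp : C.nrm j ⬝ᵥ (w - s • C.nrm j) = 0 := by
    rw [dotProduct_sub, dotProduct_smul, smul_eq_mul, hs, div_mul_cancel₀ _ hnn,
      dotProduct_comm, sub_self]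
  have h2 := orth _ hperp
  have : (w - s • C.nrm j) ⬝ᵥ (w - s • C.nrm j) = 0 := by
    rw [sub_dotProduct, smul_dotProduct, h2, hperp]; simp
  exact sub_eq_zero.1 (dotProduct_self_eq_zero.1 this)

/-- The normals at a point of a reduced configuration span. -/
theorem Reduced.vertex_span (h : C.Reduced) (i : Fin v) (w : E3)
    (hw : ∀ j, C.slack i j = 0 → C.nrm j ⬝ᵥ w = 0) : w = 0 := by
  by_contra hne
  have e : ∀ᶠ t : ℝ in nhds 0, C.x i + t • w ∈ C.body := by
    simp only [body, mem_ofPred_eq]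
    rw [Filter.eventually_all]
    intro j
    by_cases hj : C.slack i j = 0
    · refine Filter.Eventually.of_forall fun t => ?_
      have : C.nrm j ⬝ᵥ C.x i = C.off j := sub_eq_zero.1 hj
      simp [dotProduct_add, dotProduct_smul, hw j hj, this]
    · have hc : Continuous fun t : ℝ => C.nrm j ⬝ᵥ (C.x i + t • w) :=
        (continuous_dot _).comp (by fun_prop)
      have hlt : C.nrm j ⬝ᵥ C.x i < C.off j :=
        lt_of_le_of_ne (h.toIsCfg.mem i j) fun e => hj (sub_eq_zero.2 e)
      exact ((hc.tendsto 0).eventually (gt_mem_nhds (by simpa using hlt))).mono fun t h => h.le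
  obtain ⟨t, ⟨ht, ht'⟩, ht0⟩ := (((e.and ((continuous_neg.tendsto' (0:ℝ) 0 neg_zero).eventually
    e)).filter_mono nhdsWithin_le_nhds).and (self_mem_nhdsWithin (s := Set.Ioi (0:ℝ)))).exists
  have ext : ∀ y ∈ C.body, ∀ z ∈ C.body, (1/2 : ℝ) • y + (1/2 : ℝ) • z = C.x i → y = C.x i := by
    intro y hy z hz hyz
    obtain ⟨l, l0, l1, ly⟩ := h.toIsCfg.exists_comb hy
    obtain ⟨m, m0, m1, mz⟩ := h.toIsCfg.exists_comb hz
    set a : Fin v → ℝ := fun k => (l k + m k) / 2 with ha
    have a1 : ∑ k, a k = 1 := by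
      rw [ha, ← Finset.sum_div, Finset.sum_add_distrib, l1, m1]; norm_num
    have ax : ∑ k, a k • C.x k = C.x i := by
      rw [← hyz, ← ly, ← mz, Finset.smul_sum, Finset.smul_sum, ← Finset.sum_add_distrib]
      refine Finset.sum_congr rfl fun k _ => ?_
      simp only [ha, smul_smul, ← add_smul]; ring_nf
    have ai : a i = 1 := by
      by_contra hne1
      have hai : a i < 1 := lt_of_le_of_ne (a1 ▸ Finset.single_le_sum
        (fun k _ => show 0 ≤ a k by have := l0 k; have := m0 k; simp only [ha]; linarith)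
        (Finset.mem_univ i)) hne1
      apply h.extreme i
      have hpos : 0 < ∑ k ∈ Finset.univ.erase i, a k := by
        rw [Finset.sum_erase_eq_sub (Finset.mem_univ i), a1]; linarith
      have key : (Finset.univ.erase i).centerMass a C.x = C.x i := by
        rw [Finset.centerMass, Finset.sum_erase_eq_sub (Finset.mem_univ i),
          Finset.sum_erase_eq_sub (Finset.mem_univ i), a1, ax]
        rw [show C.x i - a i • C.x i = (1 - a i) • C.x i by rw [sub_smul, one_smul], smul_smul,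
          inv_mul_cancel₀ (by linarith), one_smul]
      rw [← key]
      refine Finset.centerMass_mem_convexHull _ (fun k _ => ?_) hpos
        fun k hk => ⟨k, (Finset.mem_erase.1 hk).1, rfl⟩
      have := l0 k; have := m0 k; simp only [ha]; linarith
    have li : l i = 1 := by
      have h1 := Finset.single_le_sum (fun k _ => l0 k) (Finset.mem_univ i)
      have h2 := Finset.single_le_sum (fun k _ => m0 k) (Finset.mem_univ i)
      simp only [ha] at ai
      linarith
    have lk : ∀ k, k ≠ i → l k = 0 := fun k hk => by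
      have h0 : ∑ k ∈ Finset.univ.erase i, l k = 0 := by
        rw [Finset.sum_erase_eq_sub (Finset.mem_univ i), l1, li, sub_self]
      exact (Finset.sum_eq_zero_iff_of_nonneg fun k _ => l0 k).1 h0 k
        (Finset.mem_erase.2 ⟨hk, Finset.mem_univ k⟩)
    rw [← ly, Finset.sum_eq_single i (fun k _ hk => by simp [lk k hk])
      (fun h => absurd (Finset.mem_univ i) h), li, one_smul]
  have := ext _ ht _ ht' (by module)
  rw [add_eq_left, smul_eq_zero] at this
  exact this.elim ht0.ne' hne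

/-- Every half space has a point on its boundary plane. -/
theorem Reduced.facet_nonempty (h : C.Reduced) (j : Fin f) : ∃ i, C.slack i j = 0 := by
  by_contra hne
  push Not at hne
  have key : ∀ w : E3, ∃ s : ℝ, w = s • C.nrm j := fun w =>
    h.facet_span j w fun i k hi => absurd hi (hne i)
  have aux : ∀ d : E3, C.nrm j ⬝ᵥ d = 0 → d = 0 := fun d hd => by
    obtain ⟨s, rfl⟩ := key d
    rw [dotProduct_smul, smul_eq_mul, mul_eq_zero] at hd
    rcases hd with hd | hd
    · simp [hd]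
    · exact absurd (dotProduct_self_eq_zero.1 hd) (h.nrm_ne j)
  obtain ⟨a, ha⟩ := key (Pi.single 0 1)
  obtain ⟨b, hb⟩ := key (Pi.single 1 1)
  have ha0 := congrFun ha 0
  have ha1 := congrFun ha 1
  have hb1 := congrFun hb 1
  simp at ha0 ha1 hb1
  rcases ha1 with h1 | h1
  · simp [h1] at ha0
  · simp [h1] at hb1

end Cfg

end Vale.Agent.P248.Three
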