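import Vale.Agent.P248.Three.Basic
import Mathlib.LinearAlgebra.CrossProduct
import Mathlib.LinearAlgebra.Dimension.Constructions

/-!
P248, dimension three: piece D, the existence of a nontrivial move. The incidences are at most
`2 f + 2 v - 4`: in a generic linear order of the points each half space has one top and one
bottom point, and a point which is neither first nor last is between two others on at most two
half spaces. Hence the velocities which are affine on every facet not parallel to a suitable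
direction form a space of dimension at least five.
-/

noncomputable section

open Set Matrix Module

namespace Vale.Agent.P248.Three

namespace Cfg

variable {v f : ℕ} {C : Cfg v f}

/-- The points on a half space. -/
def inc (C : Cfg v f) (j : Fin f) : Finset (Fin v) := Finset.univ.filter fun i => C.slack i j = 0

theorem mem_inc {i : Fin v} {j : Fin f} : i ∈ C.inc j ↔ C.slack i j = 0 := by simp [inc]

/-- Evaluation of affine functions at the points of a facet. -/
def facetEval (C : Cfg v f) (j : Fin f) : (E3 × ℝ) →ₗ[ℝ] (C.inc j → ℝ) where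
  toFun q i := q.1 ⬝ᵥ C.x i + q.2
  map_add' q r := by funext i; simp [add_dotProduct]; ring
  map_smul' c q := by funext i; simp [smul_dotProduct, mul_add]

/-- The linear functional of a direction. -/
def dotLin (u : E3) : E3 →ₗ[ℝ] ℝ where
  toFun a := a ⬝ᵥ u
  map_add' a b := add_dotProduct a b u
  map_smul' c a := smul_dotProduct c a u

/-- The affine functions constant along a direction, evaluated on a facet. -/
def perpEval (C : Cfg v f) (u : E3) (j : Fin f) :
    ((dotLin u).ker × ℝ) →ₗ[ℝ] (C.inc j → ℝ) :=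
  (C.facetEval j).comp ((dotLin u).ker.subtype.prodMap LinearMap.id)

theorem perpEval_injective (h : C.Reduced) {u : E3} {j : Fin f} (hju : C.nrm j ⬝ᵥ u ≠ 0) :
    Function.Injective (C.perpEval u j) := by
  refine (injective_iff_map_eq_zero _).2 fun q hq => ?_
  obtain ⟨⟨a, ha⟩, α⟩ := q
  have e : ∀ i, C.slack i j = 0 → a ⬝ᵥ C.x i + α = 0 := fun i hi =>
    congrFun hq ⟨i, mem_inc.2 hi⟩
  obtain ⟨s, rfl⟩ := h.facet_span j a fun i k hi hk => by linarith [e i hi, e k hk]
  have hs : s = 0 := by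
    have : (s • C.nrm j) ⬝ᵥ u = 0 := ha
    rw [smul_dotProduct, smul_eq_mul] at this
    exact (mul_eq_zero.1 this).resolve_right hju
  subst hs
  obtain ⟨i, hi⟩ : ∃ i, C.slack i j = 0 := by
    by_contra hne
    push Not at hne
    obtain ⟨s, hs⟩ := h.facet_span j (C.nrm j + e0) fun i k hi _ => absurd hi (hne i)
    obtain ⟨s', hs'⟩ := h.facet_span j e0 fun i k hi _ => absurd hi (hne i)
    obtain ⟨s'', hs''⟩ :=
      h.facet_span j (Pi.single 1 1) fun i k hi _ => absurd hi (hne i)
    have h1 := congrFun hs' 0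
    have h2 := congrFun hs'' 1
    have h3 := congrFun hs' 1
    simp [e0] at h1 h2 h3
    rcases h3 with h3 | h3 <;> simp [h3] at h1 h2
  have := e i hi
  simp at this
  simp [this]

theorem finrank_range_perpEval (h : C.Reduced) {u : E3} {j : Fin f}
    (hju : C.nrm j ⬝ᵥ u ≠ 0) : finrank ℝ (C.perpEval u j).range = 3 := by
  rw [LinearMap.finrank_range_of_inj (perpEval_injective h hju), finrank_prod, finrank_self]
  have h1 := LinearMap.finrank_range_add_finrank_ker (dotLin u)
  have h2 : (dotLin u).range = ⊤ := LinearMap.range_eq_top.2 fun r =>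
    ⟨(r / (C.nrm j ⬝ᵥ u)) • C.nrm j, by
      show ((r / (C.nrm j ⬝ᵥ u)) • C.nrm j) ⬝ᵥ u = r
      rw [smul_dotProduct, smul_eq_mul, div_mul_cancel₀ _ hju]⟩
  rw [h2, finrank_top, finrank_self, finrank_fin_fun] at h1
  omega

theorem three_le_inc (h : C.Reduced) (j : Fin f) : 3 ≤ (C.inc j).card := by
  have hne : C.nrm j ⬝ᵥ C.nrm j ≠ 0 := fun e => h.nrm_ne j (dotProduct_self_eq_zero.1 e)
  have := Submodule.finrank_le (C.perpEval (C.nrm j) j).range
  rw [finrank_range_perpEval h hne, finrank_pi, Fintype.card_coe] at this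
  exact this

/-- Two half spaces through a point have independent normals. -/
theorem cross_ne (h : C.Reduced) {i : Fin v} {a b : Fin f} (hab : a ≠ b)
    (ha : C.slack i a = 0) (hb : C.slack i b = 0) :
    crossProduct (C.nrm a) (C.nrm b) ≠ 0 := by
  intro e
  have hna : C.nrm a ⬝ᵥ C.nrm a ≠ 0 := fun e => h.nrm_ne a (dotProduct_self_eq_zero.1 e)
  obtain ⟨s, hs⟩ : ∃ s : ℝ, C.nrm b = s • C.nrm a := by
    refine ⟨(C.nrm a ⬝ᵥ C.nrm b) / (C.nrm a ⬝ᵥ C.nrm a), ?_⟩
    have h0 := congrFun e 0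
    have h1 := congrFun e 1
    have h2 := congrFun e 2
    simp [cross_apply] at h0 h1 h2
    funext k
    rw [Pi.smul_apply, smul_eq_mul, div_mul_eq_mul_div, eq_div_iff hna]
    fin_cases k <;> simp [dotProduct, Fin.sum_univ_three]
    · linear_combination C.nrm a 2 * h1 - C.nrm a 1 * h2
    · linear_combination C.nrm a 0 * h2 - C.nrm a 2 * h0
    · linear_combination C.nrm a 1 * h0 - C.nrm a 0 * h1
  unfold slack at ha hb
  rw [hs, smul_dotProduct, smul_eq_mul] at hb
  have hoff : C.off b = s * C.off a := by linear_combination -hb + s * ha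
  obtain ⟨p, hp, hpk⟩ := h.needed b
  have hpa := hpk a hab
  rw [hs, smul_dotProduct, smul_eq_mul, hoff] at hp
  obtain ⟨q, hq⟩ := h.solid
  have q1 := strict_of_interior hq a (h.nrm_ne a)
  have q2 := strict_of_interior hq b (h.nrm_ne b)
  rw [hs, smul_dotProduct, smul_eq_mul, hoff] at q2
  nlinarith

/-- A vector orthogonal to two normals and to the order is zero on the order at every common
point. -/
theorem dot_eq_zero_of_perp {a b w d y : E3} (hc : crossProduct a b ≠ 0) (hd : d ≠ 0)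
    (had : a ⬝ᵥ d = 0) (hbd : b ⬝ᵥ d = 0) (hwd : w ⬝ᵥ d = 0) (hay : a ⬝ᵥ y = 0)
    (hby : b ⬝ᵥ y = 0) : w ⬝ᵥ y = 0 := by
  set c := crossProduct a b with hc'
  have key : ∀ z : E3, a ⬝ᵥ z = 0 → b ⬝ᵥ z = 0 → ∀ k, c k * (w ⬝ᵥ z) = z k * (w ⬝ᵥ c) := by
    intro z haz hbz k
    simp only [hc', cross_apply, dotProduct, Fin.sum_univ_three] at haz hbz ⊢
    fin_cases k <;>
      simp only [Fin.zero_eta, Fin.mk_one, Fin.reduceFinMk, cons_val_zero, cons_val_one,
        cons_val]
    · linear_combination (w 1 * b 2 - w 2 * b 1) * haz + (w 2 * a 1 - w 1 * a 2) * hbz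
    · linear_combination (w 2 * b 0 - w 0 * b 2) * haz + (w 0 * a 2 - w 2 * a 0) * hbz
    · linear_combination (w 0 * b 1 - w 1 * b 0) * haz + (w 1 * a 0 - w 0 * a 1) * hbz
  obtain ⟨k, hk⟩ := Function.ne_iff.1 hd
  have h1 := key d had hbd k
  rw [hwd, mul_zero] at h1
  have hwc : w ⬝ᵥ c = 0 := (mul_eq_zero.1 h1.symm).resolve_left hk
  obtain ⟨k', hk'⟩ := Function.ne_iff.1 hc
  have h2 := key y hay hby k'
  rw [hwc, mul_zero] at h2
  exact (mul_eq_zero.1 h2).resolve_left hk'

/-- A point between two others of a half space in a linear order. -/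
def Side (C : Cfg v f) (w : E3) (i : Fin v) (j : Fin f) : Prop :=
  C.slack i j = 0 ∧ (∃ k, C.slack k j = 0 ∧ w ⬝ᵥ C.x k < w ⬝ᵥ C.x i) ∧
    ∃ k, C.slack k j = 0 ∧ w ⬝ᵥ C.x i < w ⬝ᵥ C.x k

/-- The level direction of a side incidence. -/
theorem side_dir (h : C.Reduced) {w : E3} (hw : Function.Injective fun i => w ⬝ᵥ C.x i)
    {i : Fin v} {j : Fin f} (hs : C.Side w i j) :
    ∃ d : E3, C.nrm j ⬝ᵥ d = 0 ∧ w ⬝ᵥ d = 0 ∧ (∀ l, C.slack i l = 0 → C.nrm l ⬝ᵥ d ≤ 0) ∧
      ∀ l, l ≠ j → C.slack i l = 0 → C.nrm l ⬝ᵥ d ≠ 0 := by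
  obtain ⟨hij, ⟨k, hkj, hk⟩, k', hk'j, hk'⟩ := hs
  set α := w ⬝ᵥ C.x k' - w ⬝ᵥ C.x i with hα
  set β := w ⬝ᵥ C.x i - w ⬝ᵥ C.x k with hβ
  have hα0 : 0 < α := by linarith
  have hβ0 : 0 < β := by linarith
  set d := α • (C.x k - C.x i) + β • (C.x k' - C.x i) with hd
  have hdot : ∀ n : E3, n ⬝ᵥ d =
      α * (n ⬝ᵥ C.x k - n ⬝ᵥ C.x i) + β * (n ⬝ᵥ C.x k' - n ⬝ᵥ C.x i) := fun n => by
    simp [hd, dotProduct_add, dotProduct_smul, dotProduct_sub]
  have hjd : C.nrm j ⬝ᵥ d = 0 := by
    unfold slack at hij hkj hk'j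
    rw [hdot]; linear_combination α * hkj + β * hk'j - (α + β) * hij
  have hwd : w ⬝ᵥ d = 0 := by rw [hdot, hα, hβ]; ring
  set θ := α / (α + β) with hθ
  have hθ1 : 1 - θ = β / (α + β) := by rw [hθ]; field_simp; ring
  have hq : θ • C.x k + (1 - θ) • C.x k' = C.x i + (1 / (α + β)) • d := by
    funext m
    simp only [hd, Pi.add_apply, Pi.smul_apply, Pi.sub_apply, smul_eq_mul, hθ]
    field_simp
    ring
  have hθ0 : 0 ≤ θ := by positivity
  have hθle : 0 ≤ 1 - θ := by rw [hθ1]; positivity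
  have hki : k ≠ i := fun e => hk.ne (by rw [e])
  have hk'i : k' ≠ i := fun e => hk'.ne' (by rw [e])
  have hd0 : d ≠ 0 := fun e => h.extreme i (by
    rw [e, smul_zero, add_zero] at hq
    rw [← hq]
    exact convex_convexHull ℝ _ (subset_convexHull ℝ _ (Set.mem_image_of_mem C.x hki))
      (subset_convexHull ℝ _ (Set.mem_image_of_mem C.x hk'i)) hθ0 hθle (by ring))
  have hle : ∀ l, C.slack i l = 0 → C.nrm l ⬝ᵥ d ≤ 0 := fun l hl => by
    have h1 := h.toIsCfg.slack_nonpos k l
    have h2 := h.toIsCfg.slack_nonpos k' l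
    unfold slack at hl h1 h2
    rw [hdot]; nlinarith
  refine ⟨d, hjd, hwd, hle, fun l hlj hl e => ?_⟩
  have hqb : C.x i + (1 / (α + β)) • d ∈ C.body :=
    hq ▸ C.convex_body (h.toIsCfg.mem k) (h.toIsCfg.mem k') hθ0 hθle (by ring)
  obtain ⟨c, c0, c1, hc⟩ := h.toIsCfg.exists_comb hqb
  have onj : ∀ b, C.slack i b = 0 → C.nrm b ⬝ᵥ d = 0 →
      C.nrm b ⬝ᵥ (∑ m, c m • C.x m) = C.off b := fun b hb hbd => by
    unfold slack at hb
    rw [hc, dotProduct_add, dotProduct_smul, hbd, smul_zero, add_zero]; linarith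
  have only : ∀ m, m ≠ i → c m = 0 := fun m hm => by
    by_contra hcm
    have hmj : C.slack m j = 0 := by
      by_contra h'
      exact hcm (comb_support h.toIsCfg.slack_nonpos c0 c1 (onj j hij hjd) m h')
    have hml : C.slack m l = 0 := by
      by_contra h'
      exact hcm (comb_support h.toIsCfg.slack_nonpos c0 c1 (onj l hl e) m h')
    have hz := dot_eq_zero_of_perp (cross_ne h hlj.symm hij hl) hd0 hjd e hwd
      (y := C.x m - C.x i)
      (by unfold slack at hmj hij; rw [dotProduct_sub]; linarith)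
      (by unfold slack at hml hl; rw [dotProduct_sub]; linarith)
    rw [dotProduct_sub, sub_eq_zero] at hz
    exact hm (hw hz)
  rw [Finset.sum_eq_single i (fun m _ hm => by rw [only m hm, zero_smul]) (by simp)] at hc
  have hci : c i = 1 := by
    rw [← c1, Finset.sum_eq_single i (fun m _ hm => only m hm) (by simp)]
  rw [hci, one_smul, left_eq_add, smul_eq_zero] at hc
  exact hc.elim (by positivity) hd0

theorem side_le_two (h : C.Reduced) {w : E3} (hw0 : w ≠ 0)
    (hw : Function.Injective fun i => w ⬝ᵥ C.x i) (i : Fin v) :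
    Nat.card {j // C.Side w i j} ≤ 2 := by
  classical
  rw [Nat.card_eq_fintype_card, Fintype.card_subtype]
  by_contra hc
  obtain ⟨a, b, c, ha, hb, hc, hab, hac, hbc⟩ := Finset.two_lt_card_iff.1 (not_le.1 hc)
  simp only [Finset.mem_filter, Finset.mem_univ, true_and] at ha hb hc
  obtain ⟨p, hpa, hpw, hp, hp'⟩ := side_dir h hw ha
  obtain ⟨q, hqb, hqw, hq, hq'⟩ := side_dir h hw hb
  obtain ⟨r, hrc, hrw, hr, hr'⟩ := side_dir h hw hc
  have aq := lt_of_le_of_ne (hq a ha.1) (hq' a hab ha.1)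
  have ar := lt_of_le_of_ne (hr a ha.1) (hr' a hac ha.1)
  have bp := lt_of_le_of_ne (hp b hb.1) (hp' b hab.symm hb.1)
  have br := lt_of_le_of_ne (hr b hb.1) (hr' b hbc hb.1)
  have cp := lt_of_le_of_ne (hp c hc.1) (hp' c hac.symm hc.1)
  have cq := lt_of_le_of_ne (hq c hc.1) (hq' c hbc.symm hc.1)
  have hdep : ¬ LinearIndependent ℝ ![p, q, r] := fun hli => by
    have htop := hli.span_eq_top_of_card_eq_finrank (by simp)
    have hsub : Submodule.span ℝ (range ![p, q, r]) ≤ (dotLin w).ker :=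
      Submodule.span_le.2 (by
        rintro _ ⟨m, rfl⟩
        show (![p, q, r] m) ⬝ᵥ w = 0
        fin_cases m <;> simp [dotProduct_comm _ w, hpw, hqw, hrw])
    rw [htop] at hsub
    exact hw0 (dotProduct_self_eq_zero.1 (hsub (Submodule.mem_top (x := w))))
  obtain ⟨g, hg, m, hm⟩ := Fintype.not_linearIndependent_iff.1 hdep
  simp [Fin.sum_univ_three] at hg
  have e : ∀ n : E3, g 0 * (n ⬝ᵥ p) + g 1 * (n ⬝ᵥ q) + g 2 * (n ⬝ᵥ r) = 0 := fun n => by
    have := congrArg (fun z => n ⬝ᵥ z) hg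
    simpa [dotProduct_add, dotProduct_smul] using this
  have e1 := e (C.nrm a)
  have e2 := e (C.nrm b)
  have e3 := e (C.nrm c)
  rw [hpa] at e1; rw [hqb] at e2; rw [hrc] at e3
  -- the three coefficients alternate in sign, which forces them to vanish
  rcases lt_trichotomy (g 2) 0 with hz | hz | hz
  · have : 0 < g 1 := by nlinarith
    have : 0 < g 0 := by nlinarith
    nlinarith
  · have hg1 : g 1 = 0 := by
      rw [hz] at e1
      simpa [aq.ne] using e1
    have hg0 : g 0 = 0 := by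
      rw [hz] at e2
      simpa [bp.ne] using e2
    fin_cases m <;> simp_all
  · have : g 1 < 0 := by nlinarith
    have : g 0 < 0 := by nlinarith
    nlinarith

/-- A linear functional separating finitely many points. -/
theorem exists_order (h : C.Reduced) : ∃ w : E3, w ≠ 0 ∧
    Function.Injective fun i => w ⬝ᵥ C.x i := by
  classical
  let P : Fin v × Fin v → Polynomial ℝ := fun q =>
    Polynomial.C (C.x q.1 0 - C.x q.2 0) + Polynomial.C (C.x q.1 1 - C.x q.2 1) * Polynomial.X +
      Polynomial.C (C.x q.1 2 - C.x q.2 2) * Polynomial.X ^ 2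
  have hP : ∀ q : Fin v × Fin v, q.1 ≠ q.2 → P q ≠ 0 := fun q hq e => by
    refine h.extreme q.1 (subset_convexHull ℝ _ ⟨q.2, hq.symm, ?_⟩)
    funext m
    have h0 := congrArg (Polynomial.eval 0) e
    have h1 := congrArg (Polynomial.eval 1) e
    have h2 := congrArg (Polynomial.eval (-1)) e
    simp [P] at h0 h1 h2
    fin_cases m <;> simp <;> linarith
  obtain ⟨s, hs⟩ : ∃ s : ℝ, (∏ q ∈ Finset.univ.filter (fun q : Fin v × Fin v => q.1 ≠ q.2),
      P q).eval s ≠ 0 := by
    by_contra hc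
    push Not at hc
    exact (Finset.prod_ne_zero_iff.2 fun q hq => hP q (Finset.mem_filter.1 hq).2)
      (Polynomial.funext fun s => by rw [hc s, Polynomial.eval_zero])
  refine ⟨![1, s, s ^ 2], fun e => by simpa using congrFun e 0, fun i k hik => ?_⟩
  by_contra hne
  rw [Polynomial.eval_prod, Finset.prod_ne_zero_iff] at hs
  refine hs (i, k) (by simp [hne]) ?_
  simp [dotProduct, Fin.sum_univ_three] at hik
  simp [P]
  linear_combination hik

/-- The incidence bound. -/
theorem sum_inc_le (h : C.Reduced) (hv : 2 ≤ v) :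
    ∑ j, (C.inc j).card + 4 ≤ 2 * f + 2 * v := by
  classical
  obtain ⟨w, hw0, hw⟩ := exists_order h
  have hj : ∀ j, (C.inc j).card ≤ 2 + (Finset.univ.filter fun i => C.Side w i j).card := by
    intro j
    have hne : (C.inc j).Nonempty := Finset.card_pos.1 (by have := three_le_inc h j; omega)
    obtain ⟨a, ha, hamax⟩ := (C.inc j).exists_max_image (fun i => w ⬝ᵥ C.x i) hne
    obtain ⟨b, hb, hbmin⟩ := (C.inc j).exists_min_image (fun i => w ⬝ᵥ C.x i) hne
    refine le_trans (Finset.card_le_card (t := ({a, b} : Finset (Fin v)) ∪ _) fun i hi => ?_)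
      ((Finset.card_union_le _ _).trans (Nat.add_le_add_right Finset.card_le_two _))
    by_cases hia : i = a
    · simp [hia]
    by_cases hib : i = b
    · simp [hib]
    refine Finset.mem_union_right _ (Finset.mem_filter.2 ⟨Finset.mem_univ _, mem_inc.1 hi,
      ⟨b, mem_inc.1 hb, ?_⟩, a, mem_inc.1 ha, ?_⟩)
    · exact lt_of_le_of_ne (hbmin i hi) fun e => hib (hw e).symm
    · exact lt_of_le_of_ne (hamax i hi) fun e => hia (hw e)
  have hne : (Finset.univ : Finset (Fin v)).Nonempty := ⟨⟨0, by omega⟩, Finset.mem_univ _⟩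
  obtain ⟨A, -, hA⟩ := Finset.univ.exists_max_image (fun i => w ⬝ᵥ C.x i) hne
  obtain ⟨B, -, hB⟩ := Finset.univ.exists_min_image (fun i => w ⬝ᵥ C.x i) hne
  have hAB : A ≠ B := fun e => by
    have e' : ∀ i, w ⬝ᵥ C.x i = w ⬝ᵥ C.x A := fun i =>
      le_antisymm (hA i (Finset.mem_univ i)) (e ▸ hB i (Finset.mem_univ i))
    have := hw ((e' ⟨0, by omega⟩).trans (e' ⟨1, by omega⟩).symm)
    simp at this
  have hi : ∀ i, (Finset.univ.filter fun j => C.Side w i j).card ≤
      if i = A ∨ i = B then 0 else 2 := fun i => by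
    split_ifs with hAB'
    · rw [Nat.le_zero, Finset.card_eq_zero, Finset.filter_eq_empty_iff]
      rintro j - ⟨-, ⟨k, -, hk⟩, k', -, hk'⟩
      rcases hAB' with e | e
      · have := hA k' (Finset.mem_univ _); rw [e] at hk'; linarith
      · have := hB k (Finset.mem_univ _); rw [e] at hk; linarith
    · have := side_le_two h hw0 hw i
      rwa [Nat.card_eq_fintype_card, Fintype.card_subtype] at this
  have hsum : ∑ i : Fin v, (if i = A ∨ i = B then 0 else 2) + 4 = 2 * v := by
    have h2 : ∑ i : Fin v, (if i = A ∨ i = B then 2 else 0) = 4 := by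
      rw [← Finset.sum_filter, show (Finset.univ.filter fun i => i = A ∨ i = B) = {A, B} by
        ext i; simp, Finset.sum_pair hAB]
    have : ∑ i : Fin v, ((if i = A ∨ i = B then 0 else 2) + (if i = A ∨ i = B then 2 else 0)) =
        2 * v := by
      rw [Finset.sum_congr rfl fun i _ => (by split_ifs <;> rfl :
        (if i = A ∨ i = B then 0 else 2) + (if i = A ∨ i = B then 2 else 0) = 2)]
      simp [mul_comm]
    rw [Finset.sum_add_distrib, h2] at this
    exact this
  have hswap : ∑ j, (Finset.univ.filter fun i => C.Side w i j).card =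
      ∑ i, (Finset.univ.filter fun j => C.Side w i j).card := by
    simp only [Finset.card_filter]
    exact Finset.sum_comm
  have := Finset.sum_le_sum fun j (_ : j ∈ (Finset.univ : Finset (Fin f))) => hj j
  rw [Finset.sum_add_distrib, hswap] at this
  have := Finset.sum_le_sum fun i (_ : i ∈ (Finset.univ : Finset (Fin v))) => hi i
  simp only [Finset.sum_const, Finset.card_univ, Fintype.card_fin, smul_eq_mul] at *
  omega

/-- The velocities which are affine on the facets not parallel to a direction. -/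
theorem exists_nonTriv (h : C.Reduced) {u : E3} (hu : u ≠ 0)
    (hcount : ∑ j ∈ Finset.univ.filter (fun j => C.nrm j ⬝ᵥ u ≠ 0), ((C.inc j).card - 3) + 5
      ≤ v) : ∃ M : C.Move, M.NonTriv := by
  classical
  let J := {j : Fin f // C.nrm j ⬝ᵥ u ≠ 0}
  let Ψ : (Fin v → ℝ) →ₗ[ℝ] (∀ j : J, (C.inc j.1 → ℝ) ⧸ (C.perpEval u j.1).range) :=
    LinearMap.pi fun j =>
      (Submodule.mkQ _).comp (LinearMap.funLeft ℝ ℝ (fun i : C.inc j.1 => (i : Fin v)))
  let L : (E3 × ℝ) →ₗ[ℝ] (Fin v → ℝ) :=
    { toFun := fun q i => q.1 ⬝ᵥ C.x i + q.2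
      map_add' := fun q r => by funext i; simp [add_dotProduct]; ring
      map_smul' := fun c q => by funext i; simp [smul_dotProduct, mul_add] }
  have hker : 5 ≤ finrank ℝ Ψ.ker := by
    have h1 := LinearMap.finrank_range_add_finrank_ker Ψ
    have h2 := Submodule.finrank_le Ψ.range
    have hj : ∀ j : J, finrank ℝ ((C.inc j.1 → ℝ) ⧸ (C.perpEval u j.1).range) =
        (C.inc j.1).card - 3 := fun j => by
      have := (C.perpEval u j.1).range.finrank_quotient_add_finrank
      rw [finrank_range_perpEval h j.2, finrank_pi, Fintype.card_coe] at this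
      omega
    have hsum : ∑ j : J, finrank ℝ ((C.inc j.1 → ℝ) ⧸ (C.perpEval u j.1).range) =
        ∑ j ∈ Finset.univ.filter (fun j => C.nrm j ⬝ᵥ u ≠ 0), ((C.inc j).card - 3) := by
      rw [Finset.sum_congr rfl fun j _ => hj j]
      exact (Finset.sum_subtype _ (fun j => by simp) fun j => (C.inc j).card - 3).symm
    rw [finrank_pi_fintype, hsum] at h2
    rw [finrank_fin_fun] at h1
    omega
  have hL : finrank ℝ L.range ≤ 4 := L.finrank_range_le.trans (by simp)
  obtain ⟨c, hc, hcL⟩ : ∃ c ∈ Ψ.ker, c ∉ L.range := by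
    by_contra hne
    push Not at hne
    have := Submodule.finrank_mono (show Ψ.ker ≤ L.range from hne)
    omega
  have hex : ∀ j, ∃ (a : E3) (α : ℝ), a ⬝ᵥ u = 0 ∧
      ∀ i, C.slack i j = 0 → C.nrm j ⬝ᵥ u ≠ 0 → c i = a ⬝ᵥ C.x i + α := fun j => by
    by_cases hju : C.nrm j ⬝ᵥ u = 0
    · exact ⟨0, 0, zero_dotProduct u, fun i _ hn => absurd hju hn⟩
    · have := congrFun (LinearMap.mem_ker.1 hc) ⟨j, hju⟩
      obtain ⟨⟨⟨a, ha⟩, α⟩, he⟩ := (Submodule.Quotient.mk_eq_zero _).1 this
      exact ⟨a, α, ha, fun i hi _ => (congrFun he ⟨i, mem_inc.2 hi⟩).symm⟩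
  choose a α ha hag using hex
  refine ⟨{ u := u, c := c, a := a, α := α, perp := ha, agree := fun i j => hag j i },
    hu, fun ⟨b, β, hb⟩ => hcL ⟨(b, β), funext fun i => (hb i).symm⟩⟩

end Cfg

open Cfg in
/-- Piece D. -/
theorem countStmt : CountStmt := by
  intro v f C h hv hvf
  classical
  by_cases hq : ∃ j, 4 ≤ (C.inc j).card
  · obtain ⟨j₀, hj₀⟩ := hq
    obtain ⟨u, hu, hju⟩ : ∃ u : E3, u ≠ 0 ∧ C.nrm j₀ ⬝ᵥ u = 0 := by
      set n := C.nrm j₀
      by_cases h1 : n 1 = 0
      · refine ⟨Pi.single 1 1, fun e => by simpa using congrFun e 1, ?_⟩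
        simp [dotProduct, Fin.sum_univ_three, h1]
      · refine ⟨![n 1, -n 0, 0], fun e => h1 (by simpa using congrFun e 0), ?_⟩
        simp [dotProduct, Fin.sum_univ_three]; ring
    refine exists_nonTriv h hu ?_
    have h3 : ∑ j, (C.inc j).card = ∑ j, ((C.inc j).card - 3) + 3 * f := by
      rw [Finset.sum_congr rfl fun j _ => (Nat.sub_add_cancel (three_le_inc h j)).symm,
        Finset.sum_add_distrib]
      simp [mul_comm]
    have hb := sum_inc_le h (by omega)
    have hs := Finset.sum_lt_sum_of_subset (f := fun j => (C.inc j).card - 3)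
      (Finset.filter_subset (fun j => C.nrm j ⬝ᵥ u ≠ 0) Finset.univ) (Finset.mem_univ j₀)
      (by simp [hju]) (by omega) (fun j _ _ => Nat.zero_le _)
    omega
  · push Not at hq
    refine exists_nonTriv h (u := e0) (fun e => by simpa [e0] using congrFun e 0) ?_
    rw [Finset.sum_eq_zero fun j _ => by have := hq j; omega]
    omega

end Vale.Agent.P248.Three
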