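import Vale.Agent.P248.Ellipsoids.Defs

/-!
P248, dimension three, the general conjecture: configurations of points and half spaces, shadow
moves, and the interfaces of the proof in `notes/P248/helper4-R3-proof.md`.
-/

noncomputable section

open MeasureTheory Set Matrix
open Vale.Agent.P248.Ellipsoids (polarSet)

namespace Vale.Agent.P248.Three

/-- Three-space. -/
abbrev E3 := Fin 3 → ℝ

/-- The first basis vector. -/
def e0 : E3 := Pi.single 0 1

/-- The volume of the polar about a point. -/
def polVol (K : Set E3) (z : E3) : ℝ :=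
  (volume (polarSet ((fun x => x - z) '' K))).toReal

/-- The product bound of the simplex, about every interior point. -/
def Bound (K : Set E3) : Prop :=
  ∀ z ∈ interior K, 64 / 9 ≤ (volume K).toReal * polVol K z

/-- Finitely many points and half spaces. -/
structure Cfg (v f : ℕ) where
  x : Fin v → E3
  nrm : Fin f → E3
  off : Fin f → ℝ

namespace Cfg

variable {v f : ℕ} (C : Cfg v f)

/-- The value at a point of the functional of a half space; never positive in a configuration. -/
def slack (i : Fin v) (j : Fin f) : ℝ := C.nrm j ⬝ᵥ C.x i - C.off j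

/-- The intersection of the half spaces. -/
def body : Set E3 := {p | ∀ j, C.nrm j ⬝ᵥ p ≤ C.off j}

/-- The points and the half spaces describe one body. -/
structure IsCfg : Prop where
  hull : convexHull ℝ (range C.x) = C.body
  solid : (interior C.body).Nonempty

/-- No point and no half space can be left out. -/
structure Reduced : Prop extends C.IsCfg where
  extreme : ∀ i, C.x i ∉ convexHull ℝ (C.x '' {k | k ≠ i})
  needed : ∀ j, ∃ p, C.off j < C.nrm j ⬝ᵥ p ∧ ∀ k, k ≠ j → C.nrm k ⬝ᵥ p ≤ C.off k

/-- The number of non-incidences. -/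
def nonInc : ℕ := (Finset.univ.filter fun q : Fin v × Fin f => C.slack q.1 q.2 ≠ 0).card

/-- Velocities along one direction that are affine on every facet not parallel to it. -/
structure Move where
  u : E3
  c : Fin v → ℝ
  a : Fin f → E3
  α : Fin f → ℝ
  perp : ∀ j, a j ⬝ᵥ u = 0
  agree : ∀ i j, C.slack i j = 0 → C.nrm j ⬝ᵥ u ≠ 0 → c i = a j ⬝ᵥ C.x i + α j

/-- The velocities are not the restriction of an affine function. -/
def Move.NonTriv (M : C.Move) : Prop :=
  M.u ≠ 0 ∧ ¬∃ (a : E3) (β : ℝ), ∀ i, M.c i = a ⬝ᵥ C.x i + β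

/-- The moved configuration. -/
def moved (M : C.Move) (t : ℝ) : Cfg v f where
  x i := C.x i + (t * M.c i) • M.u
  nrm j := C.nrm j - (t * (C.nrm j ⬝ᵥ M.u)) • M.a j
  off j := C.off j + t * (C.nrm j ⬝ᵥ M.u) * M.α j

end Cfg

/-- Piece A: the polar about suitable points is harmonically concave along a shadow combination. -/
def PolarStmt : Prop :=
  ∀ (Ka K Kb : Set E3), IsCompact Ka → Convex ℝ Ka → IsCompact Kb → Convex ℝ Kb → IsCompact K →
    ∀ θ : ℝ, 0 < θ → θ < 1 →
      (∀ p ∈ K, ∃ s r : ℝ, p + s • e0 ∈ Ka ∧ p + r • e0 ∈ Kb ∧ (1 - θ) * s + θ * r = 0) →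
      (interior Ka).Nonempty → (interior Kb).Nonempty →
      ∀ z ∈ interior K, ∃ za ∈ interior Ka, ∃ zb ∈ interior Kb,
        (polVol K z)⁻¹ ≤ (1 - θ) * (polVol Ka za)⁻¹ + θ * (polVol Kb zb)⁻¹

/-- Piece C: the volume is affine along a move. -/
def VolumeStmt : Prop :=
  ∀ (v f : ℕ) (C : Cfg v f), C.IsCfg → ∀ M : C.Move, M.u = e0 → ∀ lo hi : ℝ, lo < 0 → 0 < hi →
    (C.moved M lo).IsCfg → (C.moved M hi).IsCfg →
    (hi - lo) * (volume C.body).toReal =
      hi * (volume (C.moved M lo).body).toReal - lo * (volume (C.moved M hi).body).toReal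

/-- Piece D: a nontrivial move exists when there are at least five points and at least as many
half spaces as points. -/
def CountStmt : Prop :=
  ∀ (v f : ℕ) (C : Cfg v f), C.Reduced → 5 ≤ v → v ≤ f → ∃ M : C.Move, M.NonTriv

end Vale.Agent.P248.Three
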