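import Vale.Agent.P248.Three.Moved

/-!
P248, dimension three: a nontrivial move can be adjusted to a bounded interval of times, and at
both ends there is one incidence more.
-/

noncomputable section

open Set Matrix

namespace Vale.Agent.P248.Three

namespace Cfg

variable {v f : ℕ} {C : Cfg v f}

theorem IsCfg.exists_strict (h : C.IsCfg) {j : Fin f} (hn : C.nrm j ≠ 0) :
    ∃ i, C.slack i j < 0 := by
  by_contra hc
  push Not at hc
  obtain ⟨q, hq⟩ := h.solid
  obtain ⟨l, l0, l1, rfl⟩ := h.exists_comb (interior_subset hq)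
  have := strict_of_interior hq j hn
  rw [← sub_neg, comb_slack _ l1] at this
  exact not_le.2 this (Finset.sum_nonneg fun i _ => mul_nonneg (l0 i) (hc i))

/-- Add the affine velocity of a stretch along the direction. -/
def Move.shift (M : C.Move) (hu : M.u ≠ 0) (γ : ℝ) : C.Move where
  u := M.u
  c i := M.c i + ((γ / (M.u ⬝ᵥ M.u)) • M.u) ⬝ᵥ C.x i
  a j := if C.nrm j ⬝ᵥ M.u = 0 then M.a j else
    M.a j + (γ / (M.u ⬝ᵥ M.u)) • M.u - (γ / (C.nrm j ⬝ᵥ M.u)) • C.nrm j
  α j := if C.nrm j ⬝ᵥ M.u = 0 then M.α j else M.α j + γ / (C.nrm j ⬝ᵥ M.u) * C.off j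
  perp j := by
    split_ifs with h
    · exact M.perp j
    · have : M.u ⬝ᵥ M.u ≠ 0 := fun e => hu (dotProduct_self_eq_zero.1 e)
      simp [sub_dotProduct, add_dotProduct, smul_dotProduct, M.perp j,
        div_mul_cancel₀ _ this, div_mul_cancel₀ _ h]
  agree i j hs h := by
    have hx : C.nrm j ⬝ᵥ C.x i = C.off j := sub_eq_zero.1 hs
    simp only [h, if_false, sub_dotProduct, add_dotProduct, smul_dotProduct, smul_eq_mul, hx,
      M.agree i j hs h]
    ring

theorem Move.shift_D (M : C.Move) (hu : M.u ≠ 0) (γ : ℝ) {j : Fin f}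
    (h : C.nrm j ⬝ᵥ M.u ≠ 0) (i : Fin v) :
    (M.shift hu γ).D i j = M.D i j + γ * C.slack i j := by
  simp only [Move.D, Move.shift, slack, h, if_false, sub_dotProduct, add_dotProduct,
    smul_dotProduct, smul_eq_mul]
  field_simp
  ring

theorem Move.shift_nonTriv (M : C.Move) (hM : M.NonTriv) (γ : ℝ) :
    (M.shift hM.1 γ).NonTriv := by
  refine ⟨hM.1, ?_⟩
  rintro ⟨a, β, h⟩
  refine hM.2 ⟨a - (γ / (M.u ⬝ᵥ M.u)) • M.u, β, fun i => ?_⟩
  have := h i
  simp only [Move.shift] at this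
  rw [sub_dotProduct]
  linarith

/-- In a half space not parallel to a nontrivial move the derivatives are no multiple of the
slacks. -/
theorem Move.not_prop (M : C.Move) (hM : M.NonTriv) {j : Fin f} (h : C.nrm j ⬝ᵥ M.u ≠ 0)
    (r : ℝ) : ∃ i, M.D i j ≠ r * C.slack i j := by
  by_contra hc
  push Not at hc
  refine hM.2 ⟨M.a j + (r / (C.nrm j ⬝ᵥ M.u)) • C.nrm j,
    M.α j - r / (C.nrm j ⬝ᵥ M.u) * C.off j, fun i => ?_⟩
  have := hc i
  simp only [Move.D, slack] at this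
  simp only [add_dotProduct, smul_dotProduct, smul_eq_mul]
  field_simp
  linarith

theorem Reduced.exists_not_parallel (h : C.Reduced) {u : E3} (hu : u ≠ 0) (hv : 0 < v) :
    ∃ j, C.nrm j ⬝ᵥ u ≠ 0 := by
  by_contra hc
  push Not at hc
  exact hu (h.vertex_span ⟨0, hv⟩ u fun j _ => hc j)

/-- A nontrivial move gives a bounded interval of times whose ends have fewer non-incidences. -/
theorem Reduced.exists_interval_all (hC : C.Reduced) (hv : 0 < v) (M₀ : C.Move)
    (hM₀ : M₀.NonTriv) :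
    ∃ M : C.Move, M.u = M₀.u ∧ ∃ lo hi : ℝ, lo < 0 ∧ 0 < hi ∧
      (∀ t ∈ Icc lo hi, (C.moved M t).IsCfg) ∧
      (C.moved M lo).nonInc < C.nonInc ∧ (C.moved M hi).nonInc < C.nonInc := by
  classical
  obtain ⟨j, hj⟩ := hC.exists_not_parallel hM₀.1 hv
  have hsl := hC.toIsCfg.slack_nonpos
  obtain ⟨i₁, h₁⟩ := hC.toIsCfg.exists_strict (hC.nrm_ne j)
  obtain ⟨i₂, h₂⟩ := M₀.not_prop hM₀ hj (M₀.D i₁ j / C.slack i₁ j)
  have hs₂ : C.slack i₂ j < 0 := lt_of_le_of_ne (hsl _ _) fun e => h₂ (by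
    rw [M₀.D_eq_zero e, e, mul_zero])
  set r₁ := M₀.D i₁ j / C.slack i₁ j
  set r₂ := M₀.D i₂ j / C.slack i₂ j
  set γ := -(r₁ + r₂) / 2 with hγ
  set M := M₀.shift hM₀.1 γ with hMdef
  have hMn : M.NonTriv := M₀.shift_nonTriv hM₀ γ
  have d1 : M.D i₁ j = C.slack i₁ j * ((r₁ - r₂) / 2) := by
    rw [hMdef, Move.shift_D _ _ _ hj, ← div_mul_cancel₀ (M₀.D i₁ j) h₁.ne, hγ]; ring
  have d2 : M.D i₂ j = C.slack i₂ j * ((r₂ - r₁) / 2) := by
    rw [hMdef, Move.shift_D _ _ _ hj, ← div_mul_cancel₀ (M₀.D i₂ j) hs₂.ne, hγ]; ring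
  have hne : r₂ ≠ r₁ := fun e => h₂ ((div_eq_iff hs₂.ne).1 e)
  obtain ⟨hpos, hneg⟩ : (∃ q : Fin v × Fin f, 0 < M.D q.1 q.2) ∧
      ∃ q : Fin v × Fin f, M.D q.1 q.2 < 0 := by
    rcases lt_or_gt_of_ne hne with h | h
    · exact ⟨⟨(i₂, j), by rw [d2]; exact mul_pos_of_neg_of_neg hs₂ (by linarith)⟩,
        ⟨(i₁, j), by rw [d1]; exact mul_neg_of_neg_of_pos h₁ (by linarith)⟩⟩
    · exact ⟨⟨(i₁, j), by rw [d1]; exact mul_pos_of_neg_of_neg h₁ (by linarith)⟩,
        ⟨(i₂, j), by rw [d2]; exact mul_neg_of_neg_of_pos hs₂ (by linarith)⟩⟩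
  have sneg : ∀ {i j}, M.D i j ≠ 0 → C.slack i j < 0 := fun {i j} h =>
    lt_of_le_of_ne (hsl i j) fun e => h (M.D_eq_zero e)
  set root := fun q : Fin v × Fin f => -C.slack q.1 q.2 / M.D q.1 q.2 with hroot
  obtain ⟨qh, hqh, hhi⟩ := Finset.exists_min_image
    (Finset.univ.filter fun q : Fin v × Fin f => 0 < M.D q.1 q.2) root
    (hpos.imp fun q hq => Finset.mem_filter.2 ⟨Finset.mem_univ _, hq⟩)
  obtain ⟨ql, hql, hlo⟩ := Finset.exists_max_image
    (Finset.univ.filter fun q : Fin v × Fin f => M.D q.1 q.2 < 0) root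
    (hneg.imp fun q hq => Finset.mem_filter.2 ⟨Finset.mem_univ _, hq⟩)
  simp only [Finset.mem_filter, Finset.mem_univ, true_and] at hqh hql hhi hlo
  have hhi0 : 0 < root qh := div_pos (neg_pos.2 (sneg hqh.ne')) hqh
  have hlo0 : root ql < 0 := div_neg_of_pos_of_neg (neg_pos.2 (sneg hql.ne)) hql
  have hle : ∀ t ∈ Icc (root ql) (root qh), ∀ i j, (C.moved M t).slack i j ≤ 0 := by
    intro t ht i j
    rw [slack_moved]
    rcases lt_trichotomy (M.D i j) 0 with h | h | h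
    · have := (div_le_iff_of_neg h).1 ((hlo (i, j) h).trans ht.1)
      dsimp only at this; linarith
    · simp [h, hsl]
    · have := (le_div_iff₀ h).1 (ht.2.trans (hhi (i, j) h))
      dsimp only at this; linarith
  have hlt : ∀ t ∈ Ioo (root ql) (root qh), ∀ i j,
      (C.moved M t).slack i j = 0 → C.slack i j = 0 := by
    intro t ht i j e
    rw [slack_moved] at e
    rcases lt_trichotomy (M.D i j) 0 with h | h | h
    · have := (div_lt_iff_of_neg h).1 ((hlo (i, j) h).trans_lt ht.1)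
      dsimp only at this; linarith
    · simpa [h] using e
    · have := (lt_div_iff₀ h).1 (ht.2.trans_le (hhi (i, j) h))
      dsimp only at this; linarith
  have hF : ∀ t ∈ Icc (root ql) (root qh), Feasible M t := fun t ht => by
    refine ⟨hle t ht, fun k => ?_⟩
    by_contra hc
    push Not at hc
    have hz : ∀ i, C.slack i k + t * M.D i k = 0 := fun i => by
      rw [← slack_moved]; exact le_antisymm (hle t ht i k) (hc i)
    obtain ⟨i, hi⟩ := hC.toIsCfg.exists_strict (hC.nrm_ne k)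
    by_cases hk : C.nrm k ⬝ᵥ M.u = 0
    · exact hi.ne (by simpa [Move.D, hk] using hz i)
    rcases eq_or_ne t 0 with rfl | ht0
    · exact hi.ne (by simpa using hz i)
    obtain ⟨i', hi'⟩ := M.not_prop hMn hk (-1 / t)
    exact hi' (by field_simp; linarith [hz i'])
  have hcfg := isCfg_moved hC.toIsCfg M hv hlo0 hhi0 hF hlt
  have hdec : ∀ (t : ℝ) (q : Fin v × Fin f), M.D q.1 q.2 ≠ 0 → t = root q →
      (C.moved M t).nonInc < C.nonInc := by
    intro t q hq ht
    refine Finset.card_lt_card ((Finset.ssubset_iff_of_subset fun r hr => ?_).2 ⟨q, ?_, ?_⟩)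
    · simp only [Finset.mem_filter, Finset.mem_univ, true_and, slack_moved] at hr ⊢
      exact fun e => hr (by rw [e, M.D_eq_zero e]; ring)
    · simp [(sneg hq).ne]
    · simp only [Finset.mem_filter, Finset.mem_univ, true_and, not_not, slack_moved, ht, hroot]
      field_simp
      ring
  exact ⟨M, rfl, root ql, root qh, hlo0, hhi0, hcfg, hdec _ ql hql.ne rfl, hdec _ qh hqh.ne' rfl⟩

/-- A nontrivial move gives a bounded interval of times with configurations at both ends. -/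
theorem Reduced.exists_interval (hC : C.Reduced) (hv : 0 < v) (M₀ : C.Move) (hM₀ : M₀.NonTriv) :
    ∃ M : C.Move, M.u = M₀.u ∧ ∃ lo hi : ℝ, lo < 0 ∧ 0 < hi ∧
      (C.moved M lo).IsCfg ∧ (C.moved M hi).IsCfg ∧
      (C.moved M lo).nonInc < C.nonInc ∧ (C.moved M hi).nonInc < C.nonInc := by
  obtain ⟨M, hu, lo, hi, hlo, hhi, h, n1, n2⟩ := hC.exists_interval_all hv M₀ hM₀
  exact ⟨M, hu, lo, hi, hlo, hhi, h _ ⟨le_rfl, by linarith⟩, h _ ⟨by linarith, le_rfl⟩, n1, n2⟩

end Cfg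

end Vale.Agent.P248.Three
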