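import Vale.Agent.P248.Three.EqualityGlobal

/-!
P248, dimension three, equality: the smallest product is attained exactly by tetrahedra.
-/

noncomputable section

open MeasureTheory Set Matrix Function

namespace Vale.Agent.P248.Three

theorem quadMat_mulVec_succ (a : Fin 4 → E3) (w : Fin 4 → ℝ) (hw : ∑ i, w i = 0) :
    quadMat a *ᵥ (fun k => w k.succ) = ∑ i, w i • a i := by
  have h : w 0 = -(w 1 + w 2 + w 3) := by rw [Fin.sum_univ_four] at hw; linarith
  funext k
  simp [quadMat, Matrix.mulVec, dotProduct, Fin.sum_univ_four, Fin.sum_univ_three, h]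
  ring

/-- Four points span a solid tetrahedron exactly when they are affinely independent. -/
theorem affineIndependent_iff_tdet {a : Fin 4 → E3} : AffineIndependent ℝ a ↔ tdet a ≠ 0 := by
  rw [affineIndependent_iff]
  constructor
  · intro h h0
    obtain ⟨γ, hγ, hγ0⟩ := Matrix.exists_mulVec_eq_zero_iff.2 (show (quadMat a).det = 0 from h0)
    set w : Fin 4 → ℝ := Fin.cons (-∑ k, γ k) γ with hw
    have hs : ∑ i, w i = 0 := by simp [hw, Fin.sum_univ_succ]
    refine hγ (funext fun k => ?_)
    have := h Finset.univ w hs (by rw [← quadMat_mulVec_succ a w hs]; simpa [hw] using hγ0)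
      k.succ (Finset.mem_univ _)
    simpa [hw] using this
  · intro h s w hs h0 i hi
    classical
    set w' : Fin 4 → ℝ := fun j => if j ∈ s then w j else 0 with hw'
    have hs' : ∑ j, w' j = 0 := by simpa [hw', Finset.sum_ite_mem] using hs
    have h0' : ∑ j, w' j • a j = 0 := by simpa [hw', ite_smul, Finset.sum_ite_mem] using h0
    rw [← quadMat_mulVec_succ a w' hs'] at h0'
    have hinj := Matrix.mulVec_injective_of_isUnit
      ((quadMat a).isUnit_iff_isUnit_det.2 (isUnit_iff_ne_zero.2 h))
    have hγ : (fun k : Fin 3 => w' k.succ) = 0 := hinj (by rw [h0', Matrix.mulVec_zero])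
    have hk : ∀ k : Fin 3, w' k.succ = 0 := fun k => congrFun hγ k
    have hall : w' i = 0 := by
      refine Fin.cases ?_ hk i
      rw [Fin.sum_univ_succ] at hs'
      simpa [hk] using hs'
    simpa [hw', hi] using hall

/-- The corner is carried onto the hull of the four points. -/
theorem image_corner (a : Fin 4 → E3) : quadMap a '' corner = convexHull ℝ (range a) :=
  Subset.antisymm
    (by rintro _ ⟨p, hp, rfl⟩
        exact quadMap_mem (convex_convexHull ℝ _) (fun i => subset_convexHull ℝ (range a) (mem_range_self i)) hp)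
    fun _ hy => mem_image_corner_of_hull a hy

theorem interior_image_corner {a : Fin 4 → E3} (ha : tdet a ≠ 0) {c : E3}
    (hc : c ∈ interior corner) : quadMap a c ∈ interior (quadMap a '' corner) := by
  have hu : IsUnit (quadMat a).det := isUnit_iff_ne_zero.2 ha
  set g : E3 → E3 := fun y => (quadMat a)⁻¹ *ᵥ (y - a 0)
  have hg : ∀ y, quadMap a (g y) = y := fun y => by
    simp only [quadMap, g, Matrix.mulVec_mulVec, Matrix.mul_nonsing_inv _ hu, Matrix.one_mulVec,
      sub_add_cancel]
  have hg' : ∀ p, g (quadMap a p) = p := fun p => by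
    simp only [quadMap, g, add_sub_cancel_right, Matrix.mulVec_mulVec,
      Matrix.nonsing_inv_mul _ hu, Matrix.one_mulVec]
  have hcont : Continuous g :=
    (Matrix.toLin' (quadMat a)⁻¹).continuous_of_finiteDimensional.comp (continuous_sub_right (a 0))
  refine mem_interior.2 ⟨g ⁻¹' interior corner, fun y hy => ⟨g y, interior_subset hy, hg y⟩,
    isOpen_interior.preimage hcont, ?_⟩
  rwa [mem_preimage, hg']

/-- A tetrahedron has the product of the simplex at its centroid. -/
theorem tetra_product {a : Fin 4 → E3} (ha : tdet a ≠ 0) :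
    ∃ z ∈ interior (convexHull ℝ (range a)),
      (volume (convexHull ℝ (range a))).toReal * polVol (convexHull ℝ (range a)) z = 64 / 9 := by
  set c : E3 := fun _ => 1 / 4
  have hc : c ∈ interior corner := interior_of_bary_pos fun i => by
    refine Fin.cases ?_ (fun k => ?_) i
    · rw [bary_zero]; norm_num [c]
    · rw [bary_succ]; norm_num [c]
  rw [← image_corner a]
  refine ⟨_, interior_image_corner ha hc, ?_⟩
  rw [product_quadMap ha corner c, volume_corner, polVol,
    polar_corner (fun k => by norm_num [c]) (by norm_num [c])]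
  norm_num [c]

/-- The product is at least that of the simplex, with equality exactly for tetrahedra. -/
theorem equality_of (h : StableStmt) {K : Set E3} (hK : IsCompact K) (hc : Convex ℝ K)
    (hs : (interior K).Nonempty) :
    64 / 9 ≤ (⨅ z : interior K, (volume K).toReal * polVol K (z : E3)) ∧
    ((⨅ z : interior K, (volume K).toReal * polVol K (z : E3)) = 64 / 9 ↔
      ∃ a : Fin 4 → E3, AffineIndependent ℝ a ∧ K = convexHull ℝ (range a)) := by
  obtain ⟨C, hC, hst⟩ := h
  obtain ⟨b, hb, hbpos, hmax⟩ := exists_largest hK hs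
  have : Nonempty (interior K) := hs.to_subtype
  have hF := exists_frame hK hc hb hbpos hmax
  set V0 := 6 * (volume (quadMap b ⁻¹' K)).toReal with hV0
  have h1 : 1 ≤ V0 := one_le_six_vol hF.compact hF.corner_sub
  have hge : 64 / 9 * (1 + C * (V0 - 1)) ≤
      ⨅ z : interior K, (volume K).toReal * polVol K (z : E3) := by
    refine le_ciInf fun z => ?_
    obtain ⟨a, ha, hapos, hle⟩ := hst K hK hc z z.2
    refine le_trans ?_ hle
    have he : V0 = 6 * (volume K).toReal / |tdet b| := by
      rw [hV0, hF.volume_eq]
      field_simp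
    have : 6 * (volume K).toReal / |tdet b| ≤ 6 * (volume K).toReal / |tdet a| :=
      div_le_div_of_nonneg_left (by positivity) hapos (hmax a ha)
    rw [he]
    gcongr
  have hCV : 0 ≤ C * (V0 - 1) := mul_nonneg hC.le (by linarith)
  refine ⟨by linarith, fun heq => ?_, ?_⟩
  · refine ⟨b, affineIndependent_iff_tdet.2 (abs_pos.1 hbpos), ?_⟩
    have hV : V0 ≤ 1 := by
      by_contra hlt
      have := mul_pos hC (show 0 < V0 - 1 by linarith)
      linarith
    have hcor : quadMap b ⁻¹' K = corner := by
      refine Subset.antisymm (fun p hp => mem_corner_bary.2 fun i => ?_) hF.corner_sub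
      linarith [neg_bary_le hF.compact hF.convex hF.corner_sub hp i]
    rw [← image_corner b, ← hcor, hF.image]
  · rintro ⟨a, ha, rfl⟩
    obtain ⟨z, hz, hzp⟩ := tetra_product (affineIndependent_iff_tdet.1 ha)
    refine le_antisymm ?_ (by linarith)
    have hbdd : BddBelow (range fun z : interior (convexHull ℝ (range a)) =>
        (volume (convexHull ℝ (range a))).toReal * polVol (convexHull ℝ (range a)) (z : E3)) :=
      ⟨0, by rintro _ ⟨w, rfl⟩; exact mul_nonneg ENNReal.toReal_nonneg ENNReal.toReal_nonneg⟩
    exact (ciInf_le hbdd ⟨z, hz⟩).trans hzp.le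

end Vale.Agent.P248.Three
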