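import Vale.Agent.P248.Three.EqualityDefs

/-!
P248, dimension three, equality: signed volumes of tetrahedra under affine maps, largest
tetrahedra, and the normalisation that makes the largest one the corner.
-/

noncomputable section

open MeasureTheory Set Matrix Function
open Vale.Agent.P248.Ellipsoids (polarSet)

namespace Vale.Agent.P248.Three

/-- The linear part of the affine map from the corner to a tetrahedron. -/
def quadMat (a : Fin 4 → E3) : Matrix (Fin 3) (Fin 3) ℝ :=
  Matrix.of fun k l => a l.succ k - a 0 k

/-- The affine map from the corner to a tetrahedron. -/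
def quadMap (a : Fin 4 → E3) (p : E3) : E3 := quadMat a *ᵥ p + a 0

theorem tdet_eq (a : Fin 4 → E3) : tdet a = (quadMat a).det := rfl

theorem quadMap_eq (a : Fin 4 → E3) (p : E3) : quadMap a p = ∑ i, bary p i • a i := by
  funext k
  simp [quadMap, quadMat, Matrix.mulVec, dotProduct, Fin.sum_univ_four, Fin.sum_univ_three,
    bary_zero, bary_one, bary_two, bary_three]
  ring

theorem quadMap_vert (a : Fin 4 → E3) (i : Fin 4) : quadMap a (vert i) = a i := by
  simp [quadMap_eq, bary_vert]

theorem quadMap_combo (a : Fin 4 → E3) {p q : E3} {s t : ℝ} (h : s + t = 1) :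
    quadMap a (s • p + t • q) = s • quadMap a p + t • quadMap a q := by
  obtain rfl : t = 1 - s := by linarith
  simp only [quadMap, Matrix.mulVec_add, Matrix.mulVec_smul, smul_add]
  module

theorem continuous_quadMap (a : Fin 4 → E3) : Continuous (quadMap a) := by
  simp only [funext (quadMap_eq a)]
  exact continuous_finsetSum _ fun i _ => (continuous_bary i).smul continuous_const

theorem continuous_tdet : Continuous tdet := by
  rw [show tdet = fun a => (quadMat a).det from rfl]
  exact Continuous.matrix_det (continuous_matrix fun k l => by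
    simp only [quadMat, Matrix.of_apply]
    fun_prop)

theorem tdet_affine (A : Matrix (Fin 3) (Fin 3) ℝ) (b : E3) (a : Fin 4 → E3) :
    tdet (fun i => A *ᵥ a i + b) = A.det * tdet a := by
  rw [tdet_eq, tdet_eq, ← Matrix.det_mul]
  congr 1
  ext k l
  simp [quadMat, Matrix.mul_apply, Matrix.mulVec, dotProduct, mul_sub, Finset.sum_sub_distrib]

/-- Replacing one vertex multiplies the signed volume by the coordinate of the new one. -/
theorem tdet_update (a : Fin 4 → E3) (i : Fin 4) (p : E3) :
    tdet (update a i (quadMap a p)) = bary p i * tdet a := by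
  fin_cases i <;>
    simp [tdet, quadMap, quadMat, Matrix.det_fin_three, Matrix.mulVec, dotProduct,
      Fin.sum_univ_three, bary_zero, bary_one, bary_two, bary_three, Function.update_apply] <;>
    ring

theorem tdet_update_combo (a : Fin 4 → E3) (i : Fin 4) {p q : E3} {s t : ℝ} (h : s + t = 1) :
    tdet (update a i (s • p + t • q)) = s * tdet (update a i p) + t * tdet (update a i q) := by
  obtain rfl : t = 1 - s := by linarith
  fin_cases i <;>
    simp [tdet, Matrix.det_fin_three, Function.update_apply] <;>
    ring

/-- A vertex may be pushed to a point of a finite set without losing volume. -/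
theorem abs_tdet_update_le (a : Fin 4 → E3) (i : Fin 4) {S : Set E3} {m : ℝ}
    (hS : ∀ p ∈ S, |tdet (update a i p)| ≤ m) {p : E3} (hp : p ∈ convexHull ℝ S) :
    |tdet (update a i p)| ≤ m := by
  refine convexHull_min (s := S) (t := {p | |tdet (update a i p)| ≤ m}) hS ?_ hp
  intro x hx y hy s t hs ht hst
  show |tdet (update a i (s • x + t • y))| ≤ m
  rw [tdet_update_combo a i hst]
  calc |s * tdet (update a i x) + t * tdet (update a i y)|
      ≤ |s * tdet (update a i x)| + |t * tdet (update a i y)| := abs_add_le _ _
    _ = s * |tdet (update a i x)| + t * |tdet (update a i y)| := by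
        rw [abs_mul, abs_mul, abs_of_nonneg hs, abs_of_nonneg ht]
    _ ≤ s * m + t * m :=
        add_le_add (mul_le_mul_of_nonneg_left hx hs) (mul_le_mul_of_nonneg_left hy ht)
    _ = m := by rw [← add_mul, hst, one_mul]

/-- In the hull of finitely many points the largest tetrahedron has its vertices among them. -/
theorem tdet_le_of_hull {v : ℕ} (x : Fin v → E3) {m : ℝ}
    (hm : ∀ q : Fin 4 → Fin v, |tdet (x ∘ q)| ≤ m) {a : Fin 4 → E3}
    (ha : ∀ i, a i ∈ convexHull ℝ (range x)) : |tdet a| ≤ m := by
  classical
  have key : ∀ (s : Finset (Fin 4)) (a : Fin 4 → E3), (∀ i, a i ∈ convexHull ℝ (range x)) →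
      (∀ i ∉ s, a i ∈ range x) → |tdet a| ≤ m := by
    intro s
    induction s using Finset.induction_on with
    | empty =>
      intro a _ ha
      choose q hq using fun i => ha i (Finset.notMem_empty i)
      rw [show a = x ∘ q from funext fun i => (hq i).symm]
      exact hm q
    | insert i s _ ih =>
      intro a ha hs
      rw [← update_eq_self i a]
      refine abs_tdet_update_le a i ?_ (ha i)
      intro p hp
      refine ih _ (fun k => ?_) fun k hk => ?_
      · rcases eq_or_ne k i with rfl | hki
        · rw [update_self]; exact subset_convexHull ℝ _ hp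
        · rw [update_of_ne hki]; exact ha k
      · rcases eq_or_ne k i with rfl | hki
        · rw [update_self]; exact hp
        · rw [update_of_ne hki]; exact hs k (by simp [hki, hk])
  exact key Finset.univ a ha fun i hi => absurd (Finset.mem_univ i) hi

theorem quadMap_mem {K : Set E3} (hK : Convex ℝ K) {a : Fin 4 → E3} (ha : ∀ i, a i ∈ K) {p : E3}
    (hp : p ∈ corner) : quadMap a p ∈ K := by
  rw [quadMap_eq]
  exact hK.sum_mem (fun i _ => mem_corner_bary.1 hp i) (sum_bary p) fun i _ => ha i

/-- The corner is the hull of its vertices. -/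
theorem mem_image_corner_of_hull (a : Fin 4 → E3) {y : E3} (hy : y ∈ convexHull ℝ (range a)) :
    y ∈ quadMap a '' corner := by
  refine convexHull_min (s := range a) ?_ ?_ hy
  · rintro _ ⟨i, rfl⟩
    exact ⟨_, vert_mem i, quadMap_vert a i⟩
  · rintro _ ⟨p, hp, rfl⟩ _ ⟨q, hq, rfl⟩ s t hs ht hst
    exact ⟨_, convex_corner hp hq hs ht hst, quadMap_combo a hst⟩

theorem volume_quadMap (a : Fin 4 → E3) (S : Set E3) :
    (volume (quadMap a '' S)).toReal = |tdet a| * (volume S).toReal :=
  volume_affine (quadMat a) (a 0) S

theorem volume_pos_of_solid {K : Set E3} (hK : IsCompact K) (hs : (interior K).Nonempty) :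
    0 < (volume K).toReal :=
  ENNReal.toReal_pos ((isOpen_interior.measure_pos volume hs).trans_le
    (measure_mono interior_subset)).ne' hK.measure_lt_top.ne

/-- A largest tetrahedron exists and is not flat. -/
theorem exists_largest {K : Set E3} (hK : IsCompact K) (hs : (interior K).Nonempty) :
    ∃ a : Fin 4 → E3, (∀ i, a i ∈ K) ∧ 0 < |tdet a| ∧
      ∀ b : Fin 4 → E3, (∀ i, b i ∈ K) → |tdet b| ≤ |tdet a| := by
  obtain ⟨z, hz⟩ := hs
  obtain ⟨ε, hε, hball⟩ := Metric.nhds_basis_closedBall.mem_iff.1 (mem_interior_iff_mem_nhds.1 hz)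
  obtain ⟨a, ha, hmax⟩ := (isCompact_univ_pi fun _ : Fin 4 => hK).exists_isMaxOn
    ⟨fun _ => z, fun i _ => interior_subset hz⟩ (continuous_abs.comp continuous_tdet).continuousOn
  refine ⟨a, fun i => ha i (mem_univ i), ?_, fun b hb => hmax fun i _ => hb i⟩
  set b : Fin 4 → E3 := fun i => quadMap (fun j => z + ε • vert j) (vert i)
  have hb : ∀ i, b i ∈ K := fun i => by
    simp only [b, quadMap_vert]
    refine hball ?_
    rw [mem_closedBall_iff_norm, add_sub_cancel_left, norm_smul, Real.norm_of_nonneg hε.le]
    refine mul_le_of_le_one_right hε.le ((pi_norm_le_iff_of_nonneg zero_le_one).2 fun k => ?_)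
    simp only [vert]
    split_ifs <;> simp
  refine lt_of_lt_of_le ?_ (hmax fun i _ => hb i : |tdet b| ≤ |tdet a|)
  have hv : tdet vert = 1 := by
    rw [tdet_eq, show quadMat vert = 1 by
      ext k l; fin_cases k <;> fin_cases l <;> simp [quadMat, vert], Matrix.det_one]
  have : tdet b = ε ^ 3 := by
    rw [show b = fun i => (Matrix.diagonal fun _ => ε) *ᵥ vert i + z from funext fun i => by
      simp only [b, quadMap_vert]
      funext k
      simp [add_comm], tdet_affine, hv, Matrix.det_diagonal]
    simp
  show 0 < |tdet b|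
  rw [this, abs_pos]
  positivity

/-- The product does not see an invertible affine map. -/
theorem product_quadMap {a : Fin 4 → E3} (ha : tdet a ≠ 0) (S : Set E3) (c : E3) :
    (volume (quadMap a '' S)).toReal * polVol (quadMap a '' S) (quadMap a c) =
      (volume S).toReal * polVol S c := by
  have e : quadMap a '' S = (fun p => p - -a 0) '' ((fun p => quadMat a *ᵥ p) '' S) := by
    rw [image_image]
    exact image_congr fun p _ => (sub_neg_eq_add _ _).symm
  rw [← product_mulVec_sub (quadMat a) ha S c, e, volume_sub]
  congr 1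
  rw [polVol, polVol, image_image (f := fun p => p - -a 0)]
  congr 2
  exact congrArg _ (image_congr fun p _ => by simp [quadMap])

/-- The body seen from its largest tetrahedron. -/
structure Frame (K : Set E3) (a : Fin 4 → E3) (K0 : Set E3) : Prop where
  image : quadMap a '' K0 = K
  compact : IsCompact K0
  convex : Convex ℝ K0
  corner_sub : corner ⊆ K0
  bary_le : ∀ p ∈ K0, ∀ i, bary p i ≤ 1

/-- Normalisation of the largest tetrahedron to the corner. -/
theorem exists_frame {K : Set E3} (hK : IsCompact K) (hc : Convex ℝ K) {a : Fin 4 → E3}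
    (ha : ∀ i, a i ∈ K) (hpos : 0 < |tdet a|)
    (hmax : ∀ b : Fin 4 → E3, (∀ i, b i ∈ K) → |tdet b| ≤ |tdet a|) :
    Frame K a (quadMap a ⁻¹' K) := by
  have hu : IsUnit (quadMat a).det := isUnit_iff_ne_zero.2 (abs_pos.1 hpos)
  set g : E3 → E3 := fun y => (quadMat a)⁻¹ *ᵥ (y - a 0)
  have hg : ∀ y, quadMap a (g y) = y := fun y => by
    simp only [quadMap, g, Matrix.mulVec_mulVec, Matrix.mul_nonsing_inv _ hu, Matrix.one_mulVec,
      sub_add_cancel]
  have hg' : ∀ p, g (quadMap a p) = p := fun p => by
    simp only [quadMap, g, add_sub_cancel_right, Matrix.mulVec_mulVec,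
      Matrix.nonsing_inv_mul _ hu, Matrix.one_mulVec]
  have hpre : quadMap a ⁻¹' K = g '' K := by
    ext p
    exact ⟨fun h => ⟨_, h, hg' p⟩, by rintro ⟨y, hy, rfl⟩; simpa [hg] using hy⟩
  refine ⟨image_preimage_eq _ fun y => ⟨g y, hg y⟩, ?_, ?_, fun p hp => quadMap_mem hc ha hp,
    fun p hp i => ?_⟩
  · rw [hpre]
    refine hK.image ?_
    exact (Matrix.toLin' (quadMat a)⁻¹).continuous_of_finiteDimensional.comp
      (continuous_sub_right (a 0))
  · intro p hp q hq s t hs ht hst
    rw [mem_preimage, quadMap_combo a hst]
    exact hc hp hq hs ht hst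
  · have h := hmax (update a i (quadMap a p)) fun k => by
      rcases eq_or_ne k i with rfl | hki
      · rw [update_self]; exact hp
      · rw [update_of_ne hki]; exact ha k
    rw [tdet_update, abs_mul] at h
    exact (le_abs_self _).trans (le_of_mul_le_mul_right (by rwa [one_mul]) hpos)

namespace Frame

variable {K K0 : Set E3} {a : Fin 4 → E3}

theorem volume_eq (h : Frame K a K0) : (volume K).toReal = |tdet a| * (volume K0).toReal := by
  rw [← h.image, volume_quadMap]

theorem exists_point (h : Frame K a K0) (hpos : 0 < |tdet a|) {z : E3} (hz : z ∈ interior K) :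
    ∃ c ∈ interior K0, quadMap a c = z ∧
      (volume K).toReal * polVol K z = (volume K0).toReal * polVol K0 c := by
  obtain ⟨c, -, hcz⟩ : z ∈ quadMap a '' K0 := h.image.symm ▸ interior_subset hz
  refine ⟨c, ?_, hcz, ?_⟩
  · have hinj : Injective (quadMap a) := fun p q e => by
      have := add_right_cancel (e : quadMat a *ᵥ p + a 0 = quadMat a *ᵥ q + a 0)
      exact Matrix.mulVec_injective_of_isUnit
        ((quadMat a).isUnit_iff_isUnit_det.2 (isUnit_iff_ne_zero.2 (abs_pos.1 hpos))) this
    rw [← preimage_image_eq K0 hinj, h.image]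
    refine preimage_interior_subset_interior_preimage (continuous_quadMap a) ?_
    rw [mem_preimage, hcz]
    exact hz
  · rw [← product_quadMap (abs_pos.1 hpos) K0 c, h.image, hcz]

end Frame

/-- A body all of whose barycentric coordinates are at most one has at most 27 times the volume
of the corner. -/
theorem volume_le_of_bary_le {K : Set E3} (h : ∀ p ∈ K, ∀ i, bary p i ≤ 1) :
    (volume K).toReal ≤ 9 / 2 := by
  set M : Matrix (Fin 3) (Fin 3) ℝ := Matrix.diagonal fun _ => -3
  have hsub : K ⊆ (fun q => M *ᵥ q + fun _ => 1) '' corner := by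
    intro p hp
    refine ⟨fun k => (1 - p k) / 3, mem_corner.2 ?_, ?_⟩
    · have h0 := h p hp 0
      have h1 := h p hp 1
      have h2 := h p hp 2
      have h3 := h p hp 3
      simp only [bary_zero, bary_one, bary_two, bary_three] at h0 h1 h2 h3
      refine ⟨?_, ?_, ?_, ?_⟩ <;> linarith
    · funext k
      simp [M]
      ring
  have hfin : volume ((fun q => M *ᵥ q + fun _ => 1) '' corner) ≠ ⊤ :=
    (isCompact_corner.image (by fun_prop)).measure_lt_top.ne
  refine (ENNReal.toReal_mono hfin (measure_mono hsub)).trans ?_
  rw [volume_affine, volume_corner]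
  norm_num [M, Matrix.det_diagonal]

end Vale.Agent.P248.Three
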