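import Vale.Agent.P248.Three.Main

/-!
P248, dimension three, equality: barycentric coordinates of the corner, the exchange of two vertices,
and volumes of affine images.
-/

noncomputable section

open MeasureTheory Set Matrix
open scoped ENNReal

namespace Vale.Agent.P248.Three

/-- The barycentric coordinates with respect to the corner. -/
def bary (p : E3) : Fin 4 → ℝ := Fin.cons (1 - (p 0 + p 1 + p 2)) p

theorem bary_zero (p : E3) : bary p 0 = 1 - (p 0 + p 1 + p 2) := rfl

theorem bary_succ (p : E3) (k : Fin 3) : bary p k.succ = p k := rfl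

theorem bary_one (p : E3) : bary p 1 = p 0 := rfl

theorem bary_two (p : E3) : bary p 2 = p 1 := rfl

theorem bary_three (p : E3) : bary p 3 = p 2 := rfl

theorem sum_bary (p : E3) : ∑ i, bary p i = 1 := by
  simp [Fin.sum_univ_four, bary_zero, bary_one, bary_two, bary_three]
  ring

theorem mem_corner_bary {p : E3} : p ∈ corner ↔ ∀ i, 0 ≤ bary p i := by
  rw [mem_corner]
  constructor
  · rintro ⟨a, b, c, d⟩ i
    fin_cases i
    · exact sub_nonneg.2 d
    · exact a
    · exact b
    · exact c
  · exact fun h => ⟨h 1, h 2, h 3, sub_nonneg.1 (h 0)⟩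

theorem convex_corner : Convex ℝ corner := by
  intro p hp q hq a b ha hb hab
  obtain ⟨p0, p1, p2, pt⟩ := mem_corner.1 hp
  obtain ⟨q0, q1, q2, qt⟩ := mem_corner.1 hq
  refine mem_corner.2 ⟨?_, ?_, ?_, ?_⟩ <;> simp only [Pi.add_apply, Pi.smul_apply, smul_eq_mul]
  · positivity
  · positivity
  · positivity
  · nlinarith [mul_le_mul_of_nonneg_left pt ha, mul_le_mul_of_nonneg_left qt hb]

theorem isCompact_corner : IsCompact corner := by
  refine Metric.isCompact_of_isClosed_isBounded ?_ ?_
  · have : corner = ⋂ i, {p : E3 | 0 ≤ bary p i} := by ext p; simp [mem_corner_bary]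
    rw [this]
    refine isClosed_iInter fun i => isClosed_le continuous_const ?_
    fin_cases i <;> simp [bary] <;> fun_prop
  · refine (Metric.isBounded_iff_subset_closedBall 0).2 ⟨1, fun p hp => ?_⟩
    obtain ⟨p0, p1, p2, pt⟩ := mem_corner.1 hp
    rw [mem_closedBall_zero_iff, pi_norm_le_iff_of_nonneg zero_le_one]
    intro k
    rw [Real.norm_eq_abs, abs_le]
    fin_cases k <;> constructor <;> simp <;> linarith

theorem continuous_bary (i : Fin 4) : Continuous fun p : E3 => bary p i := by
  fin_cases i <;> simp [bary] <;> fun_prop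

theorem bary_combo {p q : E3} {a b : ℝ} (hab : a + b = 1) (i : Fin 4) :
    bary (a • p + b • q) i = a * bary p i + b * bary q i := by
  fin_cases i
  · show bary (a • p + b • q) 0 = a * bary p 0 + b * bary q 0
    simp only [bary_zero, Pi.add_apply, Pi.smul_apply, smul_eq_mul]
    linear_combination -hab
  all_goals rfl

/-- The vertices of the corner. -/
def vert (i : Fin 4) : E3 := fun k => if k.succ = i then 1 else 0

theorem bary_vert (i j : Fin 4) : bary (vert i) j = if j = i then 1 else 0 := by
  fin_cases i <;> fin_cases j <;>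
    simp [bary_zero, bary_one, bary_two, bary_three, vert, Fin.ext_iff]

theorem vert_mem (i : Fin 4) : vert i ∈ corner := by
  rw [mem_corner_bary]
  intro j
  rw [bary_vert]
  split_ifs <;> norm_num

/-- The affine map that permutes the barycentric coordinates. -/
def permMap (σ : Equiv.Perm (Fin 4)) (p : E3) : E3 := fun k => bary p (σ k.succ)

theorem bary_permMap (σ : Equiv.Perm (Fin 4)) (p : E3) (i : Fin 4) :
    bary (permMap σ p) i = bary p (σ i) := by
  have h : ∀ k : Fin 3, bary (permMap σ p) k.succ = bary p (σ k.succ) := fun k => rfl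
  refine Fin.cases ?_ h i
  have e := sum_bary (permMap σ p)
  have e' := (Equiv.sum_comp σ (bary p)).trans (sum_bary p)
  rw [Fin.sum_univ_succ] at e e'
  simp only [h] at e
  linarith

theorem permMap_permMap_swap (f : Fin 4) (p : E3) :
    permMap (Equiv.swap 0 f) (permMap (Equiv.swap 0 f) p) = p := by
  funext k
  show bary (permMap (Equiv.swap 0 f) p) (Equiv.swap 0 f k.succ) = p k
  rw [bary_permMap, Equiv.swap_apply_self]
  rfl

theorem permMap_combo (σ : Equiv.Perm (Fin 4)) {p q : E3} {a b : ℝ} (hab : a + b = 1) :
    permMap σ (a • p + b • q) = a • permMap σ p + b • permMap σ q := by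
  funext k
  exact bary_combo hab _

/-- The volume of an affine image. -/
theorem volume_affine (M : Matrix (Fin 3) (Fin 3) ℝ) (b : E3) (S : Set E3) :
    (volume ((fun p => M *ᵥ p + b) '' S)).toReal = |M.det| * (volume S).toReal := by
  have e : (fun p => M *ᵥ p + b) '' S = (fun p => p - -b) '' (Matrix.toLin' M '' S) := by
    rw [image_image]
    simp
  rw [e, volume_sub, Measure.addHaar_image_linearMap, LinearMap.det_toLin', ENNReal.toReal_mul,
    ENNReal.toReal_ofReal (abs_nonneg _)]

/-- The linear part of a permutation map. -/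
def permMat (σ : Equiv.Perm (Fin 4)) : Matrix (Fin 3) (Fin 3) ℝ :=
  Matrix.of fun k l => bary (Pi.single l 1) (σ k.succ) - bary 0 (σ k.succ)

theorem permMap_eq (σ : Equiv.Perm (Fin 4)) (p : E3) :
    permMap σ p = permMat σ *ᵥ p + permMap σ 0 := by
  funext k
  simp only [permMap, permMat, Pi.add_apply, Matrix.mulVec, dotProduct, Matrix.of_apply,
    Fin.sum_univ_three]
  generalize σ k.succ = i
  fin_cases i <;> simp [bary_zero, bary_one, bary_two, bary_three] <;> ring

theorem abs_det_permMat_swap (f : Fin 4) : |(permMat (Equiv.swap 0 f)).det| = 1 := by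
  set M := permMat (Equiv.swap 0 f)
  have h : M * M = 1 := by
    refine Matrix.ext_of_mulVec_single fun l => ?_
    have h1 := permMap_permMap_swap f (Pi.single l 1)
    have h0 := permMap_permMap_swap f 0
    rw [permMap_eq _ (Pi.single l 1), permMap_eq, Matrix.mulVec_add] at h1
    rw [permMap_eq _ (permMap _ 0)] at h0
    rw [← Matrix.mulVec_mulVec, Matrix.one_mulVec]
    calc M *ᵥ (M *ᵥ Pi.single l 1) = Pi.single l 1 - (M *ᵥ permMap (Equiv.swap 0 f) 0 +
          permMap (Equiv.swap 0 f) 0) := by
          conv_rhs => rw [← h1]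
          abel
      _ = Pi.single l 1 := by rw [h0, sub_zero]
  have hd : M.det * M.det = 1 := by rw [← Matrix.det_mul, h, Matrix.det_one]
  rcases mul_self_eq_one_iff.1 hd with e | e <;> simp [e]

theorem volume_permMap_swap (f : Fin 4) (S : Set E3) :
    (volume (permMap (Equiv.swap 0 f) '' S)).toReal = (volume S).toReal := by
  rw [show permMap (Equiv.swap 0 f) = fun p => permMat (Equiv.swap 0 f) *ᵥ p +
    permMap (Equiv.swap 0 f) 0 from funext (permMap_eq _), volume_affine, abs_det_permMat_swap,
    one_mul]

theorem image_permMap_swap (f : Fin 4) (S : Set E3) :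
    permMap (Equiv.swap 0 f) '' S = permMap (Equiv.swap 0 f) ⁻¹' S := by
  ext p
  exact ⟨by rintro ⟨q, hq, rfl⟩; rwa [mem_preimage, permMap_permMap_swap],
    fun h => ⟨_, h, permMap_permMap_swap f p⟩⟩

/-- The open corner has full volume. -/
theorem volume_interior_corner : (volume (interior corner)).toReal = 1 / 6 := by
  rw [← volume_corner]
  congr 1
  refine le_antisymm (measure_mono interior_subset) ?_
  calc volume corner ≤ volume (interior corner ∪ frontier corner) :=
        measure_mono fun p hp => by
          by_cases h : p ∈ interior corner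
          · exact Or.inl h
          · exact Or.inr ⟨subset_closure hp, h⟩
    _ ≤ volume (interior corner) + volume (frontier corner) := measure_union_le _ _
    _ = volume (interior corner) := by rw [convex_corner.addHaar_frontier volume, add_zero]

theorem interior_corner_pos {p : E3} (h : p ∈ interior corner) :
    (∀ k, 0 < p k) ∧ p 0 + p 1 + p 2 < 1 := by
  obtain ⟨ε, hε, hball⟩ := Metric.mem_nhds_iff.1 (mem_interior_iff_mem_nhds.1 h)
  have hstep : ∀ d : E3, ‖d‖ < ε → p + d ∈ corner := fun d hd =>
    hball (by simpa [dist_eq_norm] using hd)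
  constructor
  · intro k
    have h := (hstep (Pi.single k (-(ε / 2))) (by
      rw [Pi.norm_single, Real.norm_eq_abs, abs_neg, abs_of_pos (half_pos hε)]; linarith)).1 k
    simp at h
    linarith
  · have h := (mem_corner.1 (hstep (Pi.single 0 (ε / 2)) (by
      rw [Pi.norm_single, Real.norm_eq_abs, abs_of_pos (half_pos hε)]; linarith))).2.2.2
    simp at h
    linarith

end Vale.Agent.P248.Three
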