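import Vale.Agent.P248.Three.EqualityBary

/-!
P248, dimension three, equality: interface between the local lemma near the tetrahedron and the
induction of `Three/Main` with a band.
-/

noncomputable section

open MeasureTheory Set Matrix

namespace Vale.Agent.P248.Three

/-- The size of the neighbourhood of the tetrahedron. -/
def band : ℝ := 1 / 10 ^ 11

/-- Six times the signed volume of the tetrahedron on four points. -/
def tdet (a : Fin 4 → E3) : ℝ := (Matrix.of fun k l => a l.succ k - a 0 k).det

/-- A body in which some tetrahedron has almost full volume. -/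
def Close (K : Set E3) : Prop :=
  ∃ a : Fin 4 → E3, (∀ i, a i ∈ K) ∧ 6 * (volume K).toReal ≤ (1 + band) * |tdet a|

/-- The local lemma: for a body whose largest tetrahedron is the corner and has almost full
volume, the product exceeds that of the tetrahedron linearly in the missing volume. -/
def LocalStmt : Prop :=
  ∀ K : Set E3, IsCompact K → Convex ℝ K → corner ⊆ K → (∀ p ∈ K, ∀ i, bary p i ≤ 1) →
    6 * (volume K).toReal ≤ 1 + band → ∀ z ∈ interior K,
      64 / 9 * (1 + (6 * (volume K).toReal - 1) / 10) ≤ (volume K).toReal * polVol K z

/-- Stability: the excess of the product controls the volume missed by the largest tetrahedron. -/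
def StableStmt : Prop :=
  ∃ c : ℝ, 0 < c ∧ ∀ K : Set E3, IsCompact K → Convex ℝ K → ∀ z ∈ interior K,
    ∃ a : Fin 4 → E3, (∀ i, a i ∈ K) ∧ 0 < |tdet a| ∧
      64 / 9 * (1 + c * (6 * (volume K).toReal / |tdet a| - 1)) ≤
        (volume K).toReal * polVol K z

end Vale.Agent.P248.Three
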