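import Vale.Agent.P248.Three.EqualityAffine

/-!
P248, dimension three, equality: the polar of a body near the corner about a point of small product
is near a tetrahedron.
-/

noncomputable section

open MeasureTheory Set Matrix Function
open Vale.Agent.P248.Ellipsoids (polarSet)

namespace Vale.Agent.P248.Three

/-- The margin of the invariant. -/
def etaB : ℝ := band / 10 ^ 7

theorem etaB_pos : 0 < etaB := by norm_num [etaB, band]

theorem tdet_vert : tdet vert = 1 := by
  rw [tdet_eq, show quadMat vert = 1 by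
    ext k l; fin_cases k <;> fin_cases l <;> simp [quadMat, vert], Matrix.det_one]

theorem quadMap_vert_self (p : E3) : quadMap vert p = p := by
  funext k
  fin_cases k <;> simp [quadMap_eq, Fin.sum_univ_four, vert, bary_one, bary_two, bary_three,
    Fin.ext_iff]

theorem one_le_six_vol {K : Set E3} (hK : IsCompact K) (hc : corner ⊆ K) :
    1 ≤ 6 * (volume K).toReal := by
  have h := ENNReal.toReal_mono hK.measure_lt_top.ne (measure_mono (μ := volume) hc)
  rw [volume_corner] at h
  linarith

/-- A point beyond a face adds a pyramid to the corner. -/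
theorem neg_bary_le {K : Set E3} (hK : IsCompact K) (hcv : Convex ℝ K) (hc : corner ⊆ K) {p : E3}
    (hp : p ∈ K) (i : Fin 4) : -bary p i ≤ 6 * (volume K).toReal - 1 := by
  by_cases hb : 0 ≤ bary p i
  · linarith [one_le_six_vol hK hc]
  rw [not_le] at hb
  set a := update vert i p
  have ha : ∀ j, a j ∈ K := fun j => by
    rcases eq_or_ne j i with rfl | h
    · simpa [a] using hp
    · simpa [a, h] using hc (vert_mem j)
  set S := quadMap a '' corner
  have hS : IsCompact S := isCompact_corner.image (continuous_quadMap a)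
  have hhalf : Convex ℝ {q : E3 | bary q i ≤ 0} := fun x hx y hy s t hs ht hst => by
    show bary (s • x + t • y) i ≤ 0
    rw [bary_combo hst]
    exact add_nonpos (mul_nonpos_of_nonneg_of_nonpos hs hx) (mul_nonpos_of_nonneg_of_nonpos ht hy)
  have hdis : Disjoint (interior corner) S := by
    rw [Set.disjoint_left]
    rintro q hq ⟨r, hr, rfl⟩
    have h1 : bary (quadMap a r) i ≤ 0 := quadMap_mem hhalf (a := a) (fun j => by
      rcases eq_or_ne j i with rfl | h
      · simpa [a] using hb.le
      · show bary (a j) i ≤ 0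
        simp [a, h, bary_vert, h.symm]) hr
    obtain ⟨h0, hs⟩ := interior_corner_pos hq
    have h2 : 0 < bary (quadMap a r) i := by
      refine Fin.cases ?_ (fun k => ?_) i
      · rw [bary_zero]; linarith
      · rw [bary_succ]; exact h0 k
    linarith
  have hvol : (volume S).toReal = -bary p i / 6 := by
    have e : tdet a = bary p i := by
      rw [show a = update vert i (quadMap vert p) by rw [quadMap_vert_self],
        tdet_update, tdet_vert, mul_one]
    rw [volume_quadMap, volume_corner, e, abs_of_neg hb]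
    ring
  have h := ENNReal.toReal_mono hK.measure_lt_top.ne (measure_mono (μ := volume)
    (union_subset (interior_subset.trans hc)
      (by rintro _ ⟨r, hr, rfl⟩; exact quadMap_mem hcv ha hr) : interior corner ∪ S ⊆ K))
  rw [measure_union hdis hS.measurableSet, ENNReal.toReal_add
    ((measure_mono interior_subset).trans_lt isCompact_corner.measure_lt_top).ne
    hS.measure_lt_top.ne, volume_interior_corner, hvol] at h
  linarith

theorem convex_polarSet (K : Set E3) : Convex ℝ (polarSet K) := by
  intro y hy y' hy' s t hs ht hst x hx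
  show (s • y + t • y') ⬝ᵥ x ≤ 1
  rw [add_dotProduct, smul_dotProduct, smul_dotProduct]
  calc s • (y ⬝ᵥ x) + t • (y' ⬝ᵥ x) ≤ s * 1 + t * 1 :=
        add_le_add (mul_le_mul_of_nonneg_left (hy x hx) hs) (mul_le_mul_of_nonneg_left (hy' x hx) ht)
    _ = 1 := by rw [mul_one, mul_one, hst]

theorem interior_of_bary_pos {c : E3} (h : ∀ i, 0 < bary c i) : c ∈ interior corner := by
  refine interior_maximal ?_ ?_ (show c ∈ ⋂ i, {p : E3 | 0 < bary p i} from mem_iInter.2 h)
  · exact fun p hp => mem_corner_bary.2 fun i => (mem_iInter.1 hp i).le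
  · exact isOpen_iInter_of_finite fun i => isOpen_lt continuous_const (continuous_bary i)

theorem close_affine (A : Matrix (Fin 3) (Fin 3) ℝ) (b : E3) {S : Set E3} (h : Close S) :
    Close ((fun p => A *ᵥ p + b) '' S) := by
  obtain ⟨a, ha, hle⟩ := h
  refine ⟨fun i => A *ᵥ a i + b, fun i => mem_image_of_mem _ (ha i), ?_⟩
  rw [volume_affine, tdet_affine, abs_mul]
  calc 6 * (|A.det| * (volume S).toReal) = |A.det| * (6 * (volume S).toReal) := by ring
    _ ≤ |A.det| * ((1 + band) * |tdet a|) := mul_le_mul_of_nonneg_left hle (abs_nonneg _)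
    _ = _ := by ring

/-- Near the corner, a point of product little more than `64 / 9` gives a polar near a
tetrahedron. -/
theorem close_polar_frame {K : Set E3} (hK : IsCompact K) (hcv : Convex ℝ K) (hc : corner ⊆ K)
    (hδ : 6 * (volume K).toReal - 1 ≤ 10 * etaB) {c : E3} (hci : c ∈ interior K)
    (hprod : (volume K).toReal * polVol K c < 64 / 9 * (1 + etaB)) :
    Close (polarSet ((fun p => p - c) '' K)) := by
  have hη := etaB_pos
  set P := polarSet ((fun p => p - c) '' K)
  set δ := 6 * (volume K).toReal - 1 + etaB with hδdef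
  have hδ0 : 0 < δ := by linarith [one_le_six_vol hK hc]
  have hδs : δ ≤ 11 * etaB := by linarith
  set β : Fin 4 → ℝ := fun i => bary c i + δ
  have hβ : ∀ i, 0 < β i := fun i => by
    have := neg_bary_le hK hcv hc (interior_subset hci) i
    simp only [β]
    linarith
  have hsum : β 0 + β 1 + β 2 + β 3 = 1 + 4 * δ := by
    have := sum_bary c
    rw [Fin.sum_univ_four] at this
    simp only [β]
    linarith
  set y : Fin 4 → E3 := Fin.cons (fun _ => (β 0)⁻¹) fun k => Pi.single k (-(β k.succ)⁻¹)
  have hdot : ∀ i (p : E3), y i ⬝ᵥ (p - c) = (bary c i - bary p i) * (β i)⁻¹ := by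
    intro i p
    refine Fin.cases ?_ (fun k => ?_) i
    · simp [y, dotProduct, Fin.sum_univ_three, bary_zero]
      ring
    · simp [y, single_dotProduct, bary_succ]
      ring
  have hy : ∀ i, y i ∈ P := by
    rintro i _ ⟨p, hp, rfl⟩
    show y i ⬝ᵥ (p - c) ≤ 1
    rw [hdot, mul_inv_le_iff₀ (hβ i), one_mul]
    have := neg_bary_le hK hcv hc hp i
    simp only [β]
    linarith
  have hfin : volume P ≠ ⊤ := (polar_bounded hci).measure_lt_top.ne
  set pβ := β 0 * β 1 * β 2 * β 3
  have hpβ : 0 < pβ := mul_pos (mul_pos (mul_pos (hβ 0) (hβ 1)) (hβ 2)) (hβ 3)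
  have htd : |tdet y| = (1 + 4 * δ) / pβ := by
    have e : tdet y = -((1 + 4 * δ) / pβ) := by
      rw [← hsum]
      have := (hβ 0).ne'; have := (hβ 1).ne'; have := (hβ 2).ne'; have := (hβ 3).ne'
      simp [tdet, y, Matrix.det_fin_three, Pi.single_apply, Fin.ext_iff, pβ]
      field_simp
      ring
    rw [e, abs_neg, abs_of_pos (div_pos (by linarith) hpβ)]
  have hlow : (1 + 4 * δ) / pβ ≤ 6 * (volume P).toReal := by
    have h := ENNReal.toReal_mono hfin (measure_mono (μ := volume)
      (by rintro _ ⟨r, hr, rfl⟩; exact quadMap_mem (convex_polarSet _) hy hr :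
        quadMap y '' corner ⊆ P))
    rw [volume_quadMap, volume_corner, htd] at h
    linarith
  have hpv : (volume P).toReal ≤ 44 := by
    have h1 : (volume K).toReal * (volume P).toReal < 64 / 9 * (1 + etaB) := hprod
    have h2 := mul_le_mul_of_nonneg_right (one_le_six_vol hK hc)
      (ENNReal.toReal_nonneg (a := volume P))
    have : etaB ≤ 1 / 100 := by norm_num [etaB, band]
    linarith
  have hpβlow : 1 / 264 ≤ pβ := by
    have h1 : 1 / pβ ≤ (1 + 4 * δ) / pβ := div_le_div_of_nonneg_right (by linarith) hpβ.le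
    have h2 : 1 / pβ ≤ 264 := by linarith
    rw [div_le_iff₀ hpβ] at h2
    linarith
  have hsmall : δ ≤ 1 / 1000 := hδs.trans (by norm_num [etaB, band])
  have hβle : ∀ i, β i ≤ 1 + 4 * δ := by
    intro i
    have := hβ 0; have := hβ 1; have := hβ 2; have := hβ 3
    fin_cases i <;> simp <;> linarith
  have hb : ∀ i, 1 / 300 ≤ bary c i := by
    intro i
    have key : ∀ u x w t : ℝ, 0 < u → 0 < x → 0 < w → 0 < t → x ≤ 1 + 4 * δ → w ≤ 1 + 4 * δ →
        t ≤ 1 + 4 * δ → pβ = u * x * w * t → 1 / 280 ≤ u := by
      intro u x w t hu hx hw ht hx1 hw1 ht1 he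
      have h3 : x * w * t ≤ (1 + 4 * δ) * (1 + 4 * δ) * (1 + 4 * δ) :=
        mul_le_mul (mul_le_mul hx1 hw1 hw.le (by linarith)) ht1 ht.le (by positivity)
      have h4 : (1 + 4 * δ) * (1 + 4 * δ) * (1 + 4 * δ) ≤ 280 / 264 := by
        calc _ ≤ (1 + 4 * (1 / 1000 : ℝ)) * (1 + 4 * (1 / 1000)) * (1 + 4 * (1 / 1000)) := by
              gcongr
          _ ≤ _ := by norm_num
      have h5 := mul_le_mul_of_nonneg_left (h3.trans h4) hu.le
      rw [show u * (x * w * t) = pβ by rw [he]; ring] at h5
      linarith
    have hu : 1 / 280 ≤ β i := by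
      obtain rfl | rfl | rfl | rfl : i = 0 ∨ i = 1 ∨ i = 2 ∨ i = 3 := by omega
      · exact key _ _ _ _ (hβ 0) (hβ 1) (hβ 2) (hβ 3) (hβle 1) (hβle 2) (hβle 3) rfl
      · exact key _ _ _ _ (hβ 1) (hβ 0) (hβ 2) (hβ 3) (hβle 0) (hβle 2) (hβle 3)
          (by simp only [pβ]; ring)
      · exact key _ _ _ _ (hβ 2) (hβ 0) (hβ 1) (hβ 3) (hβle 0) (hβle 1) (hβle 3)
          (by simp only [pβ]; ring)
      · exact key _ _ _ _ (hβ 3) (hβ 0) (hβ 1) (hβ 2) (hβle 0) (hβle 1) (hβle 2)
          (by simp only [pβ]; ring)
    have : δ ≤ 1 / 280 - 1 / 300 := hδs.trans (by norm_num [etaB, band])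
    simp only [β] at hu
    linarith
  have hbpos : ∀ i, 0 < bary c i := fun i => lt_of_lt_of_le (by norm_num) (hb i)
  set π := bary c 0 * bary c 1 * bary c 2 * bary c 3
  have hπ : 0 < π := mul_pos (mul_pos (mul_pos (hbpos 0) (hbpos 1)) (hbpos 2)) (hbpos 3)
  have hup : 6 * (volume P).toReal ≤ 1 / π := by
    have hmono := ENNReal.toReal_mono (polar_bounded (interior_of_bary_pos hbpos)).measure_lt_top.ne
      (measure_mono (μ := volume) (fun w hw x hx => hw x (image_mono hc hx) :
        P ⊆ polarSet ((fun p => p - c) '' corner)))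
    rw [polar_corner (fun k => bary_succ c k ▸ hbpos k.succ)
      (by have := hbpos 0; rw [bary_zero] at this; linarith)] at hmono
    refine (mul_le_mul_of_nonneg_left hmono (by norm_num : (0:ℝ) ≤ 6)).trans (le_of_eq ?_)
    simp only [π, bary_zero, bary_one, bary_two, bary_three]
    field_simp
  refine ⟨y, hy, hup.trans ?_⟩
  rw [htd]
  have hcomp : pβ ≤ (1 + band) * π := by
    set x := 300 * δ
    have h1 : ∀ i, β i ≤ bary c i * (1 + x) := fun i => by
      have := mul_le_mul_of_nonneg_right (hb i) (mul_nonneg (by norm_num : (0:ℝ) ≤ 300) hδ0.le)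
      simp only [β, x]
      linarith
    have hx0 : 0 ≤ x := by positivity
    have h2 : pβ ≤ π * (1 + x) ^ 4 := by
      calc pβ ≤ bary c 0 * (1 + x) * (bary c 1 * (1 + x)) * (bary c 2 * (1 + x)) *
            (bary c 3 * (1 + x)) := by
            have := hβ 0; have := hβ 1; have := hβ 2; have := hβ 3
            have := hbpos 0; have := hbpos 1; have := hbpos 2; have := hbpos 3
            simp only [pβ]
            gcongr <;> exact h1 _
        _ = π * (1 + x) ^ 4 := by simp only [π]; ring
    have hx1 : x ≤ 1 / 100 := by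
      have : 300 * (11 * etaB) ≤ 1 / 100 := by norm_num [etaB, band]
      simp only [x]; linarith
    have h3 : (1 + x) ^ 4 ≤ 1 + band := by
      have hx2 : x * x ≤ x / 100 := by
        have := mul_le_mul_of_nonneg_left hx1 hx0
        linarith
      have hx3 : x * x * x ≤ x / 100 := by
        have := mul_le_mul hx2 hx1 hx0 (by positivity)
        linarith
      have hx4 : x * x * x * x ≤ x / 100 := by
        have := mul_le_mul hx3 hx1 hx0 (by positivity)
        linarith
      have : 5 * (300 * (11 * etaB)) ≤ band := by norm_num [etaB, band]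
      have e : (1 + x) ^ 4 = 1 + 4 * x + 6 * (x * x) + 4 * (x * x * x) + x * x * x * x := by ring
      simp only [x] at *
      linarith
    exact h2.trans (le_of_le_of_eq (mul_le_mul_of_nonneg_left h3 hπ.le) (mul_comm _ _))
  calc 1 / π ≤ (1 + band) / pβ := by
        rw [div_le_div_iff₀ hπ hpβ, one_mul]
        exact hcomp
    _ ≤ (1 + band) * ((1 + 4 * δ) / pβ) := by
        rw [mul_div_assoc']
        refine div_le_div_of_nonneg_right (le_mul_of_one_le_right ?_ (by linarith)) hpβ.le
        norm_num [band]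

end Vale.Agent.P248.Three
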