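import Vale.Agent.P248.Three.EqualityDual

/-!
P248, dimension three, equality: the induction of `Three/Main` with a band around the tetrahedron,
and the passage to all bodies.
-/

noncomputable section

open MeasureTheory Set Matrix Filter Topology Function
open Vale.Agent.P248.Ellipsoids (polarSet)
open scoped ENNReal Pointwise

namespace Vale.Agent.P248.Three

/-- Bodies of product little more than `64 / 9` are near a tetrahedron. -/
def StableAt (K : Set E3) : Prop :=
  ∀ z ∈ interior K, (volume K).toReal * polVol K z < 64 / 9 * (1 + etaB) → Close K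

/-- The local lemma, seen from the largest tetrahedron. -/
theorem local_largest (hL : LocalStmt) {K : Set E3} (hK : IsCompact K) (hc : Convex ℝ K)
    {a : Fin 4 → E3} (ha : ∀ i, a i ∈ K) (hpos : 0 < |tdet a|)
    (hmax : ∀ b : Fin 4 → E3, (∀ i, b i ∈ K) → |tdet b| ≤ |tdet a|)
    (hclose : 6 * (volume K).toReal ≤ (1 + band) * |tdet a|) {z : E3} (hz : z ∈ interior K) :
    64 / 9 * (1 + (6 * (volume K).toReal / |tdet a| - 1) / 10) ≤
      (volume K).toReal * polVol K z := by
  have hF := exists_frame hK hc ha hpos hmax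
  obtain ⟨c, hc0, -, hprod⟩ := hF.exists_point hpos hz
  have e : 6 * (volume K).toReal / |tdet a| = 6 * (volume (quadMap a ⁻¹' K)).toReal := by
    rw [hF.volume_eq]
    field_simp
  rw [e, hprod]
  refine hL _ hF.compact hF.convex hF.corner_sub hF.bary_le ?_ c hc0
  rw [← e]
  exact (div_le_iff₀ hpos).2 hclose

/-- A body that is near a tetrahedron has a near largest one. -/
theorem Close.le_largest {K : Set E3} (h : Close K) {a : Fin 4 → E3}
    (hmax : ∀ b : Fin 4 → E3, (∀ i, b i ∈ K) → |tdet b| ≤ |tdet a|) :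
    6 * (volume K).toReal ≤ (1 + band) * |tdet a| := by
  obtain ⟨b, hb, hle⟩ := h
  exact hle.trans (mul_le_mul_of_nonneg_left (hmax b hb) (by norm_num [band]))

/-- Near a tetrahedron and of small product: the polar is near a tetrahedron. -/
theorem close_polar (hL : LocalStmt) {L : Set E3} (hK : IsCompact L) (hc : Convex ℝ L)
    (h0 : (0 : E3) ∈ interior L) (hclose : Close L)
    (hprod : (volume L).toReal * polVol L 0 < 64 / 9 * (1 + etaB)) : Close (polarSet L) := by
  obtain ⟨a, ha, hpos, hmax⟩ := exists_largest hK ⟨0, h0⟩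
  have hF := exists_frame hK hc ha hpos hmax
  obtain ⟨c, hc0, hca, hpc⟩ := hF.exists_point hpos h0
  have hloc := local_largest hL hK hc ha hpos hmax (hclose.le_largest hmax) h0
  set K0 := quadMap a ⁻¹' L
  have e : 6 * (volume L).toReal / |tdet a| = 6 * (volume K0).toReal := by
    rw [hF.volume_eq]
    field_simp
  rw [e] at hloc
  have hδ : 6 * (volume K0).toReal - 1 ≤ 10 * etaB := by linarith
  have hP := close_polar_frame hF.compact hF.convex hF.corner_sub hδ hc0 (hpc ▸ hprod)
  have hu : IsUnit (quadMat a).det := isUnit_iff_ne_zero.2 (abs_pos.1 hpos)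
  have := close_affine ((quadMat a)⁻¹)ᵀ 0 hP
  convert this using 1
  ext y
  simp only [add_zero]
  have key : ∀ (w p : E3), (((quadMat a)⁻¹)ᵀ *ᵥ w) ⬝ᵥ quadMap a p = w ⬝ᵥ (p - c) := by
    intro w p
    have hq : quadMap a p = quadMat a *ᵥ (p - c) := by
      have : quadMap a p - quadMap a c = quadMat a *ᵥ (p - c) := by
        simp [quadMap, Matrix.mulVec_sub]
      rwa [hca, sub_zero] at this
    rw [hq, Matrix.mulVec_transpose, ← Matrix.dotProduct_mulVec, Matrix.mulVec_mulVec,
      Matrix.nonsing_inv_mul _ hu, Matrix.one_mulVec]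
  constructor
  · intro hy
    refine ⟨(quadMat a)ᵀ *ᵥ y, ?_, ?_⟩
    · rintro _ ⟨p, hp, rfl⟩
      show ((quadMat a)ᵀ *ᵥ y) ⬝ᵥ (p - c) ≤ 1
      rw [← key, Matrix.mulVec_mulVec, ← Matrix.transpose_mul, Matrix.mul_nonsing_inv _ hu,
        Matrix.transpose_one, Matrix.one_mulVec]
      exact hy _ hp
    · show ((quadMat a)⁻¹)ᵀ *ᵥ ((quadMat a)ᵀ *ᵥ y) = y
      rw [Matrix.mulVec_mulVec, ← Matrix.transpose_mul, Matrix.mul_nonsing_inv _ hu,
        Matrix.transpose_one, Matrix.one_mulVec]
  · rintro ⟨w, hw, rfl⟩ x hx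
    obtain ⟨p, hp, rfl⟩ : x ∈ quadMap a '' K0 := hF.image.symm ▸ hx
    show (((quadMat a)⁻¹)ᵀ *ᵥ w) ⬝ᵥ quadMap a p ≤ 1
    rw [key]
    exact hw _ ⟨p, hp, rfl⟩

namespace Cfg

variable {v f : ℕ}

/-- The configurations smaller in size, or equal in size with fewer non-incidences. -/
def StableBelow (N Z : ℕ) : Prop :=
  ∀ (v' f' : ℕ) (C : Cfg v' f'), C.IsCfg →
    v' + f' < N ∨ v' + f' = N ∧ C.nonInc < Z → StableAt C.body

theorem stable_of_map {C : Cfg v f} {A : Matrix (Fin 3) (Fin 3) ℝ} (hA : IsUnit A.det)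
    (h : StableAt (C.map A).body) : StableAt C.body := by
  intro z hz hlt
  rw [← product_mulVec_sub A hA.ne_zero C.body z] at hlt
  rw [map_body A hA] at h
  have hinv : (fun p => A *ᵥ p) '' C.body = (fun p => A⁻¹ *ᵥ p) ⁻¹' C.body := by
    ext p
    constructor
    · rintro ⟨r, hr, rfl⟩
      simpa [Matrix.mulVec_mulVec, Matrix.nonsing_inv_mul A hA] using hr
    · intro hp
      exact ⟨_, hp, by simp [Matrix.mulVec_mulVec, Matrix.mul_nonsing_inv A hA]⟩
  have hz' : A *ᵥ z ∈ interior ((fun p => A *ᵥ p) '' C.body) := by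
    rw [hinv]
    refine preimage_interior_subset_interior_preimage
      (Matrix.toLin' A⁻¹).continuous_of_finiteDimensional ?_
    simpa [Matrix.mulVec_mulVec, Matrix.nonsing_inv_mul A hA] using hz
  have := close_affine A⁻¹ 0 (h _ hz' hlt)
  rw [image_image] at this
  simpa [Matrix.mulVec_mulVec, Matrix.nonsing_inv_mul A hA] using this

/-- Along a move that starts away from the tetrahedron the product stays above the threshold. -/
theorem move_high (hP : PolarStmt) (hV : VolumeStmt) (hL : LocalStmt) {C : Cfg v f}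
    (hC : C.IsCfg) (M : C.Move) (hu : M.u = e0) {lo hi : ℝ} (hlo : lo < 0) (hhi : 0 < hi)
    (hall : ∀ t ∈ Icc lo hi, (C.moved M t).IsCfg)
    (b1 : StableAt (C.moved M lo).body) (b2 : StableAt (C.moved M hi).body)
    (hfar : ¬Close C.body) :
    ∀ z ∈ interior C.body, 64 / 9 * (1 + etaB) ≤ (volume C.body).toReal * polVol C.body z := by
  classical
  have hv : 0 < v := lt_of_lt_of_le (by norm_num) hC.four_le
  have : Nonempty (Fin 4 → Fin v) := ⟨fun _ => ⟨0, hv⟩⟩
  set V : ℝ → ℝ := fun t => (volume (C.moved M t).body).toReal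
  have hV0 : V 0 = (volume C.body).toReal := by simp only [V, moved_zero]
  set m : ℝ → ℝ := fun t =>
    Finset.univ.sup' Finset.univ_nonempty fun q : Fin 4 → Fin v => |tdet ((C.moved M t).x ∘ q)|
  have hm : Continuous m := by
    refine Continuous.finset_sup'_apply _ fun q _ =>
      continuous_abs.comp (continuous_tdet.comp (continuous_pi fun i => ?_))
    simp only [Function.comp_apply, moved]
    fun_prop
  have hVhi : ∀ t ∈ Icc lo hi, hi * V t = (hi - t) * V 0 + t * V hi := by
    intro t ht
    rw [hV0]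
    rcases lt_trichotomy t 0 with h | h | h
    · have := hV v f C hC M hu t hi h hhi (hall t ht) (hall hi ⟨by linarith, le_rfl⟩)
      simp only [V]
      linarith
    · subst h
      simp only [V, moved_zero]
      ring
    · have e1 := hV v f C hC M hu lo t hlo h (hall lo ⟨le_rfl, by linarith⟩) (hall t ht)
      have e2 := hV v f C hC M hu lo hi hlo hhi (hall lo ⟨le_rfl, by linarith⟩)
        (hall hi ⟨by linarith, le_rfl⟩)
      simp only [V]
      refine mul_left_cancel₀ hlo.ne ?_
      linear_combination hi * e1 - t * e2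
  set g : ℝ → ℝ := fun t => 6 * V t - (1 + band) * m t
  have hg : ContinuousOn g (Icc lo hi) := by
    have h : Continuous fun t =>
        6 * (((hi - t) * V 0 + t * V hi) / hi) - (1 + band) * m t := by fun_prop
    refine h.continuousOn.congr fun t ht => ?_
    show 6 * V t - (1 + band) * m t = 6 * (((hi - t) * V 0 + t * V hi) / hi) - (1 + band) * m t
    rw [← hVhi t ht, mul_div_cancel_left₀ _ hhi.ne']
  have hg0 : 0 < g 0 := by
    by_contra hle
    obtain ⟨q, -, hq⟩ := Finset.exists_mem_eq_sup' (Finset.univ_nonempty (α := Fin 4 → Fin v))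
      fun q : Fin 4 → Fin v => |tdet ((C.moved M 0).x ∘ q)|
    refine hfar ⟨C.x ∘ q, fun i => hC.mem _, ?_⟩
    have hg' : g 0 ≤ 0 := not_lt.1 hle
    simp only [g, hV0, show m 0 = _ from hq, moved_zero] at hg'
    linarith
  -- an end, or a time in the band before it, with product above the threshold
  have good : ∀ e ∈ Icc lo hi, StableAt (C.moved M e).body →
      ∃ t, t ∈ uIcc 0 e ∧ (t = e ∨ t ≠ 0) ∧ ∀ z ∈ interior (C.moved M t).body,
        64 / 9 * (1 + etaB) ≤ (volume (C.moved M t).body).toReal * polVol (C.moved M t).body z := by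
    intro e he hst
    by_cases hcl : Close (C.moved M e).body
    swap
    · exact ⟨e, right_mem_uIcc, Or.inl rfl, fun z hz => not_lt.1 fun h => hcl (hst z hz h)⟩
    have hge : g e ≤ 0 := by
      obtain ⟨b, hb, hle⟩ := hcl
      have := tdet_le_of_hull (C.moved M e).x (m := m e)
        (fun q => Finset.le_sup' (fun q : Fin 4 → Fin v => |tdet ((C.moved M e).x ∘ q)|)
          (Finset.mem_univ q))
        (fun i => (hall e he).hull.symm ▸ hb i)
      simp only [g, V]
      linarith [mul_le_mul_of_nonneg_left this (show (0:ℝ) ≤ 1 + band by norm_num [band])]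
    have hsub : uIcc 0 e ⊆ Icc lo hi :=
      uIcc_subset_Icc ⟨hlo.le, hhi.le⟩ he
    obtain ⟨t, ht, hgt⟩ := intermediate_value_uIcc (hg.mono hsub)
      (show (0:ℝ) ∈ uIcc (g 0) (g e) from mem_uIcc.2 (Or.inr ⟨hge, hg0.le⟩))
    have ht0 : t ≠ 0 := fun h => by rw [h] at hgt; linarith
    refine ⟨t, ht, Or.inr ht0, fun z hz => ?_⟩
    have hCt := hall t (hsub ht)
    obtain ⟨q, -, hq⟩ := Finset.exists_mem_eq_sup' (Finset.univ_nonempty (α := Fin 4 → Fin v))
      fun q : Fin 4 → Fin v => |tdet ((C.moved M t).x ∘ q)|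
    have hmax : ∀ b : Fin 4 → E3, (∀ i, b i ∈ (C.moved M t).body) →
        |tdet b| ≤ |tdet ((C.moved M t).x ∘ q)| := fun b hb => by
      rw [← hq]
      exact tdet_le_of_hull (C.moved M t).x
        (fun q' => Finset.le_sup' (fun q : Fin 4 → Fin v => |tdet ((C.moved M t).x ∘ q)|)
          (Finset.mem_univ q')) fun i => hCt.hull.symm ▸ hb i
    have heq : 6 * (volume (C.moved M t).body).toReal =
        (1 + band) * |tdet ((C.moved M t).x ∘ q)| := by
      simp only [g, V, show m t = _ from hq] at hgt
      linarith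
    have hpos : 0 < |tdet ((C.moved M t).x ∘ q)| := by
      have := volume_pos_of_solid hCt.compact hCt.solid
      have hb : (0:ℝ) < 1 + band := by norm_num [band]
      exact pos_of_mul_pos_right (heq ▸ by positivity) hb.le
    have h := local_largest hL hCt.compact (convex_body _) (a := (C.moved M t).x ∘ q)
      (fun i => hCt.mem _) hpos hmax heq.le hz
    rw [heq, mul_div_cancel_right₀ _ hpos.ne'] at h
    have : etaB ≤ band / 10 := by norm_num [etaB, band]
    linarith
  obtain ⟨t₁, ht₁, hn₁, hg₁⟩ := good lo ⟨le_rfl, by linarith⟩ b1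
  obtain ⟨t₂, ht₂, hn₂, hg₂⟩ := good hi ⟨by linarith, le_rfl⟩ b2
  rw [uIcc_of_ge hlo.le] at ht₁
  rw [uIcc_of_le hhi.le] at ht₂
  have h₁ : t₁ < 0 := by
    rcases hn₁ with h | h
    · linarith
    · exact lt_of_le_of_ne ht₁.2 h
  have h₂ : 0 < t₂ := by
    rcases hn₂ with h | h
    · linarith
    · exact lt_of_le_of_ne ht₂.1 (Ne.symm h)
  exact product_of_move hP hV hC M hu h₁ h₂ (hall t₁ ⟨ht₁.1, by linarith⟩)
    (hall t₂ ⟨by linarith, ht₂.2⟩) (by have := etaB_pos; positivity) hg₁ hg₂

theorem stable_step (hP : PolarStmt) (hV : VolumeStmt) (hD : CountStmt) (hL : LocalStmt)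
    {C : Cfg v f} (hC : C.Reduced) (hvf : v ≤ f) (ih : StableBelow (v + f) C.nonInc) :
    StableAt C.body := by
  have h4 := hC.toIsCfg.four_le
  rcases h4.eq_or_lt with h | h
  · subst h
    intro z _ _
    refine ⟨C.x, hC.toIsCfg.mem, ?_⟩
    have hsub : C.body ⊆ quadMap C.x '' corner := fun p hp =>
      mem_image_corner_of_hull C.x (hC.toIsCfg.hull.symm ▸ hp)
    have := ENNReal.toReal_mono
      (isCompact_corner.image (continuous_quadMap C.x)).measure_lt_top.ne
      (measure_mono (μ := volume) hsub)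
    rw [volume_quadMap, volume_corner] at this
    have hb : |tdet C.x| * 1 ≤ |tdet C.x| * (1 + band) :=
      mul_le_mul_of_nonneg_left (by norm_num [band]) (abs_nonneg _)
    linarith
  obtain ⟨M, hM⟩ := hD v f C hC h hvf
  obtain ⟨A, hA, hAu⟩ := exists_frame_e0 hM.1
  have hA' : IsUnit A.det := isUnit_iff_ne_zero.2 hA
  refine stable_of_map hA' ?_
  obtain ⟨M', hu, lo, hi, hlo, hhi, hall, n1, n2⟩ := (hC.map A hA').exists_interval_all (by omega)
    (M.map A hA') (M.map_nonTriv hM A hA')
  rw [map_nonInc A hA'] at n1 n2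
  intro z hz hlt
  by_contra hfar
  exact (move_high hP hV hL (hC.toIsCfg.map A hA') M' (hu.trans hAu) hlo hhi hall
    (ih v f _ (hall _ ⟨le_rfl, by linarith⟩) (Or.inr ⟨rfl, n1⟩))
    (ih v f _ (hall _ ⟨by linarith, le_rfl⟩) (Or.inr ⟨rfl, n2⟩)) hfar z hz).not_gt hlt

theorem stable_of_step (hP : PolarStmt) (hV : VolumeStmt) (hD : CountStmt) (hL : LocalStmt)
    {C : Cfg v f} (hC : C.IsCfg) (hvf : v ≤ f) (ih : StableBelow (v + f) C.nonInc) :
    StableAt C.body := by
  by_cases hR : C.Reduced
  · exact stable_step hP hV hD hL hR hvf ih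
  · obtain ⟨v', f', C', h', hb, hlt⟩ := hC.reduce hR
    exact hb ▸ ih v' f' C' h' (Or.inl hlt)

theorem stable_all (hP : PolarStmt) (hV : VolumeStmt) (hD : CountStmt) (hL : LocalStmt) :
    ∀ (N Z : ℕ) (v f : ℕ) (C : Cfg v f), C.IsCfg → v + f = N → C.nonInc = Z →
      StableAt C.body := by
  intro N
  induction N using Nat.strong_induction_on with
  | _ N ihN =>
    intro Z
    induction Z using Nat.strong_induction_on with
    | _ Z ihZ =>
      intro v f C hC hN hZ
      have ih : StableBelow N Z := fun v' f' C' h' hlt => by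
        rcases hlt with hlt | ⟨he, hlt⟩
        · exact ihN _ hlt _ v' f' C' h' rfl rfl
        · exact ihZ _ hlt v' f' C' h' he rfl
      subst hN hZ
      by_cases hR : C.Reduced
      swap
      · obtain ⟨v', f', C', h', hb, hlt⟩ := hC.reduce hR
        exact hb ▸ ih v' f' C' h' (Or.inl hlt)
      rcases le_or_gt v f with hvf | hvf
      · exact stable_step hP hV hD hL hR hvf ih
      intro z hz hlt
      have hd := dual_isCfg hC hR.nrm_ne hz
      have hst : StableAt (C.dual z).body := by
        refine stable_of_step hP hV hD hL hd hvf.le ?_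
        rw [dual_nonInc fun j => (sub_pos.2 (strict_of_interior hz j (hR.nrm_ne j))).ne',
          add_comm f v]
        exact ih
      have h0 : (0 : E3) ∈ interior (C.dual z).body :=
        mem_interior_of_strict fun i => by simp [dual]
      have hprod : (volume (C.dual z).body).toReal * polVol (C.dual z).body 0 <
          64 / 9 * (1 + etaB) := by
        rw [polVol, polar_dual_body hC hR.nrm_ne hz, volume_sub, dual_body hC z, mul_comm]
        exact hlt
      have hp := close_polar hL hd.compact (convex_body _) h0 (hst 0 h0 hprod) hprod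
      have e : polarSet (C.dual z).body = (fun p => p - z) '' C.body := by
        simpa using polar_dual_body hC hR.nrm_ne hz
      rw [e] at hp
      have := close_affine (1 : Matrix (Fin 3) (Fin 3) ℝ) z hp
      rw [image_image] at this
      simpa using this

end Cfg

/-- Every body of product little more than `64 / 9` is near a tetrahedron. -/
theorem stableAt_body (hP : PolarStmt) (hV : VolumeStmt) (hD : CountStmt) (hL : LocalStmt)
    {K : Set E3} (hK : IsCompact K) (hc : Convex ℝ K) {z : E3} (hz : z ∈ interior K)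
    {a : Fin 4 → E3} (hmax : ∀ b : Fin 4 → E3, (∀ i, b i ∈ K) → |tdet b| ≤ |tdet a|)
    (hlt : (volume K).toReal * polVol K z < 64 / 9 * (1 + etaB)) :
    6 * (volume K).toReal ≤ (1 + band) * |tdet a| := by
  set K' := (fun x => x - z) '' K with hK'
  have hK'c : IsCompact K' := hK.image (continuous_sub_right z)
  have hK'v : Convex ℝ K' := by
    have := hc.translate (-z)
    simpa [hK', ← sub_eq_neg_add] using this
  have h0 : (0 : E3) ∈ interior K' := by
    have : K' = (fun x => x + z) ⁻¹' K := by
      ext p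
      exact ⟨by rintro ⟨q, hq, rfl⟩; simpa using hq, fun h => ⟨p + z, h, by simp⟩⟩
    rw [this]
    exact preimage_interior_subset_interior_preimage (continuous_add_const z) (by simpa using hz)
  have ht : Tendsto (fun r : ℝ => r ^ 3 * ((volume K).toReal * polVol K z)) (𝓝[>] 1)
      (𝓝 ((volume K).toReal * polVol K z)) := by
    simpa using ((by fun_prop : Continuous fun r : ℝ =>
      r ^ 3 * ((volume K).toReal * polVol K z)).tendsto 1).mono_left nhdsWithin_le_nhds
  have key : ∀ᶠ r in 𝓝[>] (1 : ℝ),
      6 * (volume K).toReal ≤ r ^ 3 * ((1 + band) * |tdet a|) := by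
    filter_upwards [ht.eventually (gt_mem_nhds hlt), self_mem_nhdsWithin] with r hr hr1
    have hr1' : (1 : ℝ) < r := hr1
    obtain ⟨f, n, o, hin, hout⟩ := exists_outer hK'c hK'v h0 hr1'
    have hbd := (hK'c.smul r).isBounded.subset hout
    obtain ⟨v, C, hC, hCb⟩ := Cfg.exists_cfg n o hbd ⟨0, interior_mono hin h0⟩
    rw [← hCb] at hin hout
    have hzC : (0 : E3) ∈ interior C.body := interior_mono hin h0
    have h1 : (volume C.body).toReal ≤ r ^ 3 * (volume K).toReal := by
      have h2 : volume C.body ≤ volume (r • K') := measure_mono hout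
      rw [Measure.addHaar_smul, Module.finrank_fin_fun, abs_of_pos (by positivity)] at h2
      have h3 := ENNReal.toReal_mono (ENNReal.mul_ne_top ENNReal.ofReal_ne_top
        hK'c.measure_lt_top.ne) h2
      rwa [ENNReal.toReal_mul, ENNReal.toReal_ofReal (by positivity), hK', volume_sub] at h3
    have h2 : polVol C.body 0 ≤ polVol K z := by
      refine ENNReal.toReal_mono (polar_bounded hz).measure_lt_top.ne (measure_mono fun y hy => ?_)
      intro x hx
      exact hy x ⟨x, hin hx, sub_zero x⟩
    have hlt' : (volume C.body).toReal * polVol C.body 0 < 64 / 9 * (1 + etaB) := by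
      refine lt_of_le_of_lt ?_ hr
      calc (volume C.body).toReal * polVol C.body 0 ≤ r ^ 3 * (volume K).toReal * polVol K z :=
            mul_le_mul h1 h2 ENNReal.toReal_nonneg (by positivity)
        _ = r ^ 3 * ((volume K).toReal * polVol K z) := by ring
    obtain ⟨b, hb, hle⟩ := Cfg.stable_all hP hV hD hL _ _ v f C hC rfl rfl 0 hzC hlt'
    choose b' hb' hbb using fun i => hout (hb i)
    choose x hx hxb using hb'
    have hV' : (volume K).toReal ≤ (volume C.body).toReal := by
      rw [← volume_sub K z]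
      exact ENNReal.toReal_mono hC.compact.measure_lt_top.ne (measure_mono hin)
    have e : tdet b = r ^ 3 * tdet x := by
      rw [show b = fun i => (Matrix.diagonal fun _ => r) *ᵥ x i + (-r) • z from funext fun i => by
        rw [← hbb i, ← hxb i]
        funext k
        simp
        ring, tdet_affine, Matrix.det_diagonal]
      simp
    rw [e, abs_mul, abs_of_pos (by positivity : (0:ℝ) < r ^ 3)] at hle
    have := mul_le_mul_of_nonneg_left (hmax x hx)
      (by norm_num [band]; positivity : (0:ℝ) ≤ (1 + band) * r ^ 3)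
    linarith
  have hlim : Tendsto (fun r : ℝ => r ^ 3 * ((1 + band) * |tdet a|)) (𝓝[>] 1)
      (𝓝 ((1 + band) * |tdet a|)) := by
    simpa using ((by fun_prop : Continuous fun r : ℝ =>
      r ^ 3 * ((1 + band) * |tdet a|)).tendsto 1).mono_left nhdsWithin_le_nhds
  exact ge_of_tendsto hlim key

/-- Stability from the local lemma and the three pieces. -/
theorem stable_of (hP : PolarStmt) (hV : VolumeStmt) (hD : CountStmt) (hL : LocalStmt) :
    StableStmt := by
  have hη := etaB_pos
  refine ⟨min (1 / 10) (etaB / 26), lt_min (by norm_num) (by positivity),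
    fun K hK hc z hz => ?_⟩
  obtain ⟨a, ha, hpos, hmax⟩ := exists_largest hK ⟨z, hz⟩
  refine ⟨a, ha, hpos, ?_⟩
  have hF := exists_frame hK hc ha hpos hmax
  have e : 6 * (volume K).toReal / |tdet a| = 6 * (volume (quadMap a ⁻¹' K)).toReal := by
    rw [hF.volume_eq]
    field_simp
  have hx0 : 0 ≤ 6 * (volume K).toReal / |tdet a| - 1 := by
    linarith [one_le_six_vol hF.compact hF.corner_sub]
  have hx26 : 6 * (volume K).toReal / |tdet a| - 1 ≤ 26 := by
    linarith [volume_le_of_bary_le hF.bary_le]
  set x := 6 * (volume K).toReal / |tdet a| - 1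
  by_cases hlt : (volume K).toReal * polVol K z < 64 / 9 * (1 + etaB)
  · have h := local_largest hL hK hc ha hpos hmax (stableAt_body hP hV hD hL hK hc hz hmax hlt) hz
    refine le_trans ?_ h
    have := mul_le_mul_of_nonneg_right (min_le_left (1 / 10 : ℝ) (etaB / 26)) hx0
    linarith
  · refine le_trans ?_ (not_lt.1 hlt)
    have h1 := mul_le_mul (min_le_right (1 / 10 : ℝ) (etaB / 26)) hx26 hx0 (by positivity)
    linarith

end Vale.Agent.P248.Three
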