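import Vale.Agent.P248.Three.EqualityPrism

/-!
P248, dimension three, equality: near the tetrahedron the product exceeds that of the tetrahedron
linearly in the volume missed by the largest tetrahedron.
-/

noncomputable section

open MeasureTheory Set Matrix
open Vale.Agent.P248.Ellipsoids (polarSet)
open scoped ENNReal

namespace Vale.Agent.P248.Three

theorem sum_bary_smul_vert (p : E3) : ∑ j, bary p j • vert j = p := by
  funext k
  fin_cases k <;>
    simp [Fin.sum_univ_four, vert, Fin.ext_iff, bary_one, bary_two, bary_three]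

theorem isOpen_reg0 : IsOpen reg0 := by
  have : reg0 = {p : E3 | bary p 0 < 0} ∩ ⋂ k, {p | 0 < p k} := by ext p; simp [reg0]
  rw [this]
  exact (isOpen_lt (continuous_bary 0) continuous_const).inter
    (isOpen_iInter_of_finite fun k => isOpen_lt continuous_const (continuous_apply k))

theorem corner_subset_volume {K : Set E3} (hK : IsCompact K) (h : corner ⊆ K) :
    1 / 6 ≤ (volume K).toReal :=
  volume_corner ▸ ENNReal.toReal_mono hK.measure_lt_top.ne (measure_mono h)

/-- A point outside the corner adds a pyramid. -/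
theorem pyramid0 {K : Set E3} (hK : IsCompact K) (hc : Convex ℝ K) (hsub : corner ⊆ K) {p : E3}
    (hp : p ∈ K) (h0 : bary p 0 < 0) : 1 - bary p 0 ≤ 6 * (volume K).toReal := by
  set M : Matrix (Fin 3) (Fin 3) ℝ := Matrix.of fun k l => (if k = l then 1 else 0) - p k with hM
  set T := (fun γ => M *ᵥ γ + p) '' interior corner with hT
  have hTK : T ⊆ K ∩ {x | bary x 0 < 0} := by
    rintro _ ⟨γ, hγ, rfl⟩
    obtain ⟨hγ0, hγ1⟩ := interior_corner_pos hγ
    have e : ∀ k, (M *ᵥ γ + p) k = γ k + (1 - (γ 0 + γ 1 + γ 2)) * p k := fun k => by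
      fin_cases k <;> simp [hM, Matrix.mulVec, dotProduct, Fin.sum_univ_three] <;> ring
    refine ⟨?_, ?_⟩
    · have hv : M *ᵥ γ + p = ∑ j, ![1 - (γ 0 + γ 1 + γ 2), γ 0, γ 1, γ 2] j •
          ![p, vert 1, vert 2, vert 3] j := by
        funext k
        rw [e]
        fin_cases k <;> simp [Fin.sum_univ_four, vert, Fin.ext_iff] <;> ring
      show M *ᵥ γ + p ∈ K
      rw [hv]
      refine hc.sum_mem (fun j _ => ?_) (by simp [Fin.sum_univ_four]; ring) fun j _ => ?_
      · fin_cases j <;> simp <;> linarith [hγ0 0, hγ0 1, hγ0 2]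
      · fin_cases j <;> simp [hp, hsub (vert_mem _)]
    · show bary (M *ᵥ γ + p) 0 < 0
      rw [bary_zero, e, e, e]
      rw [bary_zero] at h0
      have := mul_pos (show 0 < 1 - (γ 0 + γ 1 + γ 2) by linarith)
        (show 0 < p 0 + p 1 + p 2 - 1 by linarith)
      nlinarith
  have hdet : M.det = bary p 0 := by
    simp [hM, Matrix.det_fin_three, bary_zero]
    ring
  have hdisj : Disjoint corner T := Set.disjoint_left.2 fun x hx hxT =>
    not_le.2 (hTK hxT).2 (mem_corner_bary.1 hx 0)
  have hle : (volume corner).toReal + (volume T).toReal ≤ (volume K).toReal := by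
    have h1 := measure_union' hdisj isCompact_corner.measurableSet (μ := volume)
    rw [← ENNReal.toReal_add isCompact_corner.measure_lt_top.ne (ne_top_of_le_ne_top
      hK.measure_lt_top.ne (measure_mono (hTK.trans inter_subset_left))), ← h1]
    exact ENNReal.toReal_mono hK.measure_lt_top.ne
      (measure_mono (union_subset hsub (hTK.trans inter_subset_left)))
  rw [hT, volume_affine, volume_interior_corner, volume_corner, hdet, abs_of_neg h0] at hle
  linarith

/-- The transported body has the same normal form. -/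
theorem perm_body {K : Set E3} (hK : IsCompact K) (hc : Convex ℝ K) (hsub : corner ⊆ K) (f : Fin 4) :
    IsCompact (permMap (Equiv.swap 0 f) '' K) ∧ Convex ℝ (permMap (Equiv.swap 0 f) '' K) ∧
      corner ⊆ permMap (Equiv.swap 0 f) '' K := by
  refine ⟨hK.image (continuous_pi fun k => continuous_bary _), ?_, fun p hp => ?_⟩
  · rintro _ ⟨p, hp, rfl⟩ _ ⟨q, hq, rfl⟩ a b ha hb hab
    exact ⟨_, hc hp hq ha hb hab, permMap_combo _ hab⟩
  · rw [image_permMap_swap, mem_preimage]
    exact hsub (mem_corner_bary.2 fun i => by rw [bary_permMap]; exact mem_corner_bary.1 hp _)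

theorem low_bound {K : Set E3} (hK : IsCompact K) (hc : Convex ℝ K) (hsub : corner ⊆ K)
    {p : E3} (hp : p ∈ K) (i : Fin 4) : -(6 * (volume K).toReal - 1) ≤ bary p i := by
  have h1 := corner_subset_volume hK hsub
  rcases le_or_gt 0 (bary p i) with h | h
  · linarith
  obtain ⟨hK', hc', hsub'⟩ := perm_body hK hc hsub i
  have e : bary (permMap (Equiv.swap 0 i) p) 0 = bary p i := by
    rw [bary_permMap, Equiv.swap_apply_left]
  have h2 := pyramid0 hK' hc' hsub' ⟨p, hp, rfl⟩ (e ▸ h)
  rw [e, volume_permMap_swap] at h2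
  linarith

theorem exists_fourth : ∀ f i g : Fin 4, f ≠ i → g ≠ f → g ≠ i → ∃ h, h ≠ f ∧ h ≠ i ∧ h ≠ g := by
  decide

theorem exists_third : ∀ i j : Fin 4, i ≠ j → ∃ k, k ≠ i ∧ k ≠ j := by decide

/-- The excess over a face near a vertex, with a dual point that sees it. -/
theorem exists_excess {K : Set E3} (hK : IsCompact K) (hc : Convex ℝ K) (hsub : corner ⊆ K) {δ : ℝ}
    (hlow : ∀ p ∈ K, ∀ i, -δ ≤ bary p i) {w : Fin 4 → ℝ} (hwl : ∀ i, 99 / 100 ≤ w i)
    (hwu : ∀ i, w i ≤ 101 / 100) (f i : Fin 4) (hfi : f ≠ i) :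
    ∃ (m : ℝ) (p q : E3), 0 ≤ m ∧ m ≤ δ ∧ p ∈ K ∧ bary p f = -m ∧ 1 - 1 / 200 ≤ bary p i ∧
      q ∈ wDual K w ∧ bary q i ≤ 104 / 100 * m ∧
      ∀ g, g ≠ f → g ≠ i → bary q g ≤ 220 * δ := by
  set A := K ∩ {p | 1 - 1 / 200 ≤ bary p i}
  have hA : IsCompact A := hK.inter_right (isClosed_le continuous_const (continuous_bary i))
  have hvi : vert i ∈ A := ⟨hsub (vert_mem i), by
    show 1 - 1 / 200 ≤ bary (vert i) i
    rw [bary_vert, if_pos rfl]; norm_num⟩
  obtain ⟨p, hpA, hmin⟩ := hA.exists_isMinOn ⟨_, hvi⟩ (continuous_bary f).continuousOn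
  set m := -bary p f with hm
  have hm0 : 0 ≤ m := by
    have := hmin hvi
    simp only [mem_ofPred_eq, bary_vert, if_neg hfi] at this
    linarith
  have hmδ : m ≤ δ := by linarith [hlow p hpA.1 f]
  set E := {x : E3 | bary x f < -m ∧ 1 - 1 / 200 < bary x i}
  have hEo : IsOpen E := (isOpen_lt (continuous_bary f) continuous_const).inter
    (isOpen_lt continuous_const (continuous_bary i))
  have hEc : Convex ℝ E := by
    rintro x ⟨hx, hx'⟩ y ⟨hy, hy'⟩ a b ha hb hab
    show bary _ f < _ ∧ _ < bary _ i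
    rw [bary_combo hab, bary_combo hab]
    rcases ha.eq_or_lt with rfl | ha'
    · rw [zero_add] at hab; subst hab
      simp only [zero_mul, one_mul, zero_add]
      exact ⟨hy, hy'⟩
    · have h1 := mul_lt_mul_of_pos_left hx ha'
      have h2 := mul_le_mul_of_nonneg_left hy.le hb
      have h3 := mul_lt_mul_of_pos_left hx' ha'
      have h4 := mul_le_mul_of_nonneg_left hy'.le hb
      have e1 : a * -m + b * -m = -m := by rw [← add_mul, hab, one_mul]
      have e2 : a * (1 - 1 / 200 : ℝ) + b * (1 - 1 / 200) = 1 - 1 / 200 := by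
        rw [← add_mul, hab, one_mul]
      constructor <;> linarith
  have hdisj : Disjoint E K := Set.disjoint_left.2 fun x hx hxK => by
    have h1 : bary p f ≤ bary x f := hmin ⟨hxK, hx.2.le⟩
    linarith [hx.1]
  obtain ⟨L, u, hLE, hLK⟩ := geometric_hahn_banach_open hEc hEo hc hdisj
  set l : Fin 4 → ℝ := fun j => L (vert j) - u with hl
  have hl0 : ∀ j, 0 ≤ l j := fun j => sub_nonneg.2 (hLK _ (hsub (vert_mem j)))
  have hℓ : ∀ x, L x - u = ∑ j, bary x j * l j := fun x => by
    conv_lhs => rw [← sum_bary_smul_vert x]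
    simp only [hl, mul_sub, Finset.sum_sub_distrib, ← Finset.sum_mul, sum_bary, one_mul, map_sum,
      map_smul, smul_eq_mul]
  -- test points in the separated set
  have test : ∀ a : ℝ, 0 < a → ∀ g, g ≠ f → g ≠ i →
      -(m + a) * l f + (1 - 1 / 200 + a) * l i + (m + 1 / 200) * l g < 0 := by
    intro a ha g hgf hgi
    set b : Fin 4 → ℝ := fun j =>
      if j = f then -(m + a) else if j = i then 1 - 1 / 200 + a else if j = g then m + 1 / 200 else 0
      with hb
    obtain ⟨h, hhf, hhi, hhg⟩ := exists_fourth f i g hfi hgf hgi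
    have huniv : (Finset.univ : Finset (Fin 4)) = {f, i, g, h} := by
      symm
      refine Finset.eq_univ_of_card _ ?_
      rw [Finset.card_insert_of_notMem (by simp [hfi, hgf.symm, hhf.symm]),
        Finset.card_insert_of_notMem (by simp [hgi.symm, hhi.symm]),
        Finset.card_insert_of_notMem (by simp [hhg.symm]), Finset.card_singleton, Fintype.card_fin]
    have hsum : ∀ F : Fin 4 → ℝ, ∑ j, F j = F f + F i + F g + F h := fun F => by
      rw [huniv, Finset.sum_insert (by simp [hfi, hgf.symm, hhf.symm]),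
        Finset.sum_insert (by simp [hgi.symm, hhi.symm]), Finset.sum_insert (by simp [hhg.symm]),
        Finset.sum_singleton]
      ring
    have hbf : b f = -(m + a) := if_pos rfl
    have hbi : b i = 1 - 1 / 200 + a := by rw [hb]; simp [hfi.symm]
    have hbg : b g = m + 1 / 200 := by rw [hb]; simp [hgf, hgi]
    have hbh : b h = 0 := by rw [hb]; simp [hhf, hhi, hhg]
    set x : E3 := fun k => b k.succ with hx
    have hxb : ∀ j, bary x j = b j := by
      have h1 := hsum b
      rw [hbf, hbi, hbg, hbh, Fin.sum_univ_succ, Fin.sum_univ_three] at h1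
      refine Fin.cases ?_ fun k => rfl
      rw [bary_zero]
      simp only [hx]
      linarith
    have hxE : x ∈ E := by
      show bary x f < -m ∧ _ < bary x i
      rw [hxb, hxb, hbf, hbi]
      constructor <;> linarith
    have h2 := hsum fun j => bary x j * l j
    rw [← hℓ x] at h2
    simp only [hxb, hbf, hbi, hbg, hbh, zero_mul, add_zero] at h2
    linarith [hLE x hxE]
  obtain ⟨g₀, hg₀f, hg₀i⟩ := exists_third f i hfi
  have hlf : 0 < l f := by
    have h := test 1 one_pos g₀ hg₀f hg₀i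
    have := mul_nonneg (show (0:ℝ) ≤ m + 1 / 200 by linarith) (hl0 g₀)
    have := hl0 i
    nlinarith
  have hli : (1 - 1 / 200) * l i ≤ m * l f := by
    refine le_of_forall_pos_le_add fun a ha => ?_
    have h := test (a / l f) (div_pos ha hlf) g₀ hg₀f hg₀i
    have := mul_nonneg (show (0:ℝ) ≤ m + 1 / 200 by linarith) (hl0 g₀)
    have := mul_nonneg (div_pos ha hlf).le (hl0 i)
    have : a / l f * l f = a := div_mul_cancel₀ _ hlf.ne'
    linarith
  have hlg : ∀ g, g ≠ f → g ≠ i → l g ≤ 200 * δ * l f := fun g hgf hgi => by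
    have h0 : (m + 1 / 200) * l g ≤ m * l f := by
      refine le_of_forall_pos_le_add fun a ha => ?_
      have h := test (a / l f) (div_pos ha hlf) g hgf hgi
      have := mul_nonneg (show (0:ℝ) ≤ 1 - 1 / 200 by norm_num) (hl0 i)
      have := mul_nonneg (div_pos ha hlf).le (hl0 i)
      have : a / l f * l f = a := div_mul_cancel₀ _ hlf.ne'
      linarith
    have := mul_nonneg hm0 (hl0 g)
    have := mul_le_mul_of_nonneg_right hmδ hlf.le
    linarith
  have hw0 : ∀ j, 0 < w j := fun j => by linarith [hwl j]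
  set μ' : Fin 4 → ℝ := fun j => l j / w j with hμ'
  set S := ∑ j, μ' j with hS
  have hμ0 : ∀ j, 0 ≤ μ' j := fun j => div_nonneg (hl0 j) (hw0 j).le
  have hSf : μ' f ≤ S := Finset.single_le_sum (fun j _ => hμ0 j) (Finset.mem_univ f)
  have hfpos : 0 < μ' f := div_pos hlf (hw0 f)
  have hSp : 0 < S := hfpos.trans_le hSf
  set q : E3 := fun k => μ' k.succ / S with hq
  have hqb : ∀ j, bary q j = μ' j / S := by
    refine Fin.cases ?_ fun k => rfl
    rw [bary_zero, eq_div_iff hSp.ne']
    simp only [hq, sub_mul, add_mul, div_mul_cancel₀ _ hSp.ne', one_mul]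
    rw [hS, Fin.sum_univ_succ, Fin.sum_univ_three]
    ring
  have hratio : ∀ j (c : ℝ), 0 ≤ c → l j ≤ c * l f → bary q j ≤ c * (101 / 99) := fun j c hc0 hj => by
    rw [hqb, div_le_iff₀ hSp]
    calc μ' j ≤ c * l f / (99 / 100) := div_le_div₀ (mul_nonneg hc0 hlf.le) hj (by norm_num) (hwl j)
      _ = c * (101 / 99) * (l f / (101 / 100)) := by ring
      _ ≤ c * (101 / 99) * μ' f := mul_le_mul_of_nonneg_left
          (div_le_div_of_nonneg_left hlf.le (hw0 f) (hwu f)) (by positivity)
      _ ≤ c * (101 / 99) * S := mul_le_mul_of_nonneg_left hSf (by positivity)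
  refine ⟨m, p, q, hm0, hmδ, hpA.1, by rw [hm, neg_neg], hpA.2, ⟨?_, fun x hx => ?_⟩, ?_, fun g hgf hgi => ?_⟩
  · exact mem_corner_bary.2 fun j => by rw [hqb]; exact div_nonneg (hμ0 j) hSp.le
  · have e : ∑ j, w j * bary x j * bary q j = (L x - u) / S := by
      rw [hℓ, Finset.sum_div]
      refine Finset.sum_congr rfl fun j _ => ?_
      rw [hqb, hμ']
      field_simp [(hw0 j).ne']
    rw [e]
    exact div_nonneg (sub_nonneg.2 (hLK x hx)) hSp.le
  · refine (hratio i (m * (200 / 199)) (by positivity) (by linarith)).trans ?_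
    nlinarith
  · have hδ0 : 0 ≤ δ := hm0.trans hmδ
    refine (hratio g (200 * δ) (by linarith) (hlg g hgf hgi)).trans ?_
    nlinarith

/-- Two small coordinates leave little volume. -/
theorem volume_two_small {s : ℝ} (hs : 0 ≤ s) {i j : Fin 4} (hij : i ≠ j) :
    (volume {x ∈ corner | bary x i ≤ s ∧ bary x j ≤ s}).toReal ≤ s ^ 2 := by
  obtain ⟨k, hki, hkj⟩ := exists_third i j hij
  set σ := Equiv.swap 0 k
  obtain ⟨a, ha⟩ : ∃ a : Fin 3, a.succ = σ i :=
    Fin.exists_succ_eq_of_ne_zero fun h =>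
      hki ((σ.injective (h.trans (Equiv.swap_apply_right 0 k).symm)).symm)
  obtain ⟨b, hb⟩ : ∃ b : Fin 3, b.succ = σ j :=
    Fin.exists_succ_eq_of_ne_zero fun h =>
      hkj ((σ.injective (h.trans (Equiv.swap_apply_right 0 k).symm)).symm)
  have hab : a ≠ b := fun h => hij (σ.injective (by rw [← ha, ← hb, h]))
  set hi : E3 := fun l => if l = a ∨ l = b then s else 1 with hhi
  have hhi0 : ∀ l, 0 ≤ hi l := fun l => by simp only [hhi]; split_ifs <;> linarith
  have hsub : permMap σ '' {x ∈ corner | bary x i ≤ s ∧ bary x j ≤ s} ⊆ Icc 0 hi := by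
    rintro _ ⟨x, ⟨hx, hxi, hxj⟩, rfl⟩
    have h0 : ∀ l, 0 ≤ bary x l := mem_corner_bary.1 hx
    refine ⟨fun l => h0 _, fun l => ?_⟩
    show bary x (σ l.succ) ≤ hi l
    simp only [hhi]
    split_ifs with hl
    · rcases hl with rfl | rfl
      · rw [ha, Equiv.swap_apply_self]; exact hxi
      · rw [hb, Equiv.swap_apply_self]; exact hxj
    · have := Finset.single_le_sum (fun c _ => h0 c) (Finset.mem_univ (σ l.succ))
      rwa [sum_bary] at this
  have h := ENNReal.toReal_mono (isCompact_Icc.measure_lt_top.ne) (measure_mono (μ := volume) hsub)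
  rw [volume_permMap_swap] at h
  refine h.trans ?_
  rw [Real.volume_Icc_pi, ENNReal.toReal_prod]
  simp only [Pi.zero_apply, sub_zero, ENNReal.toReal_ofReal (hhi0 _)]
  simp only [Fin.prod_univ_three, hhi]
  fin_cases a <;> fin_cases b <;> simp at hab ⊢ <;> nlinarith

theorem near_quarter {a : Fin 4 → ℝ} (h0 : ∀ i, 0 < a i) (hs : a 0 + a 1 + a 2 + a 3 = 1)
    (hP : (1 - 1 / 10 ^ 8) / 256 ≤ a 0 * a 1 * a 2 * a 3) (i : Fin 4) :
    |a i - 1 / 4| ≤ 1 / 4000 := by
  have key : ∀ p q r t : ℝ, 0 < p → 0 < q → 0 < r → 0 < t → p + q + r + t = 1 →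
      (1 - 1 / 10 ^ 8) / 256 ≤ p * q * r * t → |p + q - 1 / 2| ≤ 1 / 10000 := by
    intro p q r t hp hq hr ht h1 hP
    set u := p + q - 1 / 2 with hu
    have e1 : p * q ≤ ((p + q) / 2) ^ 2 := by nlinarith [sq_nonneg (p - q)]
    have e2 : r * t ≤ ((r + t) / 2) ^ 2 := by nlinarith [sq_nonneg (r - t)]
    have e3 := mul_le_mul e1 e2 (mul_pos hr ht).le (sq_nonneg _)
    have e4 : ((p + q) / 2) ^ 2 * ((r + t) / 2) ^ 2 = (1 / 4 - u ^ 2) ^ 2 / 16 := by
      rw [show r + t = 1 - (p + q) by linarith, hu]; ring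
    have hu4 : u ^ 2 ≤ 1 / 4 := by
      have : |u| ≤ 1 / 2 := abs_le.2 ⟨by linarith, by linarith⟩
      nlinarith [sq_abs u, abs_nonneg u]
    have hu2 : (1 - 1 / 10 ^ 8) / 256 ≤ (1 / 4 - u ^ 2) / 64 := by nlinarith [sq_nonneg u]
    rw [abs_le]
    constructor <;> nlinarith [sq_nonneg u]
  have h01 := abs_le.1 (key _ _ _ _ (h0 0) (h0 1) (h0 2) (h0 3) hs hP)
  have h02 := abs_le.1 (key _ _ _ _ (h0 0) (h0 2) (h0 1) (h0 3) (by linarith) (by linarith))
  have h03 := abs_le.1 (key _ _ _ _ (h0 0) (h0 3) (h0 1) (h0 2) (by linarith) (by linarith))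
  rw [abs_le]
  fin_cases i <;> simp <;> constructor <;> linarith

/-- The polar about a point is an affine image of the weighted dual. -/
theorem polVol_eq {K : Set E3} (hsub : corner ⊆ K) {z : E3} (hz : ∀ i, 0 < bary z i) :
    polVol K z = (volume (wDual K fun i => 1 / (4 * bary z i))).toReal /
      (bary z 0 * bary z 1 * bary z 2 * bary z 3) := by
  set N : Matrix (Fin 3) (Fin 3) ℝ :=
    Matrix.of fun k l => -(1 / bary z 0) - if k = l then 1 / z k else 0 with hN
  set y0 : E3 := fun _ => 1 / bary z 0 with hy0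
  have hzk : ∀ k, 0 < z k := fun k => hz k.succ
  have hz0 := hz 0
  have hmul : ∀ μ : E3, ∀ k, (N *ᵥ μ + y0) k = bary μ 0 / bary z 0 - μ k / z k := by
    intro μ k
    fin_cases k <;>
      · simp [hN, hy0, bary_zero, Matrix.mulVec, dotProduct, Fin.sum_univ_three]
        ring
  have hℓ : ∀ μ p : E3, 1 - (N *ᵥ μ + y0) ⬝ᵥ (p - z) =
      4 * ∑ i, 1 / (4 * bary z i) * bary p i * bary μ i := by
    intro μ p
    have := (hzk 0).ne'; have := (hzk 1).ne'; have := (hzk 2).ne'; have := hz0.ne'
    simp only [dotProduct, Fin.sum_univ_three, Fin.sum_univ_four, hmul, Pi.sub_apply, bary_one,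
      bary_two, bary_three]
    field_simp
    simp only [bary_zero]
    ring
  have hset : polarSet ((fun p => p - z) '' K) =
      (fun μ => N *ᵥ μ + y0) '' wDual K (fun i => 1 / (4 * bary z i)) := by
    ext y
    constructor
    · intro hy
      have hy' : ∀ p ∈ K, y ⬝ᵥ (p - z) ≤ 1 := fun p hp => hy _ ⟨p, hp, rfl⟩
      set c := 1 + y ⬝ᵥ z with hc
      set μ : E3 := fun k => z k * (c - y k) with hμ
      have hμ0 : bary μ 0 = bary z 0 * c := by
        rw [bary_zero, bary_zero, hc]
        simp only [hμ, hc, dotProduct, Fin.sum_univ_three]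
        ring
      have hN' : N *ᵥ μ + y0 = y := by
        funext k
        rw [hmul, hμ0, mul_div_cancel_left₀ _ hz0.ne', hμ, mul_div_cancel_left₀ _ (hzk k).ne']
        ring
      refine ⟨μ, ⟨mem_corner_bary.2 fun i => ?_, fun p hp => ?_⟩, hN'⟩
      · refine Fin.cases ?_ (fun k => ?_) i
        · have h := hy' 0 (hsub (mem_corner.2 (by norm_num)))
          rw [zero_sub, dotProduct_neg] at h
          rw [hμ0]
          exact mul_nonneg hz0.le (by linarith)
        · have h := hy' (vert k.succ) (hsub (vert_mem _))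
          have e : y ⬝ᵥ vert k.succ = y k := by simp [dotProduct, vert]
          rw [dotProduct_sub, e] at h
          exact mul_nonneg (hzk k).le (by linarith)
      · have h := hy' p hp
        rw [← hN'] at h
        linarith [hℓ μ p]
    · rintro ⟨μ, hμ, rfl⟩ _ ⟨p, hp, rfl⟩
      show (N *ᵥ μ + y0) ⬝ᵥ (p - z) ≤ 1
      linarith [hℓ μ p, hμ.2 p hp]
  have hdet : N.det = -(1 / (bary z 0 * z 0 * z 1 * z 2)) := by
    have := (hzk 0).ne'; have := (hzk 1).ne'; have := (hzk 2).ne'; have := hz0.ne'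
    simp [hN, Matrix.det_fin_three]
    field_simp
    simp only [bary_zero]
    ring
  rw [polVol, hset, volume_affine, hdet, abs_neg, bary_one, bary_two, bary_three,
    abs_of_pos (by have := hzk 0; have := hzk 1; have := hzk 2; positivity)]
  ring

/-- The crude bound by the enlarged corner. -/
theorem crude {K : Set E3} {δ : ℝ}
    (hlow : ∀ p ∈ K, ∀ i, -δ ≤ bary p i) (hδ : 0 ≤ δ) {z : E3} (hz : z ∈ interior K) :
    ∃ a : Fin 4 → ℝ, (∀ i, 0 < a i) ∧ a 0 + a 1 + a 2 + a 3 = 1 ∧
      (∀ i, bary z i = (1 + 4 * δ) * a i - δ) ∧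
      1 / (6 * ((1 + 4 * δ) ^ 3 * (a 0 * a 1 * a 2 * a 3))) ≤ polVol K z := by
  have hs : 0 < 1 + 4 * δ := by linarith
  set b : E3 := fun _ => δ with hb
  set a : E3 := (1 + 4 * δ)⁻¹ • (z + b) with ha
  have hba : ∀ (p : E3) i, bary ((1 + 4 * δ)⁻¹ • (p + b)) i = (1 + 4 * δ)⁻¹ * (bary p i + δ) := by
    intro p
    refine Fin.cases ?_ fun k => rfl
    simp only [bary_zero, hb, Pi.smul_apply, Pi.add_apply, smul_eq_mul]
    field_simp
    ring
  have hin : a ∈ interior corner := by
    have hpre : K ⊆ (fun p => (1 + 4 * δ)⁻¹ • (p + b)) ⁻¹' corner := fun p hp =>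
      mem_corner_bary.2 fun i => by
        rw [hba]
        exact mul_nonneg (inv_nonneg.2 hs.le) (by linarith [hlow p hp i])
    have hopen : IsOpenMap fun p : E3 => (1 + 4 * δ)⁻¹ • (p + b) :=
      ((Homeomorph.addRight b).trans (Homeomorph.smulOfNeZero _ (inv_ne_zero hs.ne'))).isOpenMap
    exact interior_maximal (by rintro _ ⟨p, hp, rfl⟩; exact hpre (interior_subset hp))
      (hopen _ isOpen_interior) ⟨z, hz, rfl⟩
  obtain ⟨ha0, ha1⟩ := interior_corner_pos hin
  have hsum : bary a 0 + bary a 1 + bary a 2 + bary a 3 = 1 := by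
    have := sum_bary a; rwa [Fin.sum_univ_four] at this
  refine ⟨bary a, fun i => ?_, hsum, fun i => ?_, ?_⟩
  · refine Fin.cases ?_ (fun k => ha0 k) i
    rw [bary_zero]; linarith
  · rw [ha, hba, ← mul_assoc, mul_inv_cancel₀ hs.ne', one_mul]; ring
  · set S := (fun y => ((1 + 4 * δ)⁻¹ : ℝ) • y) '' polarSet ((fun p => p - a) '' corner) with hS
    have hsubS : S ⊆ polarSet ((fun p => p - z) '' K) := by
      rintro _ ⟨y, hy, rfl⟩ _ ⟨p, hp, rfl⟩
      have hmem : (1 + 4 * δ)⁻¹ • (p + b) ∈ corner := mem_corner_bary.2 fun i => by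
        rw [hba]
        exact mul_nonneg (inv_nonneg.2 hs.le) (by linarith [hlow p hp i])
      have h : y ⬝ᵥ ((1 + 4 * δ)⁻¹ • (p + b) - a) ≤ 1 := hy _ ⟨_, hmem, rfl⟩
      show ((1 + 4 * δ)⁻¹ • y) ⬝ᵥ (p - z) ≤ 1
      rw [ha, ← smul_sub, dotProduct_smul, add_sub_add_right_eq_sub, smul_eq_mul] at h
      rwa [smul_dotProduct, smul_eq_mul]
    have hfin : volume (polarSet ((fun p => p - z) '' K)) ≠ ⊤ := (polar_bounded hz).measure_lt_top.ne
    refine le_trans (le_of_eq ?_) (ENNReal.toReal_mono hfin (measure_mono hsubS))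
    rw [hS, image_smul, Measure.addHaar_smul, ENNReal.toReal_mul,
      polar_corner ha0 ha1, Module.finrank_fin_fun,
      ENNReal.toReal_ofReal (abs_nonneg _), abs_of_pos (by positivity), bary_zero, bary_one,
      bary_two, bary_three]
    field_simp

/-- The local lemma. -/
theorem localStmt : LocalStmt := by
  intro K hK hc hsub hup hvol z hz
  set V := (volume K).toReal with hV
  set δ := 6 * V - 1 with hδdef
  have hδ0 : 0 ≤ δ := by have := corner_subset_volume hK hsub; linarith
  have hδb : δ ≤ band := by linarith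
  have hδs : δ ≤ 1 / 10 ^ 11 := hδb
  norm_num at hδs
  have hlow : ∀ p ∈ K, ∀ i, -δ ≤ bary p i := fun p hp i => low_bound hK hc hsub hp i
  have hVδ : V = (1 + δ) / 6 := by rw [hδdef]; ring
  obtain ⟨a, ha0, has, haz, hcr⟩ := crude hlow hδ0 hz
  by_contra hlt
  push Not at hlt
  -- the point is near the centroid
  have hPa : 0 < a 0 * a 1 * a 2 * a 3 := by
    have := ha0 0; have := ha0 1; have := ha0 2; have := ha0 3; positivity
  have hnear : (1 - 1 / 10 ^ 8) / 256 ≤ a 0 * a 1 * a 2 * a 3 := by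
    by_contra h
    push Not at h
    have h1 : (1 + 4 * δ) ^ 3 ≤ 1 + 1 / 10 ^ 9 := by
      have : (1 + 4 * δ) ^ 3 ≤ (1 + 4 / 10 ^ 11 : ℝ) ^ 3 := by
        gcongr; norm_num; linarith
      refine this.trans ?_; norm_num
    have h2 : (1 + 4 * δ) ^ 3 * (a 0 * a 1 * a 2 * a 3) ≤
        (1 + 1 / 10 ^ 9) * ((1 - 1 / 10 ^ 8) / 256) :=
      mul_le_mul h1 h.le hPa.le (by norm_num)
    have h3 : 1 / (6 * ((1 + 1 / 10 ^ 9) * ((1 - 1 / 10 ^ 8) / 256))) ≤ polVol K z := by
      refine le_trans ?_ hcr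
      gcongr
    have h4 : (1 / 6 : ℝ) * (1 / (6 * ((1 + 1 / 10 ^ 9) * ((1 - 1 / 10 ^ 8) / 256)))) ≤
        V * polVol K z := mul_le_mul (by linarith) h3 (by norm_num) (by linarith)
    norm_num at h4 hlt
    linarith
  have hbz : ∀ i, |bary z i - 1 / 4| ≤ 1 / 2000 := fun i => by
    have h := abs_le.1 (near_quarter ha0 has hnear i)
    have hd : ∀ c : ℝ, 0 ≤ c → c ≤ 1 → δ * c ≤ δ := fun c _ h1 => mul_le_of_le_one_right hδ0 h1
    have := hd (a i) (ha0 i).le (by linarith)
    have := mul_nonneg hδ0 (ha0 i).le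
    rw [haz, abs_le]
    constructor <;> linarith
  have hzp : ∀ i, 0 < bary z i := fun i => by linarith [(abs_le.1 (hbz i)).1]
  set w : Fin 4 → ℝ := fun i => 1 / (4 * bary z i) with hw
  have hwl : ∀ i, 99 / 100 ≤ w i := fun i => by
    rw [hw, le_div_iff₀ (by linarith [hzp i])]; linarith [(abs_le.1 (hbz i)).2]
  have hwu : ∀ i, w i ≤ 101 / 100 := fun i => by
    rw [hw, div_le_iff₀ (by linarith [hzp i])]; linarith [(abs_le.1 (hbz i)).1]
  choose m hp hq hm0 hmδ hpK hpf hpi hqD hqi hqg using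
    fun (f i : Fin 4) (h : f ≠ i) => exists_excess hK hc hsub hlow hwl hwu f i h
  have hne : ∀ (f : Fin 4) (j : Fin 3), f ≠ Equiv.swap 0 f j.succ := fun f j h => by
    have := congrArg (Equiv.swap 0 f) h
    rw [Equiv.swap_apply_right, Equiv.swap_apply_self] at this
    exact Fin.succ_ne_zero j this.symm
  set G : Fin 4 → Fin 3 → ℝ := fun f j => m f (Equiv.swap 0 f j.succ) (hne f j) with hG
  set Lm : Fin 4 → Fin 3 → ℝ := fun i j => m (Equiv.swap 0 i j.succ) i (hne i j).symm with hLm
  -- the two sums of excesses agree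
  have hsame : ∑ f, (G f 0 + G f 1 + G f 2) = ∑ i, (Lm i 0 + Lm i 1 + Lm i 2) := by
    set mm : Fin 4 → Fin 4 → ℝ := fun f i => if h : f ≠ i then m f i h else 0 with hmm
    have e : ∀ (F : Fin 4 → ℝ) (f : Fin 4), F f = 0 →
        F (Equiv.swap 0 f (Fin.succ 0)) + F (Equiv.swap 0 f (Fin.succ 1)) +
          F (Equiv.swap 0 f (Fin.succ 2)) = ∑ i, F i := fun F f h0 => by
      rw [← Equiv.sum_comp (Equiv.swap 0 f) F, Fin.sum_univ_succ, Equiv.swap_apply_left, h0,
        zero_add, Fin.sum_univ_three]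
    have hGm : ∀ f j, G f j = mm f (Equiv.swap 0 f j.succ) := fun f j => by
      rw [hmm]; simp only [dif_pos (hne f j), hG]
    have hLmm : ∀ i j, Lm i j = mm (Equiv.swap 0 i j.succ) i := fun i j => by
      rw [hmm]; simp only [dif_pos (hne i j).symm, hLm]
    have hmd : ∀ f, mm f f = 0 := fun f => by simp [hmm]
    simp only [hGm, hLmm]
    rw [Finset.sum_congr rfl fun f _ => e (mm f) f (hmd f),
      Finset.sum_congr rfl fun i _ => e (fun f => mm f i) i (hmd i)]
    exact Finset.sum_comm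
  -- gain
  have hgain : ∑ f, 94 / 100 * ((G f 0 + G f 1 + G f 2) / 6) ≤ V - 1 / 6 := by
    set R : Fin 4 → Set E3 := fun f => K ∩ permMap (Equiv.swap 0 f) ⁻¹' reg0 with hR
    have hone : ∀ f, 94 / 100 * ((G f 0 + G f 1 + G f 2) / 6) ≤ (volume (R f)).toReal := by
      intro f
      obtain ⟨hK', hc', hsub'⟩ := perm_body hK hc hsub f
      have h := gain0 hK' hc' hsub' hδb
        (by rintro _ ⟨p, hp, rfl⟩ i; rw [bary_permMap]; exact hlow p hp _)
        (by rintro _ ⟨p, hp, rfl⟩ i; rw [bary_permMap]; exact hup p hp _)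
        (m := G f) (fun j => hm0 _ _ (hne f j))
        (w := fun j => permMap (Equiv.swap 0 f) (hp f _ (hne f j)))
        (fun j => ⟨_, hpK _ _ (hne f j), rfl⟩)
        (fun j => by rw [bary_permMap, Equiv.swap_apply_left]; exact hpf _ _ (hne f j))
        (fun j => hpi _ _ (hne f j))
      refine h.trans (le_of_eq ?_)
      rw [show permMap (Equiv.swap 0 f) '' K ∩ reg0 = permMap (Equiv.swap 0 f) '' R f from
        (image_inter_preimage _ _ _).symm, volume_permMap_swap]
    refine (Finset.sum_le_sum fun f _ => hone f).trans ?_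
    have hdisj : Pairwise (Function.onFun Disjoint R) := by
      intro f g hfg
      refine Set.disjoint_left.2 fun x hxf hxg => ?_
      have h1 : bary (permMap (Equiv.swap 0 f) x) 0 < 0 := hxf.2.1
      rw [bary_permMap, Equiv.swap_apply_left] at h1
      have hgf : Equiv.swap 0 g f ≠ 0 := fun h => hfg
        ((Equiv.swap 0 g).injective (h.trans (Equiv.swap_apply_right 0 g).symm))
      obtain ⟨k, hk⟩ := Fin.exists_succ_eq_of_ne_zero hgf
      have h2 : 0 < bary x (Equiv.swap 0 g k.succ) := hxg.2.2 k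
      rw [hk, Equiv.swap_apply_self] at h2
      linarith
    have hmeas : ∀ f, MeasurableSet (R f) := fun f => hK.measurableSet.inter
      (isOpen_reg0.preimage (continuous_pi fun k => continuous_bary _)).measurableSet
    have hcd : Disjoint corner (⋃ f, R f) := Set.disjoint_iUnion_right.2 fun f =>
      Set.disjoint_left.2 fun x hx hxR => by
        have h1 : bary (permMap (Equiv.swap 0 f) x) 0 < 0 := hxR.2.1
        rw [bary_permMap] at h1
        linarith [mem_corner_bary.1 hx (Equiv.swap 0 f 0)]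
    have hRK : (⋃ f, R f) ⊆ K := iUnion_subset fun f => inter_subset_left
    have h := ENNReal.toReal_mono hK.measure_lt_top.ne
      (measure_mono (μ := volume) (union_subset hsub hRK))
    rw [measure_union' hcd isCompact_corner.measurableSet, measure_iUnion hdisj hmeas,
      tsum_fintype, ENNReal.toReal_add isCompact_corner.measure_lt_top.ne
        (ENNReal.sum_ne_top.2 fun f _ => ne_top_of_le_ne_top hK.measure_lt_top.ne
          (measure_mono inter_subset_left)),
      ENNReal.toReal_sum fun f _ => ne_top_of_le_ne_top hK.measure_lt_top.ne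
        (measure_mono inter_subset_left), volume_corner] at h
    linarith
  -- loss
  have hdeep : ∀ μ, (∀ i, 2 * δ ≤ bary μ i) → μ ∈ wDual K w := fun μ =>
    deep_mem hwl hwu hδ0 hlow
  set Lost : Fin 4 → Set E3 := fun i =>
    permMap (Equiv.swap 0 i) '' (({x ∈ corner | bary x 0 < 1000 * δ ∧ ∀ k, 1000 * δ ≤ x k}) \
      permMap (Equiv.swap 0 i) '' wDual K w) with hLost
  have hlost : ∀ i, (volume (Lost i)).toReal ≤ 72 / 100 * ((Lm i 0 + Lm i 1 + Lm i 2) / 6) := by
    intro i
    set τ := Equiv.swap 0 i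
    rw [hLost, volume_permMap_swap]
    set μc : Fin 4 → ℝ := fun j => if j = i then 0 else 1 / w j with hμc
    set S := ∑ j, μc j with hS
    have hμb : ∀ j, j ≠ i → 100 / 101 ≤ μc j ∧ μc j ≤ 100 / 99 := fun j hj => by
      simp only [hμc, if_neg hj]
      have := hwl j; have := hwu j
      constructor
      · rw [le_div_iff₀ (by linarith)]; linarith
      · rw [div_le_iff₀ (by linarith)]; linarith
    have hτ : ∀ k : Fin 3, τ k.succ ≠ i := fun k => (hne i k).symm
    have hS3 : S = μc (τ (Fin.succ 0)) + μc (τ (Fin.succ 1)) + μc (τ (Fin.succ 2)) := by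
      rw [hS, ← Equiv.sum_comp τ μc, Fin.sum_univ_succ, Fin.sum_univ_three]
      simp [hμc, τ]
    have hSp : 0 < S := by
      rw [hS3]; linarith [(hμb _ (hτ 0)).1, (hμb _ (hτ 1)).1, (hμb _ (hτ 2)).1]
    have hSu : S ≤ 300 / 99 := by
      rw [hS3]; linarith [(hμb _ (hτ 0)).2, (hμb _ (hτ 1)).2, (hμb _ (hτ 2)).2]
    set c : E3 := fun k => μc k.succ / S with hcdef
    have hcb : ∀ j, bary c j = μc j / S := by
      refine Fin.cases ?_ fun k => rfl
      rw [bary_zero, eq_div_iff hSp.ne']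
      simp only [hcdef, sub_mul, add_mul, div_mul_cancel₀ _ hSp.ne', one_mul]
      rw [hS, Fin.sum_univ_succ, Fin.sum_univ_three]
      ring
    have hμ0 : ∀ j, 0 ≤ μc j := fun j => by
      simp only [hμc]; split_ifs
      exacts [le_rfl, (div_pos one_pos (by linarith [hwl j])).le]
    have hcD : c ∈ wDual K w := by
      refine ⟨mem_corner_bary.2 fun j => by rw [hcb]; exact div_nonneg (hμ0 j) hSp.le,
        fun p hp => ?_⟩
      have e : ∑ j, w j * bary p j * bary c j = (1 - bary p i) / S := by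
        simp only [hcb, mul_div_assoc', ← Finset.sum_div]
        congr 1
        have h1 : ∀ j, w j * bary p j * μc j = bary p j - if j = i then bary p j else 0 := by
          intro j
          simp only [hμc]
          split_ifs with hj
          · simp
          · rw [sub_zero]; field_simp [(show w j ≠ 0 by linarith [hwl j])]
        simp [h1, Finset.sum_sub_distrib, sum_bary]
      rw [e]
      exact div_nonneg (by linarith [hup p hp i]) hSp.le
    have hD' : Convex ℝ (permMap τ '' wDual K w) := by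
      rintro _ ⟨p, hp, rfl⟩ _ ⟨q, hq, rfl⟩ x y hx hy hxy
      exact ⟨_, convex_wDual K w hp hq hx hy hxy, permMap_combo _ hxy⟩
    refine loss0 hD' hδ0 hδb (fun μ hμ => ?_) (m := Lm i) (fun j => hm0 _ _ (hne i j).symm)
      (fun j => hmδ _ _ (hne i j).symm)
      (q := fun j => permMap τ (hq _ _ (hne i j).symm))
      (fun j => ⟨_, hqD _ _ (hne i j).symm, rfl⟩)
      (fun j => mem_corner_bary.2 fun k => by
        rw [bary_permMap]; exact mem_corner_bary.1 (hqD _ _ (hne i j).symm).1 _)
      (fun j => by rw [bary_permMap, Equiv.swap_apply_left]; exact hqi _ _ (hne i j).symm)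
      (fun j k hkj => hqg _ _ (hne i j).symm _
        (fun h => hkj (Fin.succ_injective _ (τ.injective h))) (hτ k))
      (c := permMap τ c) ⟨_, hcD, rfl⟩ ?_ fun k => ?_
    · rw [image_permMap_swap, mem_preimage]
      exact hdeep _ fun k => by rw [bary_permMap]; exact hμ _
    · rw [bary_permMap, Equiv.swap_apply_left, hcb]; simp [hμc]
    · show 32 / 100 ≤ bary c (τ k.succ)
      rw [hcb, le_div_iff₀ hSp]
      linarith [(hμb _ (hτ k)).1]
  set Exc : Fin 4 × Fin 4 → Set E3 := fun q =>
    if q.1 = q.2 then ∅ else {x ∈ corner | bary x q.1 ≤ 1000 * δ ∧ bary x q.2 ≤ 1000 * δ} with hExc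
  have hExcc : ∀ q, Exc q ⊆ corner := fun q x hx => by
    simp only [hExc] at hx; split_ifs at hx
    exacts [hx.elim, hx.1]
  have hLc : ∀ i, Lost i ⊆ corner := by
    rintro i _ ⟨x, hx, rfl⟩
    exact mem_corner_bary.2 fun k => by rw [bary_permMap]; exact mem_corner_bary.1 hx.1.1 _
  have hcover : corner ⊆ wDual K w ∪ ((⋃ i, Lost i) ∪ ⋃ q, Exc q) := by
    intro x hx
    by_cases hxD : x ∈ wDual K w
    · exact Or.inl hxD
    obtain ⟨i, hi⟩ : ∃ i, bary x i < 2 * δ := by
      by_contra h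
      push Not at h
      exact hxD (hdeep x h)
    have hi' : bary x i < 1000 * δ := hi.trans_le (by linarith)
    by_cases h2 : ∃ j, j ≠ i ∧ bary x j < 1000 * δ
    · obtain ⟨j, hj, hj'⟩ := h2
      refine Or.inr (Or.inr (mem_iUnion.2 ⟨(i, j), ?_⟩))
      simp only [hExc, if_neg (Ne.symm hj)]
      exact ⟨hx, hi'.le, hj'.le⟩
    push Not at h2
    refine Or.inr (Or.inl (mem_iUnion.2 ⟨i, permMap (Equiv.swap 0 i) x, ⟨⟨?_, ?_, fun k => ?_⟩, ?_⟩,
      permMap_permMap_swap i x⟩))
    · exact mem_corner_bary.2 fun k => by rw [bary_permMap]; exact mem_corner_bary.1 hx _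
    · rw [bary_permMap, Equiv.swap_apply_left]; exact hi'
    · exact h2 _ (hne i k).symm
    · rw [image_permMap_swap, mem_preimage, permMap_permMap_swap]; exact hxD
  have hDc : wDual K w ⊆ corner := fun x hx => hx.1
  have h1 := toReal_le_add isCompact_corner hDc
    (union_subset (iUnion_subset hLc) (iUnion_subset hExcc)) hcover
  have h2 := toReal_le_add isCompact_corner (iUnion_subset hLc) (iUnion_subset hExcc)
    (Subset.refl ((⋃ i, Lost i) ∪ ⋃ q, Exc q))
  have hsumle : ∀ {ι : Type} [Fintype ι] (S : ι → Set E3), (∀ i, S i ⊆ corner) →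
      (volume (⋃ i, S i)).toReal ≤ ∑ i, (volume (S i)).toReal := by
    intro ι _ S hS
    have hf : ∀ i ∈ (Finset.univ : Finset ι), volume (S i) ≠ ⊤ := fun i _ =>
      ne_top_of_le_ne_top isCompact_corner.measure_lt_top.ne (measure_mono (hS i))
    rw [← ENNReal.toReal_sum hf]
    exact ENNReal.toReal_mono (ENNReal.sum_ne_top.2 hf) (measure_iUnion_fintype_le _ S)
  have hLsum := (hsumle Lost hLc).trans (Finset.sum_le_sum fun i _ => hlost i)
  have hEsum : (volume (⋃ q, Exc q)).toReal ≤ 16 * (1000 * δ) ^ 2 := by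
    refine (hsumle Exc hExcc).trans ((Finset.sum_le_sum (g := fun _ => (1000 * δ) ^ 2)
      fun q _ => ?_).trans_eq (by simp))
    simp only [hExc]
    split_ifs with hq
    · simp; positivity
    · exact volume_two_small (by linarith) hq
  rw [volume_corner] at h1
  have hP : bary z 0 * bary z 1 * bary z 2 * bary z 3 ≤ 1 / 256 :=
    four_prod_le (hzp 0).le (hzp 1).le (hzp 2).le (hzp 3).le
      (by have := sum_bary z; rwa [Fin.sum_univ_four] at this)
  have hPp : 0 < bary z 0 * bary z 1 * bary z 2 * bary z 3 := by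
    have := hzp 0; have := hzp 1; have := hzp 2; have := hzp 3; positivity
  rw [polVol_eq hsub hzp, mul_div_assoc', div_lt_iff₀ hPp] at hlt
  rw [← Finset.mul_sum, ← Finset.sum_div] at hgain hLsum
  have hsq : δ * δ ≤ 1 / 10 ^ 11 * δ := mul_le_mul_of_nonneg_right hδb hδ0
  set D := (volume (wDual K w)).toReal with hDdef
  have hD : (1 - 78 / 100 * δ) / 6 ≤ D := by
    norm_num at hsq
    linarith
  set c0 := 64 / 9 * (1 + δ / 10) with hc0
  have h3 : c0 * (bary z 0 * bary z 1 * bary z 2 * bary z 3) ≤ c0 * (1 / 256) :=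
    mul_le_mul_of_nonneg_left hP (by rw [hc0]; linarith)
  have h4 : V * ((1 - 78 / 100 * δ) / 6) ≤ V * D := mul_le_mul_of_nonneg_left hD (by linarith)
  rw [hVδ] at h4 hlt
  rw [hc0] at h3
  nlinarith [mul_le_mul_of_nonneg_right hδb hδ0]

end Vale.Agent.P248.Three
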