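import Vale.Agent.P248.Three.EqualityDefs

/-!
P248, dimension three, equality: the volume a body gains over one face of the corner, and the volume
the weighted dual loses at one face.
-/

noncomputable section

open MeasureTheory Set Matrix
open scoped ENNReal

namespace Vale.Agent.P248.Three

/-- The linear map with given columns. -/
def colMat (P : Fin 3 → E3) : Matrix (Fin 3) (Fin 3) ℝ := Matrix.of fun k l => P l k

theorem colMat_mulVec (P : Fin 3 → E3) (β : E3) :
    colMat P *ᵥ β = β 0 • P 0 + β 1 • P 1 + β 2 • P 2 := by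
  funext k
  simp [colMat, Matrix.mulVec, dotProduct, Fin.sum_univ_three]
  ring

theorem sum_colMat_mulVec {P : Fin 3 → E3} (hs : ∀ l, P l 0 + P l 1 + P l 2 = 1) (β : E3) :
    (colMat P *ᵥ β) 0 + (colMat P *ᵥ β) 1 + (colMat P *ᵥ β) 2 = β 0 + β 1 + β 2 := by
  simp only [colMat_mulVec, Pi.add_apply, Pi.smul_apply, smul_eq_mul]
  linear_combination β 0 * hs 0 + β 1 * hs 1 + β 2 * hs 2

/-- The determinant of a column stochastic matrix near the identity. -/
theorem det_colMat {P : Fin 3 → E3} {σ : ℝ} (hs : ∀ l, P l 0 + P l 1 + P l 2 = 1)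
    (h0 : ∀ l k, 0 ≤ P l k) (hσ : ∀ l k, k ≠ l → P l k ≤ σ) (hσ' : σ ≤ 1 / 100) :
    1 - 7 * σ ≤ (colMat P).det ∧ (colMat P).det ≤ 1 := by
  have e : (colMat P).det = P 0 0 * P 1 1 * P 2 2 - P 0 0 * P 2 1 * P 1 2
      - P 1 0 * P 0 1 * P 2 2 + P 1 0 * P 2 1 * P 0 2 + P 2 0 * P 0 1 * P 1 2
      - P 2 0 * P 1 1 * P 0 2 := by
    simp [colMat, Matrix.det_fin_three]
  have s0 := hs 0; have s1 := hs 1; have s2 := hs 2
  have a00 := h0 0 0; have a01 := h0 0 1; have a02 := h0 0 2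
  have a10 := h0 1 0; have a11 := h0 1 1; have a12 := h0 1 2
  have a20 := h0 2 0; have a21 := h0 2 1; have a22 := h0 2 2
  have b01 := hσ 0 1 (by decide); have b02 := hσ 0 2 (by decide)
  have b10 := hσ 1 0 (by decide); have b12 := hσ 1 2 (by decide)
  have b20 := hσ 2 0 (by decide); have b21 := hσ 2 1 (by decide)
  have hσ0 : 0 ≤ σ := a01.trans b01
  have p12 : P 2 1 * P 1 2 ≤ σ * σ := mul_le_mul b21 b12 a12 hσ0
  have p01 : P 1 0 * P 0 1 ≤ σ * σ := mul_le_mul b10 b01 a01 hσ0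
  have p02 : P 2 0 * P 0 2 ≤ σ * σ := mul_le_mul b20 b02 a02 hσ0
  constructor
  · have c0 : P 0 0 * (P 2 1 * P 1 2) ≤ 1 * (σ * σ) :=
      mul_le_mul (by linarith) p12 (mul_nonneg a21 a12) zero_le_one
    have c2 : P 2 2 * (P 1 0 * P 0 1) ≤ 1 * (σ * σ) :=
      mul_le_mul (by linarith) p01 (mul_nonneg a10 a01) zero_le_one
    have c1 : P 1 1 * (P 2 0 * P 0 2) ≤ 1 * (σ * σ) :=
      mul_le_mul (by linarith) p02 (mul_nonneg a20 a02) zero_le_one
    have hd : (1 - 2 * σ) * ((1 - 2 * σ) * (1 - 2 * σ)) ≤ P 0 0 * (P 1 1 * P 2 2) :=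
      mul_le_mul (by linarith) (mul_le_mul (by linarith) (by linarith) (by linarith) a11)
        (mul_nonneg (by linarith) (by linarith)) a00
    have hσσ := mul_nonneg hσ0 hσ0
    have g1 := mul_nonneg (mul_nonneg a10 a21) a02
    have g2 := mul_nonneg (mul_nonneg a20 a01) a12
    have hsq : σ * σ ≤ 1 / 100 * σ := mul_le_mul_of_nonneg_right hσ' hσ0
    have hcube : σ * σ * σ ≤ 1 / 100 * (σ * σ) := by nlinarith
    linarith
  · have hprod : (P 0 0 + P 0 1 + P 0 2) * (P 1 0 + P 1 1 + P 1 2) * (P 2 0 + P 2 1 + P 2 2) = 1 := by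
      rw [s0, s1, s2]; norm_num
    rw [e]
    nlinarith [mul_nonneg (mul_nonneg a00 a10) a20, mul_nonneg (mul_nonneg a00 a10) a21,
      mul_nonneg (mul_nonneg a00 a10) a22, mul_nonneg (mul_nonneg a00 a11) a20,
      mul_nonneg (mul_nonneg a00 a11) a21, mul_nonneg (mul_nonneg a00 a12) a20,
      mul_nonneg (mul_nonneg a00 a12) a21, mul_nonneg (mul_nonneg a00 a12) a22,
      mul_nonneg (mul_nonneg a01 a10) a20, mul_nonneg (mul_nonneg a01 a10) a21,
      mul_nonneg (mul_nonneg a01 a10) a22, mul_nonneg (mul_nonneg a01 a11) a20,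
      mul_nonneg (mul_nonneg a01 a11) a21, mul_nonneg (mul_nonneg a01 a11) a22,
      mul_nonneg (mul_nonneg a01 a12) a21, mul_nonneg (mul_nonneg a01 a12) a22,
      mul_nonneg (mul_nonneg a02 a10) a20, mul_nonneg (mul_nonneg a02 a10) a22,
      mul_nonneg (mul_nonneg a02 a11) a20, mul_nonneg (mul_nonneg a02 a11) a21,
      mul_nonneg (mul_nonneg a02 a11) a22, mul_nonneg (mul_nonneg a02 a12) a20,
      mul_nonneg (mul_nonneg a02 a12) a21, mul_nonneg (mul_nonneg a02 a12) a22]

/-- Preimages of vectors with large coordinates are nonnegative. -/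
theorem colMat_preimage {P : Fin 3 → E3} {σ : ℝ} (hs : ∀ l, P l 0 + P l 1 + P l 2 = 1)
    (h0 : ∀ l k, 0 ≤ P l k) (hσ : ∀ l k, k ≠ l → P l k ≤ σ) (hσ' : σ ≤ 1 / 100) {x : E3}
    (hx : ∀ k, 2 * σ < x k) (hx1 : x 0 + x 1 + x 2 ≤ 1) :
    ∃ β : E3, colMat P *ᵥ β = x ∧ (∀ k, 0 ≤ β k) ∧ β 0 + β 1 + β 2 = x 0 + x 1 + x 2 ∧
      ∀ k, |β k - x k| ≤ 3 * σ := by
  have hd := det_colMat hs h0 hσ hσ'
  have hdet : IsUnit (colMat P).det := isUnit_iff_ne_zero.2 (by linarith [hd.1])
  set β := (colMat P)⁻¹ *ᵥ x with hβ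
  have hMβ : colMat P *ᵥ β = x := by
    rw [hβ, Matrix.mulVec_mulVec, Matrix.mul_nonsing_inv _ hdet, Matrix.one_mulVec]
  have hsum := sum_colMat_mulVec hs β
  rw [hMβ] at hsum
  have e : ∀ k, x k = β 0 * P 0 k + β 1 * P 1 k + β 2 * P 2 k := fun k => by
    rw [← hMβ, colMat_mulVec]
    simp
  have hσ0 : 0 ≤ σ := (h0 0 1).trans (hσ 0 1 (by decide))
  have s0 := hs 0; have s1 := hs 1; have s2 := hs 2
  have a01 := h0 0 1; have a02 := h0 0 2; have a10 := h0 1 0; have a12 := h0 1 2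
  have a20 := h0 2 0; have a21 := h0 2 1
  have b01 := hσ 0 1 (by decide); have b02 := hσ 0 2 (by decide)
  have b10 := hσ 1 0 (by decide); have b12 := hσ 1 2 (by decide)
  have b20 := hσ 2 0 (by decide); have b21 := hσ 2 1 (by decide)
  -- an absolute bound for the off diagonal terms
  set N := |β 0| + |β 1| + |β 2| with hN
  have hb : ∀ (a q : ℝ), 0 ≤ q → q ≤ σ → |a * q| ≤ |a| * σ := fun a q hq hq' => by
    rw [abs_mul, abs_of_nonneg hq]; exact mul_le_mul_of_nonneg_left hq' (abs_nonneg _)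
  have hdiag : ∀ k, |β k * P k k - β k| ≤ |β k| * (2 * σ) := fun k => by
    rw [show β k * P k k - β k = -(β k * (1 - P k k)) by ring, abs_neg, abs_mul]
    refine mul_le_mul_of_nonneg_left (abs_le.2 ?_) (abs_nonneg _)
    fin_cases k <;> simp <;> constructor <;> linarith
  have hdiff : ∀ k, |β k - x k| ≤ σ * (N + |β k|) := by
    intro k
    have q := hdiag k
    rw [e k]
    fin_cases k <;> simp only [Fin.zero_eta, Fin.mk_one, Fin.reduceFinMk] at q ⊢
    · have r1 := abs_le.1 (hb (β 1) _ a10 b10); have r2 := abs_le.1 (hb (β 2) _ a20 b20)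
      have q' := abs_le.1 q
      rw [abs_le]; constructor <;> linarith [hN]
    · have r1 := abs_le.1 (hb (β 0) _ a01 b01); have r2 := abs_le.1 (hb (β 2) _ a21 b21)
      have q' := abs_le.1 q
      rw [abs_le]; constructor <;> linarith [hN]
    · have r1 := abs_le.1 (hb (β 0) _ a02 b02); have r2 := abs_le.1 (hb (β 1) _ a12 b12)
      have q' := abs_le.1 q
      rw [abs_le]; constructor <;> linarith [hN]
  have hx0 : ∀ k, |x k| = x k := fun k => abs_of_pos (by linarith [hx k])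
  have hle : ∀ k, |β k| ≤ x k + σ * (N + |β k|) := fun k => by
    have := abs_sub_abs_le_abs_sub (β k) (x k)
    rw [hx0] at this
    linarith [hdiff k]
  have hN2 : N ≤ 16 / 15 := by
    have h := add_le_add (add_le_add (hle 0) (hle 1)) (hle 2)
    have hN0 : 0 ≤ N := by rw [hN]; positivity
    have h4 : σ * (4 * N) ≤ 1 / 100 * (4 * N) := mul_le_mul_of_nonneg_right hσ' (by linarith)
    have : |β 0| + |β 1| + |β 2| ≤ x 0 + x 1 + x 2 + σ * (4 * N) := by rw [hN] at h ⊢; linarith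
    rw [← hN] at this
    linarith
  have hk : ∀ k, |β k| ≤ N := fun k => by
    rw [hN]
    fin_cases k <;> simp <;> linarith [abs_nonneg (β 0), abs_nonneg (β 1), abs_nonneg (β 2)]
  have hN0 : 0 ≤ N := by rw [hN]; positivity
  refine ⟨β, hMβ, fun k => ?_, hsum.symm, fun k => ?_⟩
  swap
  · refine (hdiff k).trans ?_
    calc σ * (N + |β k|) ≤ σ * 3 := mul_le_mul_of_nonneg_left (by linarith [hk k]) hσ0
      _ = 3 * σ := by ring
  by_contra hneg
  push Not at hneg
  -- a negative coordinate leaves too little mass for the vector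
  have hek := e k
  have hcase : x k ≤ σ * N := by
    fin_cases k <;> simp only [Fin.zero_eta, Fin.mk_one, Fin.reduceFinMk] at hneg hek ⊢
    · have r1 := abs_le.1 (hb (β 1) _ a10 b10); have r2 := abs_le.1 (hb (β 2) _ a20 b20)
      have hd0 : β 0 * P 0 0 ≤ 0 := mul_nonpos_of_nonpos_of_nonneg hneg.le (h0 0 0)
      have := mul_nonneg hσ0 (abs_nonneg (β 0))
      rw [hek, hN]; linarith
    · have r1 := abs_le.1 (hb (β 0) _ a01 b01); have r2 := abs_le.1 (hb (β 2) _ a21 b21)
      have hd0 : β 1 * P 1 1 ≤ 0 := mul_nonpos_of_nonpos_of_nonneg hneg.le (h0 1 1)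
      have := mul_nonneg hσ0 (abs_nonneg (β 1))
      rw [hek, hN]; linarith
    · have r1 := abs_le.1 (hb (β 0) _ a02 b02); have r2 := abs_le.1 (hb (β 1) _ a12 b12)
      have hd0 : β 2 * P 2 2 ≤ 0 := mul_nonpos_of_nonpos_of_nonneg hneg.le (h0 2 2)
      have := mul_nonneg hσ0 (abs_nonneg (β 2))
      rw [hek, hN]; linarith
  have h6 : σ * N ≤ σ * (16 / 15) := mul_le_mul_of_nonneg_left hN2 hσ0
  linarith [hx k]

/-- Finite volume of sets inside a compact one. -/
theorem toReal_le_add {S T U B : Set E3} (hB : IsCompact B) (hT : T ⊆ B) (hU : U ⊆ B)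
    (h : S ⊆ T ∪ U) :
    (volume S).toReal ≤ (volume T).toReal + (volume U).toReal := by
  have hTf : volume T ≠ ⊤ := ne_top_of_le_ne_top hB.measure_lt_top.ne (measure_mono hT)
  have hUf : volume U ≠ ⊤ := ne_top_of_le_ne_top hB.measure_lt_top.ne (measure_mono hU)
  rw [← ENNReal.toReal_add hTf hUf]
  exact ENNReal.toReal_mono (ENNReal.add_ne_top.2 ⟨hTf, hUf⟩)
    ((measure_mono h).trans (measure_union_le _ _))

/-- The region beyond the face opposite to the origin. -/
def reg0 : Set E3 := {p | bary p 0 < 0 ∧ ∀ k, 0 < p k}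

/-- The volume gained over a face. -/
theorem gain0 {K : Set E3} (hK : IsCompact K) (hc : Convex ℝ K) (hsub : corner ⊆ K) {δ : ℝ}
    (hδ : δ ≤ band) (hlow : ∀ p ∈ K, ∀ i, -δ ≤ bary p i) (hup : ∀ p ∈ K, ∀ i, bary p i ≤ 1)
    {m : Fin 3 → ℝ} (hm : ∀ j, 0 ≤ m j) {w : Fin 3 → E3} (hw : ∀ j, w j ∈ K)
    (hw0 : ∀ j, bary (w j) 0 = -m j) (hwj : ∀ j, 1 - 1 / 200 ≤ w j j) :
    94 / 100 * ((m 0 + m 1 + m 2) / 6) ≤ (volume (K ∩ reg0)).toReal := by
  have hδ0 : 0 ≤ δ := by
    have h := hlow _ (hsub (vert_mem 0)) 1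
    rw [bary_vert, if_neg (by decide)] at h
    linarith
  have hδs : δ ≤ 1 / 10 ^ 11 := hδ
  set s := 4 * δ with hs
  set n : Fin 3 → ℝ := fun j => (1 - s) * m j with hn
  have hs1 : 0 ≤ 1 - s := by rw [hs]; norm_num at hδs ⊢; linarith
  have hn0 : ∀ j, 0 ≤ n j := fun j => mul_nonneg hs1 (hm j)
  set w' : Fin 3 → E3 := fun j => (1 - s) • w j + s • fun _ => (1 / 3 : ℝ) with hw'
  have hthird : (fun _ => (1 / 3 : ℝ) : E3) ∈ K := hsub (mem_corner.2 (by norm_num))
  have hw'K : ∀ j, w' j ∈ K := fun j => hc (hw j) hthird hs1 (by linarith) (by ring)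
  have hw'0 : ∀ j, w' j 0 + w' j 1 + w' j 2 = 1 + n j := fun j => by
    have h := hw0 j
    rw [bary_zero] at h
    simp only [hw', hn, Pi.add_apply, Pi.smul_apply, smul_eq_mul]
    linear_combination -(1 - s) * h
  have hw'k : ∀ j k, δ / 3 ≤ w' j k ∧ (k ≠ j → w' j k ≤ 1 / 150) := fun j k => by
    have hl : ∀ l, -δ ≤ w j l ∧ w j l ≤ 1 := fun l =>
      ⟨hlow _ (hw j) l.succ, hup _ (hw j) l.succ⟩
    have hsum : w j 0 + w j 1 + w j 2 = 1 + m j := by
      have h := hw0 j; rw [bary_zero] at h; linarith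
    have hmj : m j ≤ δ := by have := hlow _ (hw j) 0; rw [hw0] at this; linarith
    have hj := hwj j
    norm_num at hδs
    simp only [hw', Pi.add_apply, Pi.smul_apply, smul_eq_mul]
    constructor
    · have h1 := mul_le_mul_of_nonneg_left (hl k).1 hs1
      rw [hs] at h1 hs1 ⊢
      nlinarith
    · intro hkj
      have hwk : w j k ≤ 1 / 200 + 2 * δ := by
        have q0 := (hl 0).1; have q1 := (hl 1).1; have q2 := (hl 2).1
        fin_cases j <;> fin_cases k <;> simp at hkj hj hsum hmj q0 q1 q2 ⊢ <;> linarith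
      have h1 := mul_le_mul_of_nonneg_left hwk hs1
      rw [hs] at h1 ⊢
      nlinarith
  set P : Fin 3 → E3 := fun j => (1 + n j)⁻¹ • w' j with hP
  have hn1 : ∀ j, 0 < 1 + n j := fun j => by linarith [hn0 j]
  have hPs : ∀ l, P l 0 + P l 1 + P l 2 = 1 := fun l => by
    simp only [hP, Pi.smul_apply, smul_eq_mul]
    rw [← mul_add, ← mul_add, hw'0, inv_mul_cancel₀ (hn1 l).ne']
  have hP0 : ∀ l k, 0 ≤ P l k := fun l k =>
    mul_nonneg (inv_nonneg.2 (hn1 l).le) ((by linarith : (0:ℝ) ≤ δ / 3).trans (hw'k l k).1)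
  have hPσ : ∀ l k, k ≠ l → P l k ≤ 1 / 150 := fun l k h => by
    refine (mul_le_of_le_one_left ((by linarith : (0:ℝ) ≤ δ / 3).trans (hw'k l k).1) ?_).trans
      ((hw'k l k).2 h)
    exact inv_le_one_of_one_le₀ (by linarith [hn0 l])
  obtain ⟨hd1, hd2⟩ := det_colMat hPs hP0 hPσ (by norm_num)
  -- the big simplex in the coordinates of the columns
  set D : Matrix (Fin 3) (Fin 3) ℝ := Matrix.diagonal fun j => 1 + n j with hD
  set A := (fun p => (colMat P * D) *ᵥ p + 0) '' interior corner with hA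
  set B := (fun p => colMat P *ᵥ p + 0) '' corner with hB
  have hsubA : A ⊆ (K ∩ reg0) ∪ B := by
    rintro _ ⟨γ, hγ, rfl⟩
    obtain ⟨hγ0, hγ1⟩ := interior_corner_pos hγ
    set β := D *ᵥ γ with hβ
    have hβk : ∀ k, β k = (1 + n k) * γ k := fun k => by simp [hβ, hD, Matrix.mulVec_diagonal]
    have hx : (colMat P * D) *ᵥ γ + 0 = colMat P *ᵥ β := by
      rw [add_zero, hβ, Matrix.mulVec_mulVec]
    simp only []
    rw [hx]
    by_cases hb : β 0 + β 1 + β 2 ≤ 1
    · refine Or.inr ⟨β, mem_corner.2 ⟨?_, ?_, ?_, hb⟩, add_zero _⟩ <;>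
        (rw [hβk]; exact mul_nonneg (hn1 _).le (hγ0 _).le)
    refine Or.inl ⟨?_, ?_, fun k => ?_⟩
    · have e : colMat P *ᵥ β = γ 0 • w' 0 + γ 1 • w' 1 + γ 2 • w' 2 +
          (1 - (γ 0 + γ 1 + γ 2)) • (0 : E3) := by
        rw [colMat_mulVec, smul_zero, add_zero]
        have hco : ∀ l, (1 + n l) * γ l * (1 + n l)⁻¹ = γ l := fun l => by
          field_simp [(hn1 l).ne']
        simp only [hP, hβk, smul_smul, hco]
      rw [e]
      have hz : (0 : E3) ∈ K := hsub (mem_corner.2 (by norm_num))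
      have := hc.sum_mem (t := (Finset.univ : Finset (Fin 4)))
        (w := ![γ 0, γ 1, γ 2, 1 - (γ 0 + γ 1 + γ 2)]) (z := ![w' 0, w' 1, w' 2, 0])
        (fun i _ => by fin_cases i <;> simp <;> linarith [hγ0 0, hγ0 1, hγ0 2])
        (by simp [Fin.sum_univ_four]) (fun i _ => by fin_cases i <;> simp [hw'K, hz])
      simpa [Fin.sum_univ_four] using this
    · rw [bary_zero, sum_colMat_mulVec hPs]
      push Not at hb
      linarith
    · rw [colMat_mulVec]
      simp only [Pi.add_apply, Pi.smul_apply, smul_eq_mul]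
      have hb0 : ∀ l, 0 < β l := fun l => by rw [hβk]; exact mul_pos (hn1 l) (hγ0 l)
      have hdiag : 0 < P k k := by
        have s1 := hPs k
        fin_cases k <;> simp at s1 ⊢ <;>
          linarith [hPσ 0 1 (by decide), hPσ 0 2 (by decide), hPσ 1 0 (by decide),
            hPσ 1 2 (by decide), hPσ 2 0 (by decide), hPσ 2 1 (by decide)]
      have := mul_pos (hb0 k) hdiag
      have q : ∀ l, 0 ≤ β l * P l k := fun l => mul_nonneg (hb0 l).le (hP0 l k)
      have q0 := q 0; have q1 := q 1; have q2 := q 2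
      fin_cases k <;> simp at this q0 q1 q2 ⊢ <;> linarith
  have hBc : IsCompact B := isCompact_corner.image (by fun_prop)
  have hle := toReal_le_add (hK.union hBc) ((inter_subset_left).trans subset_union_left)
    subset_union_right hsubA
  rw [hA, hB, volume_affine, volume_affine, volume_interior_corner, volume_corner, Matrix.det_mul,
    hD, Matrix.det_diagonal, abs_mul] at hle
  have hpos : 0 < (colMat P).det := by linarith
  rw [abs_of_pos hpos, abs_of_pos (Finset.prod_pos fun j _ => hn1 j)] at hle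
  rw [Fin.prod_univ_three] at hle
  have hprod : 1 + (n 0 + n 1 + n 2) ≤ (1 + n 0) * (1 + n 1) * (1 + n 2) := by
    nlinarith [hn0 0, hn0 1, hn0 2, mul_nonneg (hn0 0) (hn0 1), mul_nonneg (hn0 0) (hn0 2),
      mul_nonneg (hn0 1) (hn0 2), mul_nonneg (mul_nonneg (hn0 0) (hn0 1)) (hn0 2)]
  have h1 : (colMat P).det * ((n 0 + n 1 + n 2) / 6) ≤ (volume (K ∩ reg0)).toReal := by
    have := mul_le_mul_of_nonneg_left hprod hpos.le
    linarith
  refine le_trans ?_ h1
  have hn' : 999 / 1000 * (m 0 + m 1 + m 2) ≤ n 0 + n 1 + n 2 := by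
    have : (999 / 1000 : ℝ) ≤ 1 - s := by rw [hs]; norm_num at hδs ⊢; linarith
    have := mul_le_mul_of_nonneg_right this (show 0 ≤ m 0 + m 1 + m 2 by
      linarith [hm 0, hm 1, hm 2])
    simp only [hn]
    linarith
  have := mul_le_mul (show (1 - 7 * (1 / 150 : ℝ)) ≤ (colMat P).det from hd1)
    (show 999 / 1000 * (m 0 + m 1 + m 2) / 6 ≤ (n 0 + n 1 + n 2) / 6 by linarith)
    (by linarith [hm 0, hm 1, hm 2]) hpos.le
  linarith [hm 0, hm 1, hm 2]

/-- The points whose weighted pairing with the body is nonnegative, in the corner. -/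
def wDual (K : Set E3) (w : Fin 4 → ℝ) : Set E3 :=
  {μ | μ ∈ corner ∧ ∀ p ∈ K, 0 ≤ ∑ i, w i * bary p i * bary μ i}

theorem convex_wDual (K : Set E3) (w : Fin 4 → ℝ) : Convex ℝ (wDual K w) := by
  intro μ hμ ν hν a b ha hb hab
  refine ⟨convex_corner hμ.1 hν.1 ha hb hab, fun p hp => ?_⟩
  have e : ∑ i, w i * bary p i * bary (a • μ + b • ν) i =
      a * (∑ i, w i * bary p i * bary μ i) + b * (∑ i, w i * bary p i * bary ν i) := by
    rw [Finset.mul_sum, Finset.mul_sum, ← Finset.sum_add_distrib]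
    exact Finset.sum_congr rfl fun i _ => by rw [bary_combo hab]; ring
  rw [e]
  exact add_nonneg (mul_nonneg ha (hμ.2 p hp)) (mul_nonneg hb (hν.2 p hp))

/-- Points deep in the corner belong to the weighted dual. -/
theorem deep_mem {K : Set E3} {w : Fin 4 → ℝ} (hwl : ∀ i, 99 / 100 ≤ w i)
    (hwu : ∀ i, w i ≤ 101 / 100) {δ : ℝ} (hδ : 0 ≤ δ) (hlow : ∀ p ∈ K, ∀ i, -δ ≤ bary p i)
    {μ : E3} (hμ : ∀ i, 2 * δ ≤ bary μ i) : μ ∈ wDual K w := by
  refine ⟨mem_corner_bary.2 fun i => le_trans (by linarith) (hμ i), fun p hp => ?_⟩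
  have e : ∑ i, w i * bary p i * bary μ i =
      ∑ i, w i * bary μ i * (bary p i + δ) - δ * ∑ i, w i * bary μ i := by
    rw [Finset.mul_sum, ← Finset.sum_sub_distrib]
    exact Finset.sum_congr rfl fun i _ => by ring
  have h1 : 99 / 100 * (2 * δ) * ∑ i, (bary p i + δ) ≤ ∑ i, w i * bary μ i * (bary p i + δ) := by
    rw [Finset.mul_sum]
    refine Finset.sum_le_sum fun i _ => ?_
    exact mul_le_mul_of_nonneg_right (mul_le_mul (hwl i) (hμ i) (by linarith) (by linarith [hwl i]))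
      (by linarith [hlow p hp i])
  have h2 : ∑ i, w i * bary μ i ≤ 101 / 100 := by
    calc ∑ i, w i * bary μ i ≤ ∑ i, 101 / 100 * bary μ i :=
          Finset.sum_le_sum fun i _ =>
            mul_le_mul_of_nonneg_right (hwu i) (le_trans (by linarith) (hμ i))
      _ = 101 / 100 := by rw [← Finset.mul_sum, sum_bary, mul_one]
  rw [Finset.sum_add_distrib, sum_bary, Finset.sum_const, Finset.card_univ, Fintype.card_fin,
    nsmul_eq_mul] at h1
  rw [e]
  push_cast at h1
  nlinarith [mul_le_mul_of_nonneg_left h2 hδ, mul_nonneg hδ hδ]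

/-- The columns of the three simplices over the subdivided face. -/
def pieceMat (t π : Fin 3 → ℝ) (h : Fin 3) : Matrix (Fin 3) (Fin 3) ℝ :=
  Matrix.of fun k l => if l = h then π k else if k = l then t k else 0

theorem pieceMat_mulVec (t π : Fin 3 → ℝ) (h : Fin 3) (γ : E3) (k : Fin 3) :
    (pieceMat t π h *ᵥ γ) k = π k * γ h + if k = h then 0 else t k * γ k := by
  fin_cases h <;> fin_cases k <;> simp [pieceMat, Matrix.mulVec, dotProduct, Fin.sum_univ_three] <;>
    ring

/-- The part of the corner left by the three pieces. -/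
theorem volume_uncovered {t π : Fin 3 → ℝ} (ht0 : ∀ j, 0 < t j) (ht1 : ∀ j, t j ≤ 1)
    (hπp : ∀ j, 0 < π j) (hπs : π 0 + π 1 + π 2 = 1) :
    (volume (corner \ ⋃ h, (fun p => pieceMat t π h *ᵥ p + 0) '' interior corner)).toReal =
      (1 - (π 0 * (t 1 * t 2) + π 1 * (t 0 * t 2) + π 2 * (t 0 * t 1))) / 6 := by
  set S := corner \ ⋃ h, (fun p => pieceMat t π h *ᵥ p + 0) '' interior corner with hS
  have hSc : S ⊆ corner := sdiff_subset
  -- volume of the three pieces
  set T : Fin 3 → Set E3 := fun h => (fun p => pieceMat t π h *ᵥ p + 0) '' interior corner with hT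
  have hmul : ∀ (h : Fin 3) (γ : E3), γ ∈ interior corner → ∀ k, k ≠ h →
      π k * (pieceMat t π h *ᵥ γ) h < π h * (pieceMat t π h *ᵥ γ) k := by
    intro h γ hγ k hk
    rw [pieceMat_mulVec, pieceMat_mulVec, if_pos rfl, if_neg hk]
    have := mul_pos (hπp h)
      (mul_pos (ht0 k) ((interior_corner_pos hγ).1 k))
    nlinarith
  have hdisj : Pairwise (Function.onFun (AEDisjoint volume) T) := by
    intro h h' hne
    refine Disjoint.aedisjoint (Set.disjoint_left.2 ?_)
    rintro _ ⟨γ, hγ, rfl⟩ ⟨γ', hγ', hee⟩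
    simp only [add_zero] at hee
    have h1 := hmul h γ hγ h' hne.symm
    have h2 := hmul h' γ' hγ' h hne
    rw [hee] at h2
    linarith
  have hTnull : ∀ h, NullMeasurableSet (T h) volume := fun h => by
    refine Convex.nullMeasurableSet volume ?_
    have : T h = Matrix.toLin' (pieceMat t π h) '' interior corner :=
      image_congr fun p _ => by rw [add_zero, Matrix.toLin'_apply]
    rw [this]
    exact convex_corner.interior.linear_image _
  have hTc : ∀ h, T h ⊆ corner := by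
    rintro h _ ⟨γ, hγ, rfl⟩
    obtain ⟨hγ0, hγ1⟩ := interior_corner_pos hγ
    show pieceMat t π h *ᵥ γ + 0 ∈ corner
    rw [add_zero]
    have hk : ∀ k, 0 ≤ (pieceMat t π h *ᵥ γ) k := fun k => by
      rw [pieceMat_mulVec]
      refine add_nonneg (mul_nonneg (hπp k).le (hγ0 h).le) ?_
      split_ifs
      exacts [le_rfl, mul_nonneg (ht0 k).le (hγ0 k).le]
    refine mem_corner.2 ⟨hk 0, hk 1, hk 2, ?_⟩
    simp only [pieceMat_mulVec]
    have q : ∀ k, t k * γ k ≤ γ k := fun k => mul_le_of_le_one_left (hγ0 k).le (ht1 k)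
    have qh := congrArg (fun r => r * γ h) hπs
    have q0 := q 0; have q1 := q 1; have q2 := q 2
    fin_cases h <;> simp at qh ⊢ <;> nlinarith
  have hU : (volume (⋃ h, T h)).toReal = ∑ h, |(pieceMat t π h).det| * (1 / 6) := by
    rw [measure_iUnion₀ hdisj hTnull, tsum_fintype, ENNReal.toReal_sum fun h _ =>
      ne_top_of_le_ne_top isCompact_corner.measure_lt_top.ne (measure_mono (hTc h))]
    exact Finset.sum_congr rfl fun h _ => by rw [hT, volume_affine, volume_interior_corner]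
  have hS' : (volume S).toReal + (volume (⋃ h, T h)).toReal = 1 / 6 := by
    rw [← volume_corner, ← ENNReal.toReal_add
      (ne_top_of_le_ne_top isCompact_corner.measure_lt_top.ne (measure_mono hSc))
      (ne_top_of_le_ne_top isCompact_corner.measure_lt_top.ne
        (measure_mono (iUnion_subset hTc))), hS,
      add_comm]
    congr 1
    have := measure_inter_add_sdiff₀ (μ := volume) corner (NullMeasurableSet.iUnion hTnull)
    rwa [inter_eq_right.2 (iUnion_subset hTc)] at this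
  rw [hU, Fin.sum_univ_three] at hS'
  have hdet : ∀ h, (pieceMat t π h).det = π h * ∏ k ∈ Finset.univ.erase h, t k := by
    intro h
    fin_cases h <;> simp [pieceMat, Matrix.det_fin_three, show
      (Finset.univ.erase (0 : Fin 3)) = {1, 2} from by decide, show
      (Finset.univ.erase (1 : Fin 3)) = {0, 2} from by decide, show
      (Finset.univ.erase (2 : Fin 3)) = {0, 1} from by decide] <;> ring
  have hdp : ∀ h, |(pieceMat t π h).det| = π h * ∏ k ∈ Finset.univ.erase h, t k := fun h => by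
    rw [hdet, abs_of_nonneg (mul_nonneg (hπp h).le (Finset.prod_nonneg fun k _ => (ht0 k).le))]
  rw [hdp, hdp, hdp, show (Finset.univ.erase (0 : Fin 3)) = {1, 2} from by decide,
    show (Finset.univ.erase (1 : Fin 3)) = {0, 2} from by decide,
    show (Finset.univ.erase (2 : Fin 3)) = {0, 1} from by decide] at hS'
  rw [Finset.prod_pair (show (1 : Fin 3) ≠ 2 by decide),
    Finset.prod_pair (show (0 : Fin 3) ≠ 2 by decide),
    Finset.prod_pair (show (0 : Fin 3) ≠ 1 by decide)] at hS'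
  linarith

/-- The volume the weighted dual loses near a face. -/
theorem loss0 {D : Set E3} (hD : Convex ℝ D) {δ : ℝ} (hδ0 : 0 ≤ δ) (hδ : δ ≤ band)
    (hdeep : ∀ μ, (∀ i, 2 * δ ≤ bary μ i) → μ ∈ D) {m : Fin 3 → ℝ} (hm : ∀ j, 0 ≤ m j)
    (hmδ : ∀ j, m j ≤ δ) {q : Fin 3 → E3} (hq : ∀ j, q j ∈ D) (hqc : ∀ j, q j ∈ corner)
    (hq0 : ∀ j, bary (q j) 0 ≤ 104 / 100 * m j) (hqσ : ∀ j k, k ≠ j → q j k ≤ 220 * δ)
    {c : E3} (hcD : c ∈ D) (hc0 : bary c 0 = 0) (hck : ∀ k, 32 / 100 ≤ c k) :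
    (volume (({x ∈ corner | bary x 0 < 1000 * δ ∧ ∀ k, 1000 * δ ≤ x k}) \ D)).toReal ≤
      72 / 100 * ((m 0 + m 1 + m 2) / 6) := by
  have hδs : δ ≤ 1 / 10 ^ 11 := hδ
  norm_num at hδs
  set t : Fin 3 → ℝ := fun j => q j 0 + q j 1 + q j 2 with ht
  have htb : ∀ j, bary (q j) 0 = 1 - t j := fun j => bary_zero _
  have ht0 : ∀ j, 99 / 100 ≤ t j := fun j => by
    have := hq0 j; rw [htb] at this; linarith [hmδ j]
  have ht1 : ∀ j, t j ≤ 1 := fun j => (mem_corner.1 (hqc j)).2.2.2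
  set P : Fin 3 → E3 := fun j => (t j)⁻¹ • q j with hP
  have hPs : ∀ l, P l 0 + P l 1 + P l 2 = 1 := fun l => by
    simp only [hP, Pi.smul_apply, smul_eq_mul]
    rw [← mul_add, ← mul_add]
    exact inv_mul_cancel₀ (by linarith [ht0 l] : t l ≠ 0)
  have hq0k : ∀ l k, 0 ≤ q l k := fun l k => mem_corner_bary.1 (hqc l) k.succ
  have hP0 : ∀ l k, 0 ≤ P l k := fun l k =>
    mul_nonneg (inv_nonneg.2 (by linarith [ht0 l])) (hq0k l k)
  have hPσ : ∀ l k, k ≠ l → P l k ≤ 230 * δ := fun l k h => by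
    show ((t l)⁻¹ • q l) k ≤ _
    rw [Pi.smul_apply, smul_eq_mul, inv_mul_le_iff₀ (by linarith [ht0 l])]
    nlinarith [hqσ l k h, ht0 l]
  obtain ⟨hd1, hd2⟩ := det_colMat hPs hP0 hPσ (by linarith)
  have hpos : 0 < (colMat P).det := by linarith
  have hcs : c 0 + c 1 + c 2 = 1 := by rw [bary_zero] at hc0; linarith
  obtain ⟨π, hπM, hπ0, hπs, hπd⟩ := colMat_preimage hPs hP0 hPσ (by linarith)
    (x := c) (fun k => by linarith [hck k]) hcs.le
  rw [hcs] at hπs
  have hπl : ∀ k, 31 / 100 ≤ π k := fun k => by linarith [(abs_le.1 (hπd k)).1, hck k]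
  set S := corner \ ⋃ h, (fun p => pieceMat t π h *ᵥ p + 0) '' interior corner with hS
  -- the lost points lie in the image of the uncovered part of the corner
  have hsub : ({x ∈ corner | bary x 0 < 1000 * δ ∧ ∀ k, 1000 * δ ≤ x k}) \ D ⊆
      (fun p => colMat P *ᵥ p + 0) '' S := by
    rintro x ⟨⟨hxc, hx0, hxk⟩, hxD⟩
    have hxs : x 0 + x 1 + x 2 ≤ 1 := (mem_corner.1 hxc).2.2.2
    rw [bary_zero] at hx0
    rcases hδ0.eq_or_lt with hδe | hδp
    · exact absurd hx0 (by rw [← hδe]; linarith)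
    obtain ⟨β, hβM, hβ0, hβs, -⟩ := colMat_preimage hPs hP0 hPσ (by linarith)
      (x := x) (fun k => by linarith [hxk k]) hxs
    refine ⟨β, ⟨mem_corner.2 ⟨hβ0 0, hβ0 1, hβ0 2, by linarith⟩, fun hβU => hxD ?_⟩,
      (add_zero (colMat P *ᵥ β)).trans hβM⟩
    obtain ⟨h, γ, hγ, hγβ⟩ := mem_iUnion.1 hβU
    replace hγβ : pieceMat t π h *ᵥ γ = β := (add_zero _).symm.trans hγβ
    obtain ⟨hγ0, hγ1⟩ := interior_corner_pos hγ
    set G := γ 0 + γ 1 + γ 2 with hG
    have hGp : 0 < G := by linarith [hγ0 0, hγ0 1, hγ0 2]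
    -- the point above `x` on the same ray
    have hy : G⁻¹ • x ∈ D := by
      have e : G⁻¹ • x = ∑ l, (G⁻¹ * γ l) • (if l = h then c else q l) := by
        have hx' : x = ∑ l, γ l • (if l = h then c else q l) := by
          rw [← hβM, ← hγβ, ← hπM, colMat_mulVec, colMat_mulVec]
          simp only [pieceMat_mulVec, hP, Fin.sum_univ_three]
          have := ht0 0; have := ht0 1; have := ht0 2
          funext k
          fin_cases h <;> simp <;> field_simp <;> ring
        conv_lhs => rw [hx', Finset.smul_sum]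
        exact Finset.sum_congr rfl fun l _ => by rw [smul_smul]
      rw [e]
      refine hD.sum_mem (fun l _ => mul_nonneg (inv_nonneg.2 hGp.le) (hγ0 l).le) ?_ fun l _ => ?_
      · rw [← Finset.mul_sum, Fin.sum_univ_three, ← hG, inv_mul_cancel₀ hGp.ne']
      · split_ifs
        exacts [hcD, hq l]
    -- a deep point below `x` on the same ray
    set u := x 0 + x 1 + x 2 with hu
    have hu0 : 1 - 1000 * δ < u := by linarith
    have hupos : 0 < u := by linarith
    set θ := (1 - 1000 * δ) / u with hθ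
    have hθ1 : θ ≤ 1 := (div_le_one hupos).2 hu0.le
    have hθu : θ * u = 1 - 1000 * δ := div_mul_cancel₀ _ hupos.ne'
    have hθ0 : 99 / 100 ≤ θ := by
      rw [hθ, le_div_iff₀ hupos]; nlinarith
    have hd : θ • x ∈ D := hdeep _ fun i => by
      refine Fin.cases ?_ (fun k => ?_) i
      · rw [bary_zero]
        simp only [Pi.smul_apply, smul_eq_mul]
        nlinarith
      · rw [bary_succ, Pi.smul_apply, smul_eq_mul]
        nlinarith [hxk k]
    have hG1 : 1 < G⁻¹ := (one_lt_inv₀ hGp).2 hγ1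
    set a := (G⁻¹ - 1) / (G⁻¹ - θ) with ha
    have hden : 0 < G⁻¹ - θ := by linarith
    have e : x = a • (θ • x) + (1 - a) • (G⁻¹ • x) := by
      rw [smul_smul, smul_smul, ← add_smul]
      have : a * (G⁻¹ - θ) = G⁻¹ - 1 := div_mul_cancel₀ _ hden.ne'
      rw [show a * θ + (1 - a) * G⁻¹ = 1 by linear_combination -this, one_smul]
    rw [e]
    exact hD hd hy (div_nonneg (by linarith) hden.le)
      (by rw [sub_nonneg, ha, div_le_one hden]; linarith) (by ring)
  have hSc : S ⊆ corner := sdiff_subset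
  have hSfin : volume ((fun p => colMat P *ᵥ p + 0) '' S) ≠ ⊤ :=
    ne_top_of_le_ne_top (isCompact_corner.image (by fun_prop)).measure_lt_top.ne
      (measure_mono (image_mono hSc))
  refine (ENNReal.toReal_mono hSfin (measure_mono hsub)).trans ?_
  rw [volume_affine, abs_of_pos hpos]
  refine (mul_le_of_le_one_left ENNReal.toReal_nonneg hd2).trans ?_
  rw [hS, volume_uncovered (fun j => by linarith [ht0 j]) ht1 (fun j => by linarith [hπl j]) hπs]
  have hu : ∀ j, 0 ≤ 1 - t j ∧ 1 - t j ≤ 104 / 100 * m j := fun j =>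
    ⟨by linarith [ht1 j], htb j ▸ hq0 j⟩
  have e2 : ∀ a b : Fin 3, 1 - t a * t b ≤ (1 - t a) + (1 - t b) := fun a b => by
    nlinarith [mul_nonneg (hu a).1 (hu b).1]
  have k0 := mul_le_mul_of_nonneg_left (e2 1 2) (hπ0 0)
  have k1 := mul_le_mul_of_nonneg_left (e2 0 2) (hπ0 1)
  have k2 := mul_le_mul_of_nonneg_left (e2 0 1) (hπ0 2)
  have hw : ∀ j, (1 - π j) * (1 - t j) ≤ 69 / 100 * (104 / 100 * m j) := fun j =>
    mul_le_mul (by linarith [hπl j]) (hu j).2 (hu j).1 (by norm_num)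
  have w0 := hw 0; have w1 := hw 1; have w2 := hw 2
  have := congrArg (fun r => r * (1 - t 0)) hπs
  have := congrArg (fun r => r * (1 - t 1)) hπs
  have := congrArg (fun r => r * (1 - t 2)) hπs
  have := hm 0; have := hm 1; have := hm 2
  linarith

end Vale.Agent.P248.Three
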