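import Vale.Agent.P248.Three.Endpoints

/-!
P248, dimension three: linear changes of variable, and transport of configurations and moves.
-/

noncomputable section

open MeasureTheory Set Matrix
open Vale.Agent.P248.Ellipsoids (polarSet)
open scoped ENNReal

namespace Vale.Agent.P248.Three

theorem dot_inv (A : Matrix (Fin 3) (Fin 3) ℝ) (hA : IsUnit A.det) (n p : E3) :
    (n ᵥ* A⁻¹) ⬝ᵥ (A *ᵥ p) = n ⬝ᵥ p := by
  rw [← Matrix.dotProduct_mulVec, Matrix.mulVec_mulVec, Matrix.nonsing_inv_mul A hA,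
    Matrix.one_mulVec]

/-- The product of a body and its polar does not see an invertible linear map. -/
theorem product_mulVec (A : Matrix (Fin 3) (Fin 3) ℝ) (hA : A.det ≠ 0) (B : Set E3) :
    volume ((fun p => A *ᵥ p) '' B) * volume (polarSet ((fun p => A *ᵥ p) '' B)) =
      volume B * volume (polarSet B) := by
  have hT : LinearMap.det (Matrix.toLin' Aᵀ) ≠ 0 := by
    rwa [LinearMap.det_toLin', Matrix.det_transpose]
  have e : polarSet ((fun p => A *ᵥ p) '' B) = Matrix.toLin' Aᵀ ⁻¹' polarSet B := by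
    ext y
    simp only [polarSet, mem_preimage, mem_ofPred_eq, forall_mem_image, Matrix.toLin'_apply]
    refine forall₂_congr fun z _ => ?_
    change y ⬝ᵥ (A *ᵥ z) ≤ 1 ↔ (Aᵀ *ᵥ y) ⬝ᵥ z ≤ 1
    rw [Matrix.dotProduct_mulVec, Matrix.mulVec_transpose]
  have e2 : (fun p => A *ᵥ p) '' B = Matrix.toLin' A '' B :=
    image_congr fun p _ => (Matrix.toLin'_apply A p).symm
  rw [e, e2, Measure.addHaar_preimage_linearMap _ hT, Measure.addHaar_image_linearMap,
    LinearMap.det_toLin', LinearMap.det_toLin', Matrix.det_transpose, mul_mul_mul_comm,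
    ← ENNReal.ofReal_mul (abs_nonneg _), abs_inv, mul_inv_cancel₀ (abs_ne_zero.2 hA),
    ENNReal.ofReal_one, one_mul]

theorem volume_sub (K : Set E3) (z : E3) : volume ((fun p => p - z) '' K) = volume K := by
  rw [show (fun p => p - z) '' K = (fun p => p + z) ⁻¹' K by
    ext p
    exact ⟨by rintro ⟨q, hq, rfl⟩; simpa using hq, fun h => ⟨p + z, h, by simp⟩⟩]
  exact measure_preimage_add_right volume z K

theorem product_mulVec_sub (A : Matrix (Fin 3) (Fin 3) ℝ) (hA : A.det ≠ 0) (K : Set E3) (z : E3) :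
    (volume ((fun p => A *ᵥ p) '' K)).toReal * polVol ((fun p => A *ᵥ p) '' K) (A *ᵥ z) =
      (volume K).toReal * polVol K z := by
  rw [polVol, polVol, ← ENNReal.toReal_mul, ← ENNReal.toReal_mul]
  congr 1
  rw [← volume_sub ((fun p => A *ᵥ p) '' K) (A *ᵥ z), ← volume_sub K z]
  convert product_mulVec A hA ((fun p => p - z) '' K) using 3 <;>
    simp [image_image, Matrix.mulVec_sub]

/-- A linear change of variables that carries a direction to the first basis vector. -/
theorem exists_frame_e0 {u : E3} (hu : u ≠ 0) :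
    ∃ A : Matrix (Fin 3) (Fin 3) ℝ, A.det ≠ 0 ∧ A *ᵥ u = e0 := by
  obtain ⟨k, hk⟩ := Function.ne_iff.1 hu
  -- first exchange the coordinates so that the leading one is not zero
  set σ : Equiv.Perm (Fin 3) := Equiv.swap 0 k with hσ
  set B' : Matrix (Fin 3) (Fin 3) ℝ :=
    (1 : Matrix (Fin 3) (Fin 3) ℝ).updateCol 0 (fun i => u (σ i)) with hB'
  have hdet : B'.det = u k := by
    simp [hB', Matrix.det_fin_three, Matrix.updateCol_apply, hσ]
  set P : Matrix (Fin 3) (Fin 3) ℝ := B'.submatrix σ id with hP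
  have hPd : P.det ≠ 0 := by
    rw [hP, Matrix.det_permute, hdet]
    exact mul_ne_zero (Int.cast_ne_zero.2 (Units.ne_zero _)) hk
  have hPe : P *ᵥ e0 = u := by
    funext i
    simp [hP, hB', e0, Matrix.mulVec, dotProduct, Pi.single_apply, Matrix.updateCol_apply]
    simp [hσ]
  refine ⟨P⁻¹, by simpa [Matrix.det_nonsing_inv] using hPd, ?_⟩
  rw [← hPe, Matrix.mulVec_mulVec, Matrix.nonsing_inv_mul P (isUnit_iff_ne_zero.2 hPd),
    Matrix.one_mulVec]

namespace Cfg

variable {v f : ℕ} {C : Cfg v f}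

/-- The image of a configuration under a linear map. -/
def map (C : Cfg v f) (A : Matrix (Fin 3) (Fin 3) ℝ) : Cfg v f where
  x i := A *ᵥ C.x i
  nrm j := C.nrm j ᵥ* A⁻¹
  off := C.off

theorem map_slack (A : Matrix (Fin 3) (Fin 3) ℝ) (hA : IsUnit A.det) (i : Fin v) (j : Fin f) :
    (C.map A).slack i j = C.slack i j := by
  simp only [slack, map, dot_inv A hA]

theorem map_body (A : Matrix (Fin 3) (Fin 3) ℝ) (hA : IsUnit A.det) :
    (C.map A).body = (fun p => A *ᵥ p) '' C.body := by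
  ext p
  constructor
  · intro h
    have hp : A *ᵥ (A⁻¹ *ᵥ p) = p := by
      rw [Matrix.mulVec_mulVec, Matrix.mul_nonsing_inv A hA, Matrix.one_mulVec]
    refine ⟨A⁻¹ *ᵥ p, fun j => ?_, hp⟩
    rw [← dot_inv A hA, hp]
    exact h j
  · rintro ⟨q, hq, rfl⟩ j
    show (C.nrm j ᵥ* A⁻¹) ⬝ᵥ (A *ᵥ q) ≤ C.off j
    rw [dot_inv A hA]
    exact hq j

theorem IsCfg.map (h : C.IsCfg) (A : Matrix (Fin 3) (Fin 3) ℝ) (hA : IsUnit A.det) :
    (C.map A).IsCfg := by
  have hlin : (fun p => A *ᵥ p) = ⇑(Matrix.toLin' A) := funext fun p => (Matrix.toLin'_apply A p).symm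
  refine ⟨?_, ?_⟩
  · rw [map_body A hA, ← h.hull, hlin, LinearMap.image_convexHull, ← range_comp, ← hlin]
    rfl
  · obtain ⟨q, hq⟩ := h.solid
    rw [map_body A hA]
    have hinv : (fun p => A *ᵥ p) '' C.body = (fun p => A⁻¹ *ᵥ p) ⁻¹' C.body := by
      ext p
      constructor
      · rintro ⟨r, hr, rfl⟩
        simpa [Matrix.mulVec_mulVec, Matrix.nonsing_inv_mul A hA] using hr
      · intro hp
        exact ⟨_, hp, by
          simp [Matrix.mulVec_mulVec, Matrix.mul_nonsing_inv A hA]⟩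
    rw [hinv]
    refine ⟨A *ᵥ q, preimage_interior_subset_interior_preimage
      (Matrix.toLin' A⁻¹).continuous_of_finiteDimensional ?_ ⟩
    simpa [Matrix.mulVec_mulVec, Matrix.nonsing_inv_mul A hA] using hq

theorem Reduced.map (h : C.Reduced) (A : Matrix (Fin 3) (Fin 3) ℝ) (hA : IsUnit A.det) :
    (C.map A).Reduced := by
  refine ⟨h.toIsCfg.map A hA, fun i hi => ?_, fun j => ?_⟩
  · have hlin : (fun p => A *ᵥ p) = ⇑(Matrix.toLin' A) :=
      funext fun p => (Matrix.toLin'_apply A p).symm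
    have : (C.map A).x '' {k | k ≠ i} = Matrix.toLin' A '' (C.x '' {k | k ≠ i}) := by
      rw [image_image]; exact image_congr fun k _ => (Matrix.toLin'_apply A (C.x k)).symm
    rw [this, ← LinearMap.image_convexHull] at hi
    obtain ⟨y, hy, hye⟩ := hi
    rw [Matrix.toLin'_apply] at hye
    exact h.extreme i ((Matrix.mulVec_injective_of_isUnit ((A.isUnit_iff_isUnit_det).2 hA) hye) ▸ hy)
  · obtain ⟨p, hp, hpk⟩ := h.needed j
    refine ⟨A *ᵥ p, ?_, fun k hk => ?_⟩
    · simpa only [Cfg.map, dot_inv A hA] using hp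
    · simpa only [Cfg.map, dot_inv A hA] using hpk k hk

theorem map_nonInc (A : Matrix (Fin 3) (Fin 3) ℝ) (hA : IsUnit A.det) :
    (C.map A).nonInc = C.nonInc := by
  unfold nonInc
  simp only [map_slack A hA]

/-- The image of a move. -/
def Move.map (M : C.Move) (A : Matrix (Fin 3) (Fin 3) ℝ) (hA : IsUnit A.det) : (C.map A).Move where
  u := A *ᵥ M.u
  c := M.c
  a j := M.a j ᵥ* A⁻¹
  α := M.α
  perp j := by rw [dot_inv A hA, M.perp j]
  agree i j hs hu := by
    rw [map_slack A hA] at hs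
    simp only [Cfg.map, dot_inv A hA] at hu ⊢
    exact M.agree i j hs hu

theorem Move.map_nonTriv (M : C.Move) (hM : M.NonTriv) (A : Matrix (Fin 3) (Fin 3) ℝ)
    (hA : IsUnit A.det) : (M.map A hA).NonTriv := by
  refine ⟨fun e => hM.1 ?_, ?_⟩
  · exact Matrix.mulVec_injective_of_isUnit ((A.isUnit_iff_isUnit_det).2 hA)
      (show A *ᵥ M.u = A *ᵥ 0 by rw [Matrix.mulVec_zero]; exact e)
  · rintro ⟨a, β, h⟩
    refine hM.2 ⟨a ᵥ* A, β, fun i => ?_⟩
    have := h i
    simp only [Move.map, Cfg.map] at this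
    rw [← Matrix.dotProduct_mulVec]
    exact this

end Cfg

end Vale.Agent.P248.Three
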