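import Vale.Agent.P248.Three.Linear
import Vale.Agent.P254.Simplex

/-!
P248, dimension three: at most four points, that is the tetrahedron, about every interior point.
-/

noncomputable section

open MeasureTheory Set Matrix
open Vale.Agent.P248.Ellipsoids (polarSet)
open Vale.Agent.P254 (solidSimplex solidSimplex_closed)

namespace Vale.Agent.P248.Three

/-- The corner of the cube. -/
def corner : Set E3 := solidSimplex 3 1

theorem mem_corner {p : E3} : p ∈ corner ↔ 0 ≤ p 0 ∧ 0 ≤ p 1 ∧ 0 ≤ p 2 ∧ p 0 + p 1 + p 2 ≤ 1 := by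
  simp [corner, solidSimplex, Fin.forall_fin_succ, Fin.sum_univ_three, and_assoc]

theorem volume_corner : (volume corner).toReal = 1 / 6 := by
  have h := Vale.Agent.P254.moment_simplex 3 0 1 zero_le_one
  simp only [Pi.zero_apply, pow_zero, Finset.prod_const_one, setIntegral_const, smul_eq_mul,
    mul_one, Finset.sum_const_zero, add_zero, Nat.factorial_zero, Nat.cast_one, one_pow,
    one_mul] at h
  rw [corner, ← Measure.real, h]
  norm_num [Nat.factorial]

theorem polar_corner {a : E3} (h0 : ∀ k, 0 < a k) (h1 : a 0 + a 1 + a 2 < 1) :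
    (volume (polarSet ((fun p => p - a) '' corner))).toReal =
      1 / (6 * ((1 - (a 0 + a 1 + a 2)) * a 0 * a 1 * a 2)) := by
  set b := 1 - (a 0 + a 1 + a 2) with hb
  have hb0 : 0 < b := by rw [hb]; linarith
  set N : Matrix (Fin 3) (Fin 3) ℝ :=
    Matrix.of fun k l => -(1 / b) - if k = l then 1 / a k else 0 with hN
  set y0 : E3 := fun _ => 1 / b with hy0
  have hmul : ∀ s : E3, ∀ k, (N *ᵥ s + y0) k = (1 - (s 0 + s 1 + s 2)) / b - s k / a k := by
    intro s k
    fin_cases k <;>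
      · simp [hN, hy0, Matrix.mulVec, dotProduct, Fin.sum_univ_three]
        ring
  have hset : polarSet ((fun p => p - a) '' corner) = (fun s => s + y0) '' ((fun s => N *ᵥ s) '' corner) := by
    ext y
    constructor
    · intro hy
      have hw : ∀ p ∈ corner, y ⬝ᵥ p ≤ 1 + y ⬝ᵥ a := fun p hp => by
        have : y ⬝ᵥ (p - a) ≤ 1 := hy _ ⟨p, hp, rfl⟩
        rw [dotProduct_sub] at this
        linarith
      set c := 1 + y ⬝ᵥ a with hc
      have e : y ⬝ᵥ a = y 0 * a 0 + y 1 * a 1 + y 2 * a 2 := by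
        simp [dotProduct, Fin.sum_univ_three]
      have w0 : 0 ≤ c := by simpa using hw 0 (by simp [mem_corner])
      have wk : ∀ k, 0 ≤ c - y k := fun k => by
        have hk : (Pi.single k 1 : E3) ∈ corner := by
          rw [mem_corner]
          fin_cases k <;> simp [Pi.single_apply]
        simpa using hw _ hk
      refine ⟨_, ⟨fun k => a k * (c - y k), ?_, rfl⟩, ?_⟩
      · refine mem_corner.2 ⟨mul_nonneg (h0 0).le (wk 0), mul_nonneg (h0 1).le (wk 1),
          mul_nonneg (h0 2).le (wk 2), ?_⟩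
        nlinarith [mul_nonneg hb0.le w0]
      · funext k
        show (N *ᵥ _ + y0) k = y k
        have hs : 1 - (a 0 * (c - y 0) + a 1 * (c - y 1) + a 2 * (c - y 2)) = b * c := by
          rw [hb]; linear_combination -e - hc
        rw [hmul, hs, mul_div_cancel_left₀ _ hb0.ne', mul_div_cancel_left₀ _ (h0 k).ne']
        ring
    · rintro ⟨_, ⟨s, hs, rfl⟩, rfl⟩ _ ⟨p, hp, rfl⟩
      obtain ⟨s0, s1, s2, st⟩ := mem_corner.1 hs
      obtain ⟨p0, p1, p2, pt⟩ := mem_corner.1 hp
      show (N *ᵥ s + y0) ⬝ᵥ (p - a) ≤ 1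
      simp only [dotProduct, Fin.sum_univ_three, hmul, Pi.sub_apply]
      have ha0 := h0 0; have ha1 := h0 1; have ha2 := h0 2
      have h3 : 0 ≤ (1 - (s 0 + s 1 + s 2)) / b * (1 - (p 0 + p 1 + p 2)) :=
        mul_nonneg (div_nonneg (by linarith) hb0.le) (by linarith)
      have q0 : 0 ≤ s 0 / a 0 * p 0 := mul_nonneg (div_nonneg s0 ha0.le) p0
      have q1 : 0 ≤ s 1 / a 1 * p 1 := mul_nonneg (div_nonneg s1 ha1.le) p1
      have q2 : 0 ≤ s 2 / a 2 * p 2 := mul_nonneg (div_nonneg s2 ha2.le) p2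
      have eb : (1 - (s 0 + s 1 + s 2)) / b * b = 1 - (s 0 + s 1 + s 2) :=
        div_mul_cancel₀ _ hb0.ne'
      have ea0 := div_mul_cancel₀ (s 0) ha0.ne'
      have ea1 := div_mul_cancel₀ (s 1) ha1.ne'
      have ea2 := div_mul_cancel₀ (s 2) ha2.ne'
      generalize (1 - (s 0 + s 1 + s 2)) / b = w at h3 eb ⊢
      generalize s 0 / a 0 = w0 at q0 ea0 ⊢
      generalize s 1 / a 1 = w1 at q1 ea1 ⊢
      generalize s 2 / a 2 = w2 at q2 ea2 ⊢
      rw [hb] at eb
      linarith
  have hdet : N.det = -(1 / (b * a 0 * a 1 * a 2)) := by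
    have ha0 := (h0 0).ne'; have ha1 := (h0 1).ne'; have ha2 := (h0 2).ne'
    have hb' := hb0.ne'
    simp [hN, Matrix.det_fin_three]
    field_simp
    rw [hb]
    ring
  have hmv : (fun s : E3 => N *ᵥ s) = ⇑(Matrix.toLin' N) :=
    funext fun p => (Matrix.toLin'_apply N p).symm
  have htr : (fun s : E3 => s + y0) '' ((fun s => N *ᵥ s) '' corner) =
      (fun s => s - (-y0)) '' ((fun s => N *ᵥ s) '' corner) := by simp
  rw [hset, htr, volume_sub, hmv, Measure.addHaar_image_linearMap, LinearMap.det_toLin', hdet,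
    ENNReal.toReal_mul, ENNReal.toReal_ofReal (abs_nonneg _), volume_corner, abs_neg]
  have hpos : 0 < b * a 0 * a 1 * a 2 := by
    have := h0 0; have := h0 1; have := h0 2
    positivity
  rw [abs_of_pos (by positivity)]
  field_simp

theorem four_prod_le {a b c d : ℝ} (ha : 0 ≤ a) (hb : 0 ≤ b) (hc : 0 ≤ c) (hd : 0 ≤ d)
    (h : a + b + c + d = 1) : a * b * c * d ≤ 1 / 256 := by
  have h1 : a * b ≤ ((a + b) / 2) ^ 2 := by nlinarith [sq_nonneg (a - b)]
  have h2 : c * d ≤ ((c + d) / 2) ^ 2 := by nlinarith [sq_nonneg (c - d)]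
  have h3 : (a + b) * (c + d) ≤ 1 / 4 := by nlinarith [sq_nonneg (a + b - (c + d))]
  calc a * b * c * d = a * b * (c * d) := by ring
    _ ≤ ((a + b) / 2) ^ 2 * ((c + d) / 2) ^ 2 := mul_le_mul h1 h2 (mul_nonneg hc hd) (sq_nonneg _)
    _ = ((a + b) * (c + d)) ^ 2 / 16 := by ring
    _ ≤ (1 / 4) ^ 2 / 16 := by
        have := pow_le_pow_left₀ (mul_nonneg (add_nonneg ha hb) (add_nonneg hc hd)) h3 2
        linarith
    _ = 1 / 256 := by norm_num

theorem corner_bound {a : E3} (ha : a ∈ interior corner) :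
    64 / 9 ≤ (volume corner).toReal * polVol corner a := by
  obtain ⟨ε, hε, hball⟩ := Metric.mem_nhds_iff.1 (mem_interior_iff_mem_nhds.1 ha)
  have hstep : ∀ d : E3, ‖d‖ < ε → a + d ∈ corner := fun d hd =>
    hball (by simpa [dist_eq_norm] using hd)
  have h0 : ∀ k, 0 < a k := fun k => by
    have h := (hstep (Pi.single k (-(ε / 2))) (by
      rw [Pi.norm_single, Real.norm_eq_abs, abs_neg, abs_of_pos (half_pos hε)]; linarith)).1 k
    simp at h
    linarith
  have h1 : a 0 + a 1 + a 2 < 1 := by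
    have h := (mem_corner.1 (hstep (Pi.single 0 (ε / 2)) (by
      rw [Pi.norm_single, Real.norm_eq_abs, abs_of_pos (half_pos hε)]; linarith))).2.2.2
    simp at h
    linarith
  rw [polVol, volume_corner, polar_corner h0 h1]
  have hp := four_prod_le (a := 1 - (a 0 + a 1 + a 2)) (by linarith) (h0 0).le (h0 1).le (h0 2).le
    (by ring)
  have hpos : 0 < (1 - (a 0 + a 1 + a 2)) * a 0 * a 1 * a 2 := by
    have := h0 0; have := h0 1; have := h0 2
    have : 0 < 1 - (a 0 + a 1 + a 2) := by linarith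
    positivity
  rw [one_div_mul_one_div, div_le_div_iff₀ (by norm_num) (by positivity)]
  linarith

namespace Cfg

variable {v f : ℕ} {C : Cfg v f}

theorem IsCfg.no_plane (h : C.IsCfg) {w : E3} (hw : w ≠ 0) {r : ℝ} : ¬∀ i, w ⬝ᵥ C.x i = r := by
  intro hc
  obtain ⟨q, hq⟩ := h.solid
  have hall : ∀ p ∈ C.body, w ⬝ᵥ p = r := fun p hp => by
    obtain ⟨l, -, l1, rfl⟩ := h.exists_comb hp
    rw [dot_comb]
    simp [hc, ← Finset.sum_mul, l1]
  have ht : Filter.Tendsto (fun t : ℝ => q + t • w) (nhds 0) (nhds q) := by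
    simpa using (by fun_prop : Continuous fun t : ℝ => q + t • w).tendsto 0
  obtain ⟨t, ht1, ht0⟩ := (((ht.eventually (mem_interior_iff_mem_nhds.1 hq)).filter_mono
    nhdsWithin_le_nhds).and (self_mem_nhdsWithin (s := Set.Ioi (0:ℝ)))).exists
  have h1 := hall _ ht1
  rw [dotProduct_add, dotProduct_smul, hall q (interior_subset hq), smul_eq_mul, add_eq_left,
    mul_eq_zero, dotProduct_self_eq_zero] at h1
  exact h1.elim ht0.ne' hw

theorem IsCfg.four_le (h : C.IsCfg) : 4 ≤ v := by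
  by_contra hv
  push Not at hv
  rcases Nat.eq_zero_or_pos v with rfl | h0
  · obtain ⟨q, hq⟩ := h.solid
    obtain ⟨l, -, l1, -⟩ := h.exists_comb (interior_subset hq)
    simp at l1
  set i0 : Fin v := ⟨0, h0⟩
  set g : Fin 3 → Fin v := fun k => if hk : k.val + 1 < v then ⟨k.val + 1, hk⟩ else i0 with hg
  set M : Matrix (Fin 3) (Fin 3) ℝ := Matrix.of fun k => C.x (g k) - C.x i0 with hM
  have hdet : M.det = 0 := Matrix.det_eq_zero_of_row_eq_zero (2 : Fin 3) fun l => by
    simp [hM, hg, show ¬(2 + 1 < v) by omega]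
  obtain ⟨w, hw, hMw⟩ := Matrix.exists_mulVec_eq_zero_iff.2 hdet
  refine h.no_plane hw (r := w ⬝ᵥ C.x i0) fun i => ?_
  rcases eq_or_ne i i0 with rfl | hi
  · rfl
  have hi0 : i.val ≠ 0 := fun e => hi (Fin.ext e)
  have := congrFun hMw ⟨i.val - 1, by omega⟩
  simp only [Matrix.mulVec, hM, Matrix.of_apply, Pi.zero_apply] at this
  have hgi : g ⟨i.val - 1, by omega⟩ = i := by
    simp only [hg]
    rw [dif_pos (show i.val - 1 + 1 < v by omega)]
    exact Fin.ext (show i.val - 1 + 1 = i.val by omega)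
  rw [hgi, sub_dotProduct, sub_eq_zero] at this
  rw [dotProduct_comm, this, dotProduct_comm]

theorem IsCfg.tetra_bound {C : Cfg 4 f} (h : C.IsCfg) : Bound C.body := by
  set M : Matrix (Fin 3) (Fin 3) ℝ := Matrix.of fun k => C.x k.succ - C.x 0 with hM
  have hdet : M.det ≠ 0 := fun e => by
    obtain ⟨w, hw, hMw⟩ := Matrix.exists_mulVec_eq_zero_iff.2 e
    refine h.no_plane hw (r := w ⬝ᵥ C.x 0) fun i => ?_
    refine Fin.cases rfl (fun k => ?_) i
    have := congrFun hMw k
    simp only [Matrix.mulVec, hM, Matrix.of_apply, Pi.zero_apply, sub_dotProduct, sub_eq_zero]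
      at this
    rw [dotProduct_comm, this, dotProduct_comm]
  have hA : Mᵀ.det ≠ 0 := by rwa [Matrix.det_transpose]
  have hap : ∀ p, Mᵀ *ᵥ p + C.x 0 = (1 - (p 0 + p 1 + p 2)) • C.x 0 + p 0 • C.x 1 + p 1 • C.x 2
      + p 2 • C.x 3 := fun p => by
    rw [Matrix.mulVec_transpose]
    funext k
    simp [hM, Matrix.vecMul, dotProduct, Fin.sum_univ_three]
    ring
  have hbody : C.body = (fun p => p - (-C.x 0)) '' ((fun p => Mᵀ *ᵥ p) '' corner) := by
    rw [image_image]
    simp only [sub_neg_eq_add, hap]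
    ext y
    rw [← h.hull, hull_range]
    constructor
    · rintro ⟨l, l0, l1, rfl⟩
      rw [Fin.sum_univ_four] at l1
      refine ⟨fun k => l k.succ, mem_corner.2 ⟨l0 _, l0 _, l0 _, ?_⟩, ?_⟩
      · show l 1 + l 2 + l 3 ≤ 1
        linarith [l0 0]
      · show (1 - (l 1 + l 2 + l 3)) • C.x 0 + l 1 • C.x 1 + l 2 • C.x 2 + l 3 • C.x 3 = _
        rw [Fin.sum_univ_four, show 1 - (l 1 + l 2 + l 3) = l 0 by linarith]
    · rintro ⟨p, hp, rfl⟩
      obtain ⟨p0, p1, p2, pt⟩ := mem_corner.1 hp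
      refine ⟨![1 - (p 0 + p 1 + p 2), p 0, p 1, p 2], ?_, ?_, ?_⟩
      · simp [Fin.forall_fin_succ, p0, p1, p2]; linarith
      · simp [Fin.sum_univ_four]; ring
      · simp [Fin.sum_univ_four]
  intro z hz
  set K' := (fun p => Mᵀ *ᵥ p) '' corner with hK'
  set a := (Mᵀ)⁻¹ *ᵥ (z - C.x 0) with ha
  have haz : Mᵀ *ᵥ a = z - C.x 0 := by
    rw [ha, Matrix.mulVec_mulVec, Matrix.mul_nonsing_inv _ (isUnit_iff_ne_zero.2 hA),
      Matrix.one_mulVec]
  have hinj := Matrix.mulVec_injective_of_isUnit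
    ((Mᵀ).isUnit_iff_isUnit_det.2 (isUnit_iff_ne_zero.2 hA))
  have hain : a ∈ interior corner := by
    rw [hbody] at hz
    have hpre : (fun p : E3 => Mᵀ *ᵥ p + C.x 0) ⁻¹'
        ((fun p => p - (-C.x 0)) '' K') = corner := by
      ext p
      simp only [mem_preimage, hK', image_image, sub_neg_eq_add]
      exact ⟨fun ⟨q, hq, e⟩ => hinj (add_right_cancel e) ▸ hq, fun hp => ⟨p, hp, rfl⟩⟩
    rw [← hpre]
    refine preimage_interior_subset_interior_preimage
      ((Matrix.toLin' Mᵀ).continuous_of_finiteDimensional.add continuous_const) ?_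
    show Mᵀ *ᵥ a + C.x 0 ∈ interior ((fun p : E3 => p - (-C.x 0)) '' K')
    rwa [haz, sub_add_cancel]
  have e : (fun x : E3 => x - z) '' C.body = (fun x => x - (z - C.x 0)) '' K' := by
    rw [hbody, image_image]
    exact image_congr fun p _ => by abel
  calc (64 : ℝ) / 9 ≤ (volume corner).toReal * polVol corner a := corner_bound hain
    _ = (volume K').toReal * polVol K' (Mᵀ *ᵥ a) := (product_mulVec_sub _ hA _ _).symm
    _ = (volume C.body).toReal * polVol C.body z := by
      rw [polVol, polVol, e, haz, hbody, volume_sub]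

end Cfg

end Vale.Agent.P248.Three
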