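import Vale.Agent.P248.Three.Reduce
import Vale.Agent.P248.Three.Tetra

/-!
P248, dimension three: the induction over configurations and the passage to all convex bodies.
-/

noncomputable section

open MeasureTheory Set Matrix Filter Topology
open Vale.Agent.P248.Ellipsoids (polarSet)
open scoped ENNReal Pointwise

namespace Vale.Agent.P248.Three

theorem abs_dot_le (y p : E3) : y ⬝ᵥ p ≤ 3 * (‖y‖ * ‖p‖) := by
  have h : ∀ k : Fin 3, y k * p k ≤ ‖y‖ * ‖p‖ := fun k => by
    calc y k * p k ≤ |y k * p k| := le_abs_self _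
      _ = ‖y k‖ * ‖p k‖ := by rw [abs_mul, Real.norm_eq_abs, Real.norm_eq_abs]
      _ ≤ ‖y‖ * ‖p‖ := mul_le_mul (norm_le_pi_norm y k) (norm_le_pi_norm p k) (norm_nonneg _)
          (norm_nonneg _)
  simp only [dotProduct, Fin.sum_univ_three]
  linarith [h 0, h 1, h 2]

theorem polar_bounded {K : Set E3} {z : E3} (hz : z ∈ interior K) :
    Bornology.IsBounded (polarSet ((fun x => x - z) '' K)) := by
  obtain ⟨δ, hδ, hball⟩ := Metric.mem_nhds_iff.1 (mem_interior_iff_mem_nhds.1 hz)
  refine (Metric.isBounded_iff_subset_closedBall 0).2 ⟨2 / δ, fun y hy => ?_⟩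
  rw [mem_closedBall_zero_iff, pi_norm_le_iff_of_nonneg (by positivity)]
  intro k
  have key : ∀ r : ℝ, |r| < δ → r * y k ≤ 1 := fun r hr => by
    have hm : z + Pi.single k r ∈ K := hball (by
      rw [Metric.mem_ball, dist_eq_norm, add_sub_cancel_left, Pi.norm_single]; exact hr)
    have h : y ⬝ᵥ (z + Pi.single k r - z) ≤ 1 := hy _ ⟨_, hm, rfl⟩
    rwa [add_sub_cancel_left, dotProduct_single, mul_comm] at h
  have h1 := key (δ / 2) (by rw [abs_of_pos (half_pos hδ)]; linarith)
  have h2 := key (-(δ / 2)) (by rw [abs_neg, abs_of_pos (half_pos hδ)]; linarith)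
  rw [Real.norm_eq_abs, abs_le, le_div_iff₀ hδ, ← neg_div, div_le_iff₀ hδ]
  constructor <;> nlinarith

theorem polVol_pos {K : Set E3} (hK : IsCompact K) {z : E3} (hz : z ∈ interior K) :
    0 < polVol K z := by
  obtain ⟨R, hR⟩ := (Metric.isBounded_iff_subset_closedBall z).1 hK.isBounded
  set r : ℝ := 1 / (3 * (|R| + 1)) with hr
  have hsub : Metric.ball (0 : E3) r ⊆ polarSet ((fun x => x - z) '' K) := by
    rintro y hy _ ⟨p, hp, rfl⟩
    show y ⬝ᵥ (p - z) ≤ 1
    rw [mem_ball_zero_iff, hr, lt_div_iff₀ (by positivity)] at hy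
    have h1 : ‖p - z‖ ≤ |R| + 1 := by
      linarith [mem_closedBall_iff_norm.1 (hR hp), le_abs_self R]
    have h2 := mul_le_mul_of_nonneg_left h1 (norm_nonneg y)
    linarith [abs_dot_le y (p - z)]
  refine ENNReal.toReal_pos (ne_of_gt ?_) (polar_bounded hz).measure_lt_top.ne
  exact lt_of_lt_of_le (Metric.measure_ball_pos _ _ (by positivity)) (measure_mono hsub)

namespace Cfg

variable {v f : ℕ}

/-- The configurations smaller in size, or equal in size with fewer non-incidences. -/
def BoundBelow (N Z : ℕ) : Prop :=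
  ∀ (v' f' : ℕ) (C : Cfg v' f'), C.IsCfg →
    v' + f' < N ∨ v' + f' = N ∧ C.nonInc < Z → Bound C.body

theorem bound_of_map {C : Cfg v f} {A : Matrix (Fin 3) (Fin 3) ℝ} (hA : IsUnit A.det)
    (h : Bound (C.map A).body) : Bound C.body := by
  intro z hz
  rw [← product_mulVec_sub A hA.ne_zero C.body z]
  rw [map_body A hA] at h
  refine h _ ?_
  have hinv : (fun p => A *ᵥ p) '' C.body = (fun p => A⁻¹ *ᵥ p) ⁻¹' C.body := by
    ext p
    constructor
    · rintro ⟨r, hr, rfl⟩
      simpa [Matrix.mulVec_mulVec, Matrix.nonsing_inv_mul A hA] using hr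
    · intro hp
      exact ⟨_, hp, by simp [Matrix.mulVec_mulVec, Matrix.mul_nonsing_inv A hA]⟩
  rw [hinv]
  refine preimage_interior_subset_interior_preimage
    (Matrix.toLin' A⁻¹).continuous_of_finiteDimensional ?_
  simpa [Matrix.mulVec_mulVec, Matrix.nonsing_inv_mul A hA] using hz

/-- A lower bound for the products of the two ends of a move holds for the body. -/
theorem product_of_move (hP : PolarStmt) (hV : VolumeStmt) {C : Cfg v f} (hC : C.IsCfg)
    (M : C.Move) (hu : M.u = e0) {lo hi : ℝ} (hlo : lo < 0) (hhi : 0 < hi)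
    (h1 : (C.moved M lo).IsCfg) (h2 : (C.moved M hi).IsCfg) {κ : ℝ} (hκ : 0 < κ)
    (b1 : ∀ z ∈ interior (C.moved M lo).body,
      κ ≤ (volume (C.moved M lo).body).toReal * polVol (C.moved M lo).body z)
    (b2 : ∀ z ∈ interior (C.moved M hi).body,
      κ ≤ (volume (C.moved M hi).body).toReal * polVol (C.moved M hi).body z) :
    ∀ z ∈ interior C.body, κ ≤ (volume C.body).toReal * polVol C.body z := by
  intro z hz
  have hd : 0 < hi - lo := by linarith
  set θ := -lo / (hi - lo) with hθ
  have hθ0 : 0 < θ := div_pos (by linarith) hd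
  have hθ1 : θ < 1 := (div_lt_one hd).2 (by linarith)
  have hfib : ∀ p ∈ C.body, ∃ s r : ℝ, p + s • e0 ∈ (C.moved M lo).body ∧
      p + r • e0 ∈ (C.moved M hi).body ∧ (1 - θ) * s + θ * r = 0 := by
    intro p hp
    obtain ⟨l, l0, l1, rfl⟩ := hC.exists_comb hp
    set S := ∑ i, l i * M.c i
    have key : ∀ t, (∑ i, l i • C.x i) + (t * S) • e0 = ∑ i, l i • (C.moved M t).x i := fun t => by
      simp only [moved, hu, smul_add, Finset.sum_add_distrib, smul_smul]
      rw [← Finset.sum_smul, Finset.mul_sum]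
      congr 2
      exact Finset.sum_congr rfl fun i _ => by ring
    refine ⟨lo * S, hi * S, ?_, ?_, ?_⟩
    · rw [key]; exact h1.hull.subset ((hull_range _).2 ⟨l, l0, l1, rfl⟩)
    · rw [key]; exact h2.hull.subset ((hull_range _).2 ⟨l, l0, l1, rfl⟩)
    · rw [hθ]; field_simp; ring
  obtain ⟨za, hza, zb, hzb, hle⟩ := hP _ C.body _ h1.compact (convex_body _) h2.compact
    (convex_body _) hC.compact θ hθ0 hθ1 hfib h1.solid h2.solid z hz
  have pa := polVol_pos h1.compact hza
  have pb := polVol_pos h2.compact hzb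
  have pp := polVol_pos hC.compact hz
  have ea : (polVol (C.moved M lo).body za)⁻¹ ≤
      (volume (C.moved M lo).body).toReal / κ := by
    rw [inv_le_iff_one_le_mul₀ pa, div_mul_eq_mul_div, le_div_iff₀ hκ, one_mul]
    exact b1 za hza
  have eb : (polVol (C.moved M hi).body zb)⁻¹ ≤
      (volume (C.moved M hi).body).toReal / κ := by
    rw [inv_le_iff_one_le_mul₀ pb, div_mul_eq_mul_div, le_div_iff₀ hκ, one_mul]
    exact b2 zb hzb
  have evol := hV v f C hC M hu lo hi hlo hhi h1 h2
  have ev : (volume C.body).toReal = (1 - θ) * (volume (C.moved M lo).body).toReal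
      + θ * (volume (C.moved M hi).body).toReal := by
    rw [hθ]; field_simp; linarith
  have : (polVol C.body z)⁻¹ ≤ (volume C.body).toReal / κ := by
    refine hle.trans ?_
    rw [ev, add_div, mul_div_assoc, mul_div_assoc]
    exact add_le_add (mul_le_mul_of_nonneg_left ea (by linarith))
      (mul_le_mul_of_nonneg_left eb hθ0.le)
  rwa [inv_le_iff_one_le_mul₀ pp, div_mul_eq_mul_div, le_div_iff₀ hκ, one_mul] at this

/-- The bound for a body from the bounds for the two ends of a move. -/
theorem bound_of_move (hP : PolarStmt) (hV : VolumeStmt) {C : Cfg v f} (hC : C.IsCfg)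
    (M : C.Move) (hu : M.u = e0) {lo hi : ℝ} (hlo : lo < 0) (hhi : 0 < hi)
    (h1 : (C.moved M lo).IsCfg) (h2 : (C.moved M hi).IsCfg)
    (b1 : Bound (C.moved M lo).body) (b2 : Bound (C.moved M hi).body) : Bound C.body :=
  product_of_move hP hV hC M hu hlo hhi h1 h2 (by norm_num) b1 b2

theorem step (hP : PolarStmt) (hV : VolumeStmt) (hD : CountStmt) {C : Cfg v f} (hC : C.Reduced)
    (hvf : v ≤ f) (ih : BoundBelow (v + f) C.nonInc) : Bound C.body := by
  have h4 := hC.toIsCfg.four_le
  rcases h4.eq_or_lt with h | h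
  · subst h
    exact hC.toIsCfg.tetra_bound
  obtain ⟨M, hM⟩ := hD v f C hC h hvf
  obtain ⟨A, hA, hAu⟩ := exists_frame_e0 hM.1
  have hA' : IsUnit A.det := isUnit_iff_ne_zero.2 hA
  refine bound_of_map hA' ?_
  obtain ⟨M', hu, lo, hi, hlo, hhi, h1, h2, n1, n2⟩ := (hC.map A hA').exists_interval (by omega)
    (M.map A hA') (M.map_nonTriv hM A hA')
  rw [map_nonInc A hA'] at n1 n2
  exact bound_of_move hP hV (hC.toIsCfg.map A hA') M' (hu.trans hAu) hlo hhi h1 h2
    (ih v f _ h1 (Or.inr ⟨rfl, n1⟩)) (ih v f _ h2 (Or.inr ⟨rfl, n2⟩))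

theorem of_step (hP : PolarStmt) (hV : VolumeStmt) (hD : CountStmt) {C : Cfg v f} (hC : C.IsCfg)
    (hvf : v ≤ f) (ih : BoundBelow (v + f) C.nonInc) : Bound C.body := by
  by_cases hR : C.Reduced
  · exact step hP hV hD hR hvf ih
  · obtain ⟨v', f', C', h', hb, hlt⟩ := hC.reduce hR
    exact hb ▸ ih v' f' C' h' (Or.inl hlt)

theorem bound_all (hP : PolarStmt) (hV : VolumeStmt) (hD : CountStmt) :
    ∀ (N Z : ℕ) (v f : ℕ) (C : Cfg v f), C.IsCfg → v + f = N → C.nonInc = Z → Bound C.body := by
  intro N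
  induction N using Nat.strong_induction_on with
  | _ N ihN =>
    intro Z
    induction Z using Nat.strong_induction_on with
    | _ Z ihZ =>
      intro v f C hC hN hZ
      have ih : BoundBelow N Z := fun v' f' C' h' hlt => by
        rcases hlt with hlt | ⟨he, hlt⟩
        · exact ihN _ hlt _ v' f' C' h' rfl rfl
        · exact ihZ _ hlt v' f' C' h' he rfl
      subst hN hZ
      by_cases hR : C.Reduced
      swap
      · obtain ⟨v', f', C', h', hb, hlt⟩ := hC.reduce hR
        exact hb ▸ ih v' f' C' h' (Or.inl hlt)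
      rcases le_or_gt v f with hvf | hvf
      · exact step hP hV hD hR hvf ih
      intro z hz
      refine bound_of_dual hC hR.nrm_ne hz (of_step hP hV hD (dual_isCfg hC hR.nrm_ne hz) hvf.le ?_)
      rw [dual_nonInc fun j => (sub_pos.2 (strict_of_interior hz j (hR.nrm_ne j))).ne', add_comm f v]
      exact ih

/-- A bounded intersection of half spaces with an interior point is a configuration. -/
theorem exists_cfg (n : Fin f → E3) (o : Fin f → ℝ)
    (hb : Bornology.IsBounded {p : E3 | ∀ j, n j ⬝ᵥ p ≤ o j})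
    (hs : (interior {p : E3 | ∀ j, n j ⬝ᵥ p ≤ o j}).Nonempty) :
    ∃ (v : ℕ) (C : Cfg v f), C.IsCfg ∧ C.body = {p : E3 | ∀ j, n j ⬝ᵥ p ≤ o j} := by
  classical
  set C0 : Cfg 0 f := ⟨fun i => i.elim0, n, o⟩ with hC0
  change Bornology.IsBounded C0.body at hb
  change (interior C0.body).Nonempty at hs
  set act : E3 → Finset (Fin f) := fun p => Finset.univ.filter fun j => n j ⬝ᵥ p = o j
  have hinj : InjOn act (C0.body.extremePoints ℝ) := fun p hp q hq e => by
    refine (sub_eq_zero.1 (active_span hp (w := q - p) fun j hj => ?_)).symm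
    have hj' : j ∈ act q := e ▸ Finset.mem_filter.2 ⟨Finset.mem_univ j, hj⟩
    rw [dotProduct_sub, hj]
    exact sub_eq_zero.2 (Finset.mem_filter.1 hj').2
  have hfin : (C0.body.extremePoints ℝ).Finite :=
    Finite.of_finite_image (toFinite _) hinj
  set l := hfin.toFinset.equivFin
  refine ⟨hfin.toFinset.card, ⟨fun i => (l.symm i : E3), n, o⟩, ⟨?_, hs⟩, rfl⟩
  have hr : range (fun i => ((l.symm i : hfin.toFinset) : E3)) = C0.body.extremePoints ℝ := by
    ext p
    constructor
    · rintro ⟨i, rfl⟩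
      exact hfin.mem_toFinset.1 (l.symm i).2
    · intro hp
      exact ⟨l ⟨p, hfin.mem_toFinset.2 hp⟩, by simp⟩
  show convexHull ℝ (range fun i => ((l.symm i : hfin.toFinset) : E3)) = C0.body
  rw [hr, ← (hfin.isCompact_convexHull ℝ).isClosed.closure_eq]
  exact closure_convexHull_extremePoints
    (Metric.isCompact_of_isClosed_isBounded (isClosed_body _) hb) (convex_body _)

end Cfg

/-- A body lies in a polytope inside a slightly larger copy. -/
theorem exists_outer {K : Set E3} (hK : IsCompact K) (hc : Convex ℝ K) (h0 : (0 : E3) ∈ interior K)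
    {r : ℝ} (hr : 1 < r) :
    ∃ (f : ℕ) (n : Fin f → E3) (o : Fin f → ℝ),
      K ⊆ {p | ∀ j, n j ⬝ᵥ p ≤ o j} ∧ {p | ∀ j, n j ⬝ᵥ p ≤ o j} ⊆ r • K := by
  classical
  set S := frontier (r • K)
  have hrK : IsCompact (r • K) := hK.smul r
  have hS : IsCompact S := hrK.of_isClosed_subset isClosed_frontier hrK.isClosed.frontier_subset
  have hsep : ∀ q ∈ S, ∃ (n : E3) (o : ℝ), (∀ p ∈ K, n ⬝ᵥ p ≤ o) ∧ o < n ⬝ᵥ q := by
    intro q hq
    have hqK : q ∉ K := fun hqK => by
      have hr0 : r ≠ 0 := (by linarith : (0:ℝ) < r).ne'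
      refine hq.2 ?_
      rw [interior_smul₀ hr0]
      refine ⟨r⁻¹ • q, ?_, smul_inv_smul₀ hr0 q⟩
      have := hc.combo_interior_self_mem_interior h0 hqK (a := 1 - r⁻¹) (b := r⁻¹)
        (by have := inv_lt_one_of_one_lt₀ hr; linarith) (by positivity) (by ring)
      simpa using this
    obtain ⟨L, s, hL, hLq⟩ := geometric_hahn_banach_closed_point hc hK.isClosed hqK
    have e : ∀ p : E3, L p = (fun k => L (Pi.single k 1)) ⬝ᵥ p := fun p => by
      conv_lhs => rw [pi_eq_sum_univ p]
      simp only [map_sum, map_smul, smul_eq_mul, dotProduct]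
      refine Finset.sum_congr rfl fun k _ => ?_
      rw [mul_comm]
      congr 2
      funext m
      simp [Pi.single_apply, eq_comm]
    exact ⟨_, s, fun p hp => (e p) ▸ (hL p hp).le, (e q) ▸ hLq⟩
  choose n o hno hoq using hsep
  obtain ⟨T, hT⟩ := hS.elim_finite_subcover (fun q : S => {p : E3 | o q q.2 < n q q.2 ⬝ᵥ p})
    (fun q => isOpen_lt continuous_const (continuous_dot _))
    fun q hq => mem_iUnion.2 ⟨⟨q, hq⟩, hoq q hq⟩
  refine ⟨T.card, fun j => n _ (T.equivFin.symm j : S).2, fun j => o _ (T.equivFin.symm j : S).2,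
    fun p hp j => hno _ _ p hp, fun p hp => ?_⟩
  by_contra hpK
  have hP : Convex ℝ {p : E3 | ∀ j, n _ (T.equivFin.symm j : S).2 ⬝ᵥ p ≤
      o _ (T.equivFin.symm j : S).2} :=
    (⟨fun i => i.elim0, fun j => n _ (T.equivFin.symm j : S).2,
      fun j => o _ (T.equivFin.symm j : S).2⟩ : Cfg 0 T.card).convex_body
  have h0P := fun j => hno _ (T.equivFin.symm j : S).2 0 (interior_subset h0)
  obtain ⟨q, hqseg, hqS⟩ : (segment ℝ 0 p ∩ S).Nonempty := by
    by_contra hne
    rw [not_nonempty_iff_eq_empty] at hne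
    have hsub : segment ℝ 0 p ⊆ interior (r • K) ∪ (r • K)ᶜ := fun x hx => by
      by_cases hxK : x ∈ r • K
      · refine Or.inl ?_
        by_contra hxi
        exact (Set.eq_empty_iff_forall_notMem.1 hne x) ⟨hx, ⟨subset_closure hxK, hxi⟩⟩
      · exact Or.inr hxK
    have := (convex_segment (0:E3) p).isPreconnected.subset_left_of_subset_union isOpen_interior
      hrK.isClosed.isOpen_compl (disjoint_compl_right_iff_subset.2 interior_subset) hsub
      ⟨0, left_mem_segment ℝ 0 p, by
        rw [interior_smul₀ (by linarith : r ≠ 0)]; exact ⟨0, h0, smul_zero r⟩⟩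
    exact hpK (interior_subset (this (right_mem_segment ℝ 0 p)))
  obtain ⟨j, hjT, hj⟩ : ∃ j ∈ T, o _ (j : S).2 < n _ (j : S).2 ⬝ᵥ q := by
    simpa using hT hqS
  have := hP.segment_subset h0P hp hqseg (T.equivFin ⟨j, hjT⟩)
  rw [Equiv.symm_apply_apply] at this
  exact absurd this (not_le.2 hj)

/-- The general inequality in dimension three from the three pieces. -/
theorem main_of (hP : PolarStmt) (hV : VolumeStmt) (hD : CountStmt) {K : Set E3}
    (hK : IsCompact K) (hc : Convex ℝ K) {z : E3} (hz : z ∈ interior K) :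
    64 / 9 ≤ (volume K).toReal * polVol K z := by
  set K' := (fun x => x - z) '' K with hK'
  have hK'c : IsCompact K' := hK.image (continuous_sub_right z)
  have hK'v : Convex ℝ K' := by
    have := hc.translate (-z)
    simpa [hK', ← sub_eq_neg_add] using this
  have h0 : (0 : E3) ∈ interior K' := by
    have : K' = (fun x => x + z) ⁻¹' K := by
      ext p
      exact ⟨by rintro ⟨q, hq, rfl⟩; simpa using hq, fun h => ⟨p + z, h, by simp⟩⟩
    rw [this]
    exact preimage_interior_subset_interior_preimage (continuous_add_right z) (by simpa using hz)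
  have key : ∀ r : ℝ, 1 < r → 64 / 9 ≤ r ^ 3 * ((volume K).toReal * polVol K z) := by
    intro r hr
    obtain ⟨f, n, o, hin, hout⟩ := exists_outer hK'c hK'v h0 hr
    have hbd := (hK'c.smul r).isBounded.subset hout
    obtain ⟨v, C, hC, hCb⟩ := Cfg.exists_cfg n o hbd ⟨0, interior_mono hin h0⟩
    rw [← hCb] at hin hout hbd
    have hzC : (0 : E3) ∈ interior C.body := interior_mono hin h0
    have hb := Cfg.bound_all hP hV hD _ _ v f C hC rfl rfl 0 hzC
    refine hb.trans ?_
    have h1 : (volume C.body).toReal ≤ r ^ 3 * (volume K).toReal := by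
      have h2 : volume C.body ≤ volume (r • K') := measure_mono hout
      rw [Measure.addHaar_smul, Module.finrank_fin_fun, abs_of_pos (by positivity)] at h2
      have h3 := ENNReal.toReal_mono (ENNReal.mul_ne_top ENNReal.ofReal_ne_top
        hK'c.measure_lt_top.ne) h2
      rwa [ENNReal.toReal_mul, ENNReal.toReal_ofReal (by positivity), hK', volume_sub] at h3
    have h2 : polVol C.body 0 ≤ polVol K z := by
      refine ENNReal.toReal_mono (polar_bounded hz).measure_lt_top.ne (measure_mono fun y hy => ?_)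
      intro x hx
      exact hy x ⟨x, hin hx, sub_zero x⟩
    calc (volume C.body).toReal * polVol C.body 0 ≤ r ^ 3 * (volume K).toReal * polVol K z :=
          mul_le_mul h1 h2 ENNReal.toReal_nonneg (by positivity)
      _ = r ^ 3 * ((volume K).toReal * polVol K z) := by ring
  have ht : Tendsto (fun r : ℝ => r ^ 3 * ((volume K).toReal * polVol K z)) (𝓝[>] 1)
      (𝓝 ((volume K).toReal * polVol K z)) := by
    simpa using ((by fun_prop : Continuous fun r : ℝ =>
      r ^ 3 * ((volume K).toReal * polVol K z)).tendsto 1).mono_left nhdsWithin_le_nhds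
  exact ge_of_tendsto ht (eventually_nhdsWithin_of_forall key)

end Vale.Agent.P248.Three
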