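import Vale.Agent.P248.Three.Basic
import Mathlib.Analysis.Convex.KreinMilman

/-!
P248, dimension three: moved configurations. The slacks are linear in the time, and between two
times with nonpositive slacks and no half space containing all points in its boundary the moved
points and half spaces describe one body.
-/

noncomputable section

open Set Matrix Filter Topology

namespace Vale.Agent.P248.Three

namespace Cfg

variable {v f : ℕ} {C : Cfg v f}

/-- The derivative of a slack along a move. -/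
def Move.D (M : C.Move) (i : Fin v) (j : Fin f) : ℝ :=
  (C.nrm j ⬝ᵥ M.u) * (M.c i - M.a j ⬝ᵥ C.x i - M.α j)

theorem Move.D_eq_zero (M : C.Move) {i : Fin v} {j : Fin f} (h : C.slack i j = 0) : M.D i j = 0 := by
  by_cases hu : C.nrm j ⬝ᵥ M.u = 0
  · simp [Move.D, hu]
  · simp [Move.D, M.agree i j h hu]

theorem slack_moved (M : C.Move) (t : ℝ) (i : Fin v) (j : Fin f) :
    (C.moved M t).slack i j = C.slack i j + t * M.D i j := by
  simp only [slack, moved, Move.D, sub_dotProduct, smul_dotProduct, dotProduct_add,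
    dotProduct_smul, smul_eq_mul, M.perp j]
  ring

theorem nrm_moved_dot (M : C.Move) (t : ℝ) (j : Fin f) :
    (C.moved M t).nrm j ⬝ᵥ M.u = C.nrm j ⬝ᵥ M.u := by
  simp [moved, sub_dotProduct, smul_dotProduct, M.perp j]

theorem moved_zero (M : C.Move) : C.moved M 0 = C := by
  cases C; simp [moved]

/-- All slacks are nonpositive and every half space is strict at some point. -/
def Feasible (M : C.Move) (t : ℝ) : Prop :=
  (∀ i j, (C.moved M t).slack i j ≤ 0) ∧ ∀ j, ∃ i, (C.moved M t).slack i j < 0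

/-- The average of the points. -/
def centre (C : Cfg v f) : E3 := ∑ i, (1 / (v : ℝ)) • C.x i

theorem Feasible.centre_mem {M : C.Move} {t : ℝ} (h : Feasible M t) (hv : 0 < v) :
    (C.moved M t).centre ∈ convexHull ℝ (range (C.moved M t).x) ∧
      ∀ j, (C.moved M t).nrm j ⬝ᵥ (C.moved M t).centre < (C.moved M t).off j := by
  have hv' : (0:ℝ) < v := Nat.cast_pos.2 hv
  have h1 : ∑ _i : Fin v, (1 / (v:ℝ)) = 1 := by simp [hv'.ne']
  refine ⟨(hull_range _).2 ⟨fun _ => 1 / v, fun _ => by positivity, h1, rfl⟩, fun j => ?_⟩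
  rw [← sub_neg, centre, comb_slack _ h1]
  obtain ⟨i, hi⟩ := h.2 j
  exact Finset.sum_neg' (fun k _ => mul_nonpos_of_nonneg_of_nonpos (by positivity) (h.1 k j))
    ⟨i, Finset.mem_univ i, mul_neg_of_pos_of_neg (by positivity) hi⟩

theorem mem_interior_of_strict {C : Cfg v f} {p : E3} (h : ∀ j, C.nrm j ⬝ᵥ p < C.off j) :
    p ∈ interior C.body := by
  refine mem_interior_iff_mem_nhds.2 ?_
  have : ∀ᶠ q in 𝓝 p, ∀ j, C.nrm j ⬝ᵥ q < C.off j :=
    eventually_all.2 fun j => ((continuous_dot _).tendsto p).eventually (gt_mem_nhds (h j))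
  exact this.mono fun q hq j => (hq j).le

/-- The times at which a point lies in the hull of the moved points form a closed set. -/
theorem isClosed_hull_times (M : C.Move) (p : E3) :
    IsClosed {t : ℝ | p ∈ convexHull ℝ (range (C.moved M t).x)} := by
  have : CompactSpace (stdSimplex ℝ (Fin v)) :=
    isCompact_iff_compactSpace.1 (isCompact_stdSimplex ℝ (Fin v))
  have hS : IsClosed {q : ℝ × stdSimplex ℝ (Fin v) |
      ∑ i, (q.2 : Fin v → ℝ) i • (C.x i + (q.1 * M.c i) • M.u) = p} :=
    isClosed_eq (continuous_finsetSum _ fun i _ => ((continuous_apply i).comp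
      (continuous_subtype_val.comp continuous_snd)).smul (by fun_prop)) continuous_const
  have := isClosedMap_fst_of_compactSpace _ hS
  convert this using 1
  ext t
  simp only [mem_ofPred_eq, hull_range, mem_image]
  constructor
  · rintro ⟨l, l0, l1, e⟩
    exact ⟨(t, ⟨l, l0, l1⟩), e, rfl⟩
  · rintro ⟨⟨s, l⟩, e, rfl⟩
    exact ⟨l, l.2.1, l.2.2, e⟩

/-- Closedness in the time. -/
theorem hull_closed (M : C.Move) (hv : 0 < v) {t : ℝ} (ht : Feasible M t)
    (h : t ∈ closure {s : ℝ | (C.moved M s).body ⊆ convexHull ℝ (range (C.moved M s).x)}) :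
    (C.moved M t).body ⊆ convexHull ℝ (range (C.moved M t).x) := by
  have strict : ∀ p, (∀ j, (C.moved M t).nrm j ⬝ᵥ p < (C.moved M t).off j) →
      p ∈ convexHull ℝ (range (C.moved M t).x) := by
    intro p hp
    have ev : ∀ᶠ s in 𝓝 t, p ∈ (C.moved M s).body := by
      have : ∀ᶠ s in 𝓝 t, ∀ j, (C.moved M s).nrm j ⬝ᵥ p < (C.moved M s).off j := by
        refine eventually_all.2 fun j => ?_
        have h1 : Continuous fun s => (C.moved M s).off j - (C.moved M s).nrm j ⬝ᵥ p := by
          simp only [moved, sub_dotProduct, smul_dotProduct, smul_eq_mul]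
          fun_prop
        exact ((h1.tendsto t).eventually (lt_mem_nhds (sub_pos.2 (hp j)))).mono
          fun s hs => sub_pos.1 hs
      exact this.mono fun s hs j => (hs j).le
    refine (isClosed_hull_times M p).closure_subset (mem_closure_iff_nhds.2 fun U hU => ?_)
    obtain ⟨s, ⟨hsU, hsp⟩, hs⟩ := mem_closure_iff_nhds.1 h _ (inter_mem hU ev)
    exact ⟨s, hsU, hs hsp⟩
  intro p hp
  obtain ⟨-, hq⟩ := ht.centre_mem hv
  set q := (C.moved M t).centre
  have hcl : IsClosed (convexHull ℝ (range (C.moved M t).x)) :=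
    ((finite_range _).isCompact_convexHull ℝ).isClosed
  have hlim : Tendsto (fun e : ℝ => (1 - e) • p + e • q) (𝓝[>] 0) (𝓝 p) := by
    have : Continuous fun e : ℝ => (1 - e) • p + e • q := by fun_prop
    simpa using (this.tendsto 0).mono_left nhdsWithin_le_nhds
  refine hcl.mem_of_tendsto hlim ?_
  filter_upwards [Ioo_mem_nhdsGT zero_lt_one] with e he
  refine strict _ fun j => ?_
  have := hp j
  calc (C.moved M t).nrm j ⬝ᵥ ((1 - e) • p + e • q)
      = (1 - e) * ((C.moved M t).nrm j ⬝ᵥ p) + e * ((C.moved M t).nrm j ⬝ᵥ q) := by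
        simp [dotProduct_add, dotProduct_smul]
    _ < (C.moved M t).off j := by nlinarith [hq j, this, he.1, he.2]

/-- An extreme point of a system of half spaces: its active normals span. -/
theorem active_span {C : Cfg v f} {p : E3} (hp : p ∈ C.body.extremePoints ℝ) {w : E3}
    (hw : ∀ j, C.nrm j ⬝ᵥ p = C.off j → C.nrm j ⬝ᵥ w = 0) : w = 0 := by
  by_contra hne
  have e : ∀ᶠ s : ℝ in 𝓝 0, p + s • w ∈ C.body := by
    simp only [body, mem_ofPred_eq]
    rw [eventually_all]
    intro j
    by_cases hj : C.nrm j ⬝ᵥ p = C.off j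
    · exact Eventually.of_forall fun s => by
        simp [dotProduct_add, dotProduct_smul, hw j hj, hj]
    · have hc : Continuous fun s : ℝ => C.nrm j ⬝ᵥ (p + s • w) :=
        (continuous_dot _).comp (by fun_prop)
      have hlt := lt_of_le_of_ne (hp.1 j) hj
      exact ((hc.tendsto 0).eventually (gt_mem_nhds (by simpa using hlt))).mono fun s h => h.le
  obtain ⟨s, ⟨hs, hs'⟩, hs0⟩ := (((e.and ((continuous_neg.tendsto' (0:ℝ) 0 neg_zero).eventually
    e)).filter_mono nhdsWithin_le_nhds).and (self_mem_nhdsWithin (s := Set.Ioi (0:ℝ)))).exists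
  have := hp.2 hs hs' ⟨1/2, 1/2, by norm_num, by norm_num, by norm_num, by module⟩
  rw [add_eq_left, smul_eq_zero] at this
  exact this.elim hs0.ne' hne

theorem continuous_slackAt (M : C.Move) (j : Fin f) :
    Continuous fun q : ℝ × E3 => (C.moved M q.1).nrm j ⬝ᵥ q.2 - (C.moved M q.1).off j := by
  simp only [moved, dotProduct]
  fun_prop

theorem continuous_centre (M : C.Move) : Continuous fun s => (C.moved M s).centre := by
  simp only [centre, moved]
  fun_prop

theorem tendsto_slackAt (M : C.Move) (j : Fin f) {t : ℝ} {σ : ℕ → ℝ} {y : ℕ → E3} {p : E3}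
    (hσ : Tendsto σ atTop (𝓝 t)) (hy : Tendsto y atTop (𝓝 p)) :
    Tendsto (fun n => (C.moved M (σ n)).nrm j ⬝ᵥ y n - (C.moved M (σ n)).off j) atTop
      (𝓝 ((C.moved M t).nrm j ⬝ᵥ p - (C.moved M t).off j)) :=
  Tendsto.comp (g := fun q : ℝ × E3 => (C.moved M q.1).nrm j ⬝ᵥ q.2 - (C.moved M q.1).off j)
    (f := fun n => (σ n, y n)) (Continuous.tendsto (continuous_slackAt M j) (t, p))
    (hσ.prodMk_nhds hy)

theorem lim_mem (M : C.Move) {t : ℝ} {σ : ℕ → ℝ} {y : ℕ → E3} {p : E3}
    (hσ : Tendsto σ atTop (𝓝 t)) (hy : Tendsto y atTop (𝓝 p))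
    (hmem : ∀ n, y n ∈ (C.moved M (σ n)).body) : p ∈ (C.moved M t).body := fun j =>
  sub_nonpos.1 (le_of_tendsto' (tendsto_slackAt M j hσ hy) fun n => sub_nonpos.2 (hmem n j))

/-- The moved bodies are uniformly bounded near a time at which the body is bounded. -/
theorem eventually_bounded (M : C.Move) (hv : 0 < v) {t : ℝ} {σ : ℕ → ℝ}
    (hσ : Tendsto σ atTop (𝓝 t)) (hf : ∀ n, Feasible M (σ n)) (htF : Feasible M t)
    {R : ℝ} (hR : ∀ p ∈ (C.moved M t).body, ‖p‖ < R) :
    ∀ᶠ n in atTop, (C.moved M (σ n)).body ⊆ Metric.closedBall 0 R := by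
  have hcn : ∀ᶠ n in atTop, ‖(C.moved M (σ n)).centre‖ < R :=
    (((continuous_centre M).norm.tendsto t).comp hσ).eventually
      (gt_mem_nhds (hR _ (hull_subset htF.1 (htF.centre_mem hv).1)))
  by_contra hb
  obtain ⟨φ, hφ, hφb⟩ := extraction_of_frequently_atTop
    ((not_eventually.1 hb).and_eventually hcn)
  have : ∀ n, ∃ y ∈ (C.moved M (σ (φ n))).body, ‖y‖ = R := fun n => by
    obtain ⟨hnot, hc⟩ := hφb n
    obtain ⟨z, hz, hzR⟩ := not_subset.1 hnot
    rw [mem_closedBall_zero_iff, not_le] at hzR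
    have hcm := hull_subset (hf (φ n)).1 ((hf (φ n)).centre_mem hv).1
    generalize (C.moved M (σ (φ n))).centre = c at hc hcm
    have hcont : Continuous fun e : ℝ => ‖(1 - e) • c + e • z‖ := by fun_prop
    obtain ⟨e, he, heq⟩ := intermediate_value_Icc zero_le_one hcont.continuousOn
      (show R ∈ Icc _ _ by simpa using ⟨hc.le, hzR.le⟩)
    exact ⟨_, (C.moved M (σ (φ n))).convex_body hcm hz (by linarith [he.2]) he.1 (by ring), heq⟩
  choose y hy hyR using this
  obtain ⟨p, -, ψ, hψ, hyp⟩ := (isCompact_closedBall (0:E3) R).tendsto_subseq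
    (x := y) fun n => by simp [hyR n]
  have hp : p ∈ (C.moved M t).body :=
    lim_mem M (hσ.comp (hφ.comp hψ).tendsto_atTop) hyp fun n => hy (ψ n)
  have hp2 : ‖p‖ = R := tendsto_nhds_unique hyp.norm (by simp [Function.comp, hyR])
  exact (hR p hp).ne hp2

/-- A limit of extreme points with a fixed active set is a moved point, if the hull is the body
at the limit time and the incidences there are the old ones. -/
theorem not_missed (M : C.Move) {t : ℝ} (htF : Feasible M t)
    (hgood : (C.moved M t).body ⊆ convexHull ℝ (range (C.moved M t).x))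
    (hinc : ∀ i j, (C.moved M t).slack i j = 0 → C.slack i j = 0)
    {σ : ℕ → ℝ} (hσ : Tendsto σ atTop (𝓝 t)) {p : ℕ → E3} {q : E3}
    (hq : Tendsto p atTop (𝓝 q)) (hp : ∀ n, p n ∈ (C.moved M (σ n)).body.extremePoints ℝ)
    {S : Finset (Fin f)}
    (hS : ∀ n j, (C.moved M (σ n)).nrm j ⬝ᵥ p n = (C.moved M (σ n)).off j ↔ j ∈ S) :
    p 0 ∈ convexHull ℝ (range (C.moved M (σ 0)).x) := by
  have hqm : q ∈ (C.moved M t).body := lim_mem M hσ hq fun n => (hp n).1
  have hqS : ∀ j ∈ S, (C.moved M t).nrm j ⬝ᵥ q = (C.moved M t).off j := fun j hj =>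
    sub_eq_zero.1 (tendsto_nhds_unique (tendsto_slackAt M j hσ hq)
      (tendsto_const_nhds.congr fun n => by rw [(hS n j).2 hj, sub_self]))
  obtain ⟨l, l0, l1, hl⟩ := (hull_range _).1 (hgood hqm)
  obtain ⟨i, hi⟩ : ∃ i, l i ≠ 0 := by
    by_contra hc
    push Not at hc
    simp [hc] at l1
  have hiS : ∀ j ∈ S, C.slack i j = 0 := fun j hj => hinc i j (by
    by_contra hne'
    exact hi (comb_support htF.1 l0 l1 (hl.symm ▸ hqS j hj) i hne'))
  have hx : (C.moved M (σ 0)).x i - p 0 = 0 := by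
    refine active_span (hp 0) fun j hj => ?_
    have hjS : j ∈ S := (hS 0 j).1 hj
    have e1 := slack_moved M (σ 0) i j
    rw [hiS j hjS, M.D_eq_zero (hiS j hjS), slack] at e1
    rw [dotProduct_sub, hj]
    linarith
  exact sub_eq_zero.1 hx ▸ subset_convexHull ℝ _ ⟨i, rfl⟩

/-- Openness in the time. -/
theorem hull_open (M : C.Move) {t : ℝ} (hv : 0 < v)
    (hgood : (C.moved M t).body ⊆ convexHull ℝ (range (C.moved M t).x))
    (hs : ∀ᶠ s in 𝓝 t, Feasible M s)
    (hinc : ∀ i j, (C.moved M t).slack i j = 0 → C.slack i j = 0) :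
    ∀ᶠ s in 𝓝 t, (C.moved M s).body ⊆ convexHull ℝ (range (C.moved M s).x) := by
  by_contra hne
  obtain ⟨τ, hτ, hbad⟩ := exists_seq_forall_of_frequently
    ((not_eventually.1 hne).and_eventually hs)
  have htF : Feasible M t := hs.self_of_nhds
  have hK : IsCompact (C.moved M t).body :=
    (Subset.antisymm hgood (hull_subset htF.1)) ▸ (finite_range _).isCompact_convexHull ℝ
  obtain ⟨R0, hR0⟩ := (Metric.isBounded_iff_subset_closedBall (0:E3)).1 hK.isBounded
  have hR : ∀ p ∈ (C.moved M t).body, ‖p‖ < R0 + 1 := fun p hp => by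
    linarith [mem_closedBall_zero_iff.1 (hR0 hp)]
  have hext : ∀ᶠ n in atTop, ∃ p ∈ (C.moved M (τ n)).body.extremePoints ℝ,
      p ∉ convexHull ℝ (range (C.moved M (τ n)).x) ∧ p ∈ Metric.closedBall (0:E3) (R0 + 1) := by
    filter_upwards [eventually_bounded M hv hτ (fun n => (hbad n).2) htF hR] with n hn
    by_contra hc
    refine (hbad n).1 ?_
    have hcp : IsCompact (C.moved M (τ n)).body :=
      (isCompact_closedBall _ _).of_isClosed_subset (isClosed_body _) hn
    rw [← closure_convexHull_extremePoints hcp (convex_body _)]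
    refine closure_minimal (convexHull_min (fun p hp => ?_) (convex_convexHull ℝ _))
      ((finite_range _).isCompact_convexHull ℝ).isClosed
    by_contra hp'
    exact hc ⟨p, hp, hp', hn hp.1⟩
  classical
  obtain ⟨N, hN⟩ := eventually_atTop.1 hext
  choose p hp hpn hpB using fun n => hN (n + N) (Nat.le_add_left N n)
  obtain ⟨S, hSfr⟩ : ∃ S : Finset (Fin f), ∃ᶠ n in atTop, ∀ j,
      (C.moved M (τ (n + N))).nrm j ⬝ᵥ p n = (C.moved M (τ (n + N))).off j ↔ j ∈ S := by
    by_contra hc
    push Not at hc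
    obtain ⟨n, hn⟩ := (eventually_all.2 fun S => hc S).exists
    obtain ⟨j, hj⟩ := hn (Finset.univ.filter fun j =>
      (C.moved M (τ (n + N))).nrm j ⬝ᵥ p n = (C.moved M (τ (n + N))).off j)
    simp at hj
  obtain ⟨φ, hφ, hS⟩ := extraction_of_frequently_atTop hSfr
  obtain ⟨q, -, ψ, hψ, hq⟩ := (isCompact_closedBall (0:E3) (R0 + 1)).tendsto_subseq
    (x := fun n => p (φ n)) fun n => hpB (φ n)
  exact hpn (φ (ψ 0)) (not_missed M htF hgood hinc (σ := fun n => τ (φ (ψ n) + N))
    (hτ.comp ((hφ.comp hψ).add_const N).tendsto_atTop) hq (fun n => hp _) fun n => hS (ψ n))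

/-- Between feasible times around the start the moved points and half spaces describe one body. -/
theorem isCfg_moved (hC : C.IsCfg) (M : C.Move) (hv : 0 < v) {lo hi : ℝ} (hlo : lo < 0)
    (hhi : 0 < hi) (hF : ∀ t ∈ Icc lo hi, Feasible M t)
    (hinc : ∀ t ∈ Ioo lo hi, ∀ i j, (C.moved M t).slack i j = 0 → C.slack i j = 0) :
    ∀ t ∈ Icc lo hi, (C.moved M t).IsCfg := by
  set G := {s : ℝ | (C.moved M s).body ⊆ convexHull ℝ (range (C.moved M s).x)} with hG
  have hopen : ∀ t ∈ Ioo lo hi, t ∈ G → G ∈ 𝓝 t := fun t ht hg =>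
    hull_open M hv hg ((Ioo_mem_nhds ht.1 ht.2) |> fun h => mem_of_superset h
      fun s hs => hF s (Ioo_subset_Icc_self hs)) (hinc t ht)
  have hall : Ioo lo hi ⊆ G := by
    have hsub : Ioo lo hi ⊆ interior G ∪ (closure G)ᶜ := fun t ht => by
      by_cases h : t ∈ closure G
      · exact Or.inl (mem_interior_iff_mem_nhds.2
          (hopen t ht (hull_closed M hv (hF t (Ioo_subset_Icc_self ht)) h)))
      · exact Or.inr h
    have h0G : (0:ℝ) ∈ G := by
      show (C.moved M 0).body ⊆ _
      rw [moved_zero]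
      exact hC.hull.symm.subset
    refine fun t ht => interior_subset (isPreconnected_Ioo.subset_left_of_subset_union
      isOpen_interior isClosed_closure.isOpen_compl ?_ hsub ⟨0, ⟨hlo, hhi⟩, ?_⟩ ht)
    · exact Set.disjoint_compl_right_iff_subset.2 (interior_subset.trans subset_closure)
    · exact mem_interior_iff_mem_nhds.2 (hopen 0 ⟨hlo, hhi⟩ h0G)
  intro t ht
  have hcl : t ∈ closure G := closure_mono hall (by rwa [closure_Ioo (by linarith : lo ≠ hi)])
  exact ⟨Subset.antisymm (hull_subset (hF t ht).1) (hull_closed M hv (hF t ht) hcl),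
    ⟨_, mem_interior_of_strict ((hF t ht).centre_mem hv).2⟩⟩

end Cfg

end Vale.Agent.P248.Three
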