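import Vale.Agent.P248.Three.PolarHalf

/-!
P248, dimension three, piece A: along a shadow combination there are two centres on the line
through the given one whose polars are cut in one ratio by the plane orthogonal to the line; about
them the reciprocal of the polar volume is convex.
-/

noncomputable section

open MeasureTheory Set Filter
open scoped Topology

namespace Vale.Agent.P248.Three.Polar

/-- The position on the second line that goes with `s` on the first. -/
def rr (θ s : ℝ) : ℝ := -(1 - θ) * s / θ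

theorem rr_neg (θ s : ℝ) : rr θ (-s) = -rr θ s := by simp only [rr]; ring

/-- The admissible pairs of centres. -/
def ctr (Ka Kb : Set E3) (θ : ℝ) (z : E3) : Set ℝ :=
  {s | z + s • e0 ∈ interior Ka ∧ z + rr θ s • e0 ∈ interior Kb}

theorem ctr_flp (Ka Kb : Set E3) (θ : ℝ) (z : E3) (s : ℝ) :
    s ∈ ctr (flp '' Ka) (flp '' Kb) θ (flp z) ↔ -s ∈ ctr Ka Kb θ z := by
  simp only [ctr, mem_ofPred_eq]
  rw [← flp_interior (K := Ka) (x := z + (-s) • e0),
    ← flp_interior (K := Kb) (x := z + rr θ (-s) • e0), flp_shift, flp_shift, rr_neg, neg_neg,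
    neg_neg]

theorem isOpen_ctr (Ka Kb : Set E3) (θ : ℝ) (z : E3) : IsOpen (ctr Ka Kb θ z) :=
  (isOpen_interior.preimage (by fun_prop : Continuous fun s : ℝ => z + s • e0)).inter
    (isOpen_interior.preimage
      (by simp only [rr]; fun_prop : Continuous fun s : ℝ => z + rr θ s • e0))

theorem ordConnected_ctr {Ka Kb : Set E3} (ha : Convex ℝ Ka) (hb : Convex ℝ Kb) (θ : ℝ) (z : E3) :
    (ctr Ka Kb θ z).OrdConnected := by
  refine Convex.ordConnected fun x hx y hy a b h0 h1 hab => ?_
  have e : ∀ u v : ℝ, a • (z + u • e0) + b • (z + v • e0) = z + (a * u + b * v) • e0 := by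
    intro u v
    have : (a + b) • z = z := by rw [hab, one_smul]
    conv_rhs => rw [← this]
    module
  refine ⟨?_, ?_⟩
  · show z + (a * x + b * y) • e0 ∈ interior Ka
    rw [← e]
    exact ha.interior hx.1 hy.1 h0 h1 hab
  · have h := hb.interior hx.2 hy.2 h0 h1 hab
    rw [e] at h
    convert h using 3
    simp only [rr, smul_eq_mul]
    ring

/-- A line through an interior point meets the interior of a body casting the same shadow. -/
theorem line_meets {K L : Set E3} (hL : Convex ℝ L) {q z : E3} (hq : q ∈ interior L)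
    (hz : z ∈ interior K) (h : ∀ p ∈ K, ∃ s : ℝ, p + s • e0 ∈ L) :
    ∃ s : ℝ, z + s • e0 ∈ interior L := by
  have ht : Tendsto (fun η : ℝ => z + η • (z - q)) (𝓝[>] 0) (𝓝 z) := by
    have : Continuous fun η : ℝ => z + η • (z - q) := by fun_prop
    simpa using (this.tendsto 0).mono_left (nhdsWithin_le_nhds (s := Ioi 0))
  obtain ⟨η, hη, hη0⟩ := ((ht.eventually (mem_interior_iff_mem_nhds.1 hz)).and
    (self_mem_nhdsWithin (s := Ioi (0 : ℝ)))).exists
  have hη0' : (0 : ℝ) < η := hη0
  obtain ⟨s, hs⟩ := h _ hη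
  refine ⟨s / (1 + η), ?_⟩
  have := hL.combo_self_interior_mem_interior hs hq (a := 1 / (1 + η)) (b := η / (1 + η))
    (by positivity) (by positivity) (by field_simp)
  convert this using 1
  funext i
  simp
  field_simp
  ring

theorem exists_ctr {Ka K Kb : Set E3} (ha : Convex ℝ Ka) (hb : Convex ℝ Kb) {θ : ℝ} (h0 : 0 < θ)
    (hp : ∀ p ∈ K, ∃ s r : ℝ, p + s • e0 ∈ Ka ∧ p + r • e0 ∈ Kb ∧ (1 - θ) * s + θ * r = 0)
    {z : E3} (hia : (interior Ka).Nonempty) (hib : (interior Kb).Nonempty)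
    (hz : z ∈ interior K) : (ctr Ka Kb θ z).Nonempty := by
  obtain ⟨qa, hqa⟩ := hia
  obtain ⟨qb, hqb⟩ := hib
  obtain ⟨sa, hsa⟩ := line_meets ha hqa hz fun p h => by
    obtain ⟨s, r, h1, -, -⟩ := hp p h
    exact ⟨s, h1⟩
  obtain ⟨sb, hsb⟩ := line_meets hb hqb hz fun p h => by
    obtain ⟨s, r, -, h2, -⟩ := hp p h
    exact ⟨r, h2⟩
  set δ := (1 - θ) * sa + θ * sb
  have ht : Tendsto (fun η : ℝ => z + (-(η * δ)) • e0) (𝓝[>] 0) (𝓝 z) := by
    have : Continuous fun η : ℝ => z + (-(η * δ)) • e0 := by fun_prop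
    simpa using (this.tendsto 0).mono_left (nhdsWithin_le_nhds (s := Ioi 0))
  obtain ⟨η, hη, hη0⟩ := ((ht.eventually (mem_interior_iff_mem_nhds.1 hz)).and
    (self_mem_nhdsWithin (s := Ioi (0 : ℝ)))).exists
  have hη0' : (0 : ℝ) < η := hη0
  obtain ⟨s, r, hs, hr, hsr⟩ := hp _ hη
  set τ := η / (1 + η)
  have hτ : 0 < τ := by positivity
  have hτ1 : 0 ≤ 1 - τ := by
    rw [sub_nonneg, div_le_one (by positivity)]
    linarith
  have hτe : τ * (1 + η) = η := div_mul_cancel₀ _ (by positivity)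
  refine ⟨(1 - τ) * (s - η * δ) + τ * sa, ?_, ?_⟩
  · have := ha.combo_self_interior_mem_interior hs hsa hτ1 hτ (by ring)
    convert this using 1
    module
  · have := hb.combo_self_interior_mem_interior hr hsb hτ1 hτ (by ring)
    rw [show rr θ ((1 - τ) * (s - η * δ) + τ * sa) = (1 - τ) * (r - η * δ) + τ * sb by
      rw [rr, div_eq_iff h0.ne']
      simp only [δ]
      linear_combination (-(1 - τ)) * hsr - ((1 - θ) * sa + θ * sb) * hτe]
    convert this using 1
    module

/-- At the lower end of the admissible interval the first ratio is the smaller one. -/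
theorem exists_le {Ka Kb : Set E3} (hKa : IsCompact Ka) (ha : Convex ℝ Ka) (hKb : IsCompact Kb)
    (hb : Convex ℝ Kb) {θ : ℝ} (h0 : 0 < θ) (h1 : θ < 1) {z : E3} {m : ℝ}
    (hm : m ∈ ctr Ka Kb θ z) :
    ∃ s ∈ ctr Ka Kb θ z, s ≤ m ∧
      area Ka (z + s • e0) * area (flp '' Kb) (flp z + (-rr θ s) • e0) ≤
        area Kb (z + rr θ s • e0) * area (flp '' Ka) (flp z + (-s) • e0) := by
  set S := ctr Ka Kb θ z
  have hk : 0 < (1 - θ) / θ := div_pos (by linarith) h0
  have hrr : ∀ s t, rr θ s - rr θ t = (1 - θ) / θ * (t - s) := fun s t => by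
    simp only [rr]; ring
  have hbdd : BddBelow S := by
    obtain ⟨R, hR⟩ := hKa.isBounded.exists_norm_le
    refine ⟨-R - z 0, fun s hs => ?_⟩
    have h := (norm_le_pi_norm _ 0).trans (hR _ (interior_subset hs.1))
    rw [Real.norm_eq_abs, abs_le] at h
    simp [e0] at h
    linarith
  set lo := sInf S
  have hlo : lo ∉ S := by
    intro h
    obtain ⟨l, u, ⟨hl, hu⟩, hsub⟩ :=
      mem_nhds_iff_exists_Ioo_subset.1 ((isOpen_ctr Ka Kb θ z).mem_nhds h)
    obtain ⟨x, hx1, hx2⟩ := exists_between hl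
    exact absurd (csInf_le hbdd (hsub ⟨hx1, hx2.trans hu⟩)) (not_le.2 hx2)
  have hlm : lo < m := lt_of_le_of_ne (csInf_le hbdd hm) fun e => hlo (e ▸ hm)
  have hin : ∀ s, lo < s → s ≤ m → s ∈ S := fun s h1' h2 => by
    obtain ⟨x, hx, hxs⟩ := exists_lt_of_csInf_lt ⟨m, hm⟩ h1'
    exact (ordConnected_ctr ha hb θ z).out hx hm ⟨hxs.le, h2⟩
  have hfa : ∀ {s}, s ∈ S → flp z + (-s) • e0 ∈ interior (flp '' Ka) := fun {s} hs => by
    rw [← flp_shift]
    exact flp_interior.2 hs.1
  have hfb : ∀ {s}, s ∈ S → flp z + (-rr θ s) • e0 ∈ interior (flp '' Kb) := fun {s} hs => by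
    rw [← flp_shift]
    exact flp_interior.2 hs.2
  have mono : ∀ {s}, s ∈ S → s ≤ m →
      area Ka (z + s • e0) ≤ area Ka (z + m • e0) ∧
      area (flp '' Kb) (flp z + (-rr θ s) • e0) ≤ area (flp '' Kb) (flp z + (-rr θ m) • e0) ∧
      area Kb (z + rr θ m • e0) ≤ area Kb (z + rr θ s • e0) ∧
      area (flp '' Ka) (flp z + (-m) • e0) ≤ area (flp '' Ka) (flp z + (-s) • e0) := by
    intro s hs hsm
    have h2 : rr θ m ≤ rr θ s := by
      have := hrr s m
      have := mul_nonneg hk.le (sub_nonneg.2 hsm)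
      linarith
    exact ⟨area_mono hKa hs.1 hm.1 hsm,
      area_mono (flp_compact hKb) (hfb hs) (hfb hm) (neg_le_neg h2),
      area_mono hKb hm.2 hs.2 h2, area_mono (flp_compact hKa) (hfa hm) (hfa hs) (neg_le_neg hsm)⟩
  have pA := area_pos hKa hm.1
  have pB := area_pos (flp_compact hKb) (hfb hm)
  have pC := area_pos hKb hm.2
  have pD := area_pos (flp_compact hKa) (hfa hm)
  by_cases hcase : z + lo • e0 ∈ interior Ka
  · have hb' : z + rr θ lo • e0 ∉ interior Kb := fun h => hlo ⟨hcase, h⟩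
    obtain ⟨δ, hδ, hbl⟩ := area_blow (flp_compact hKb) (flp_convex hb) (z := flp z)
      (lo := -rr θ lo) (m := -rr θ m) (hfb hm)
      (by rwa [← flp_shift, flp_interior])
      (by
        have := hrr lo m
        have := mul_pos hk (sub_pos.2 hlm)
        linarith)
      (area Ka (z + m • e0) * area (flp '' Kb) (flp z + (-rr θ m) • e0) /
        area (flp '' Ka) (flp z + (-m) • e0))
    set s := lo + min (m - lo) (δ / ((1 - θ) / θ) / 2)
    have hs0 : lo < s := lt_add_of_pos_right _ (lt_min (sub_pos.2 hlm) (by positivity))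
    have hsm : s ≤ m := by
      have := min_le_left (m - lo) (δ / ((1 - θ) / θ) / 2)
      simp only [s]
      linarith
    have hs := hin s hs0 hsm
    have hlt : -rr θ s < -rr θ lo + δ := by
      have := hrr lo s
      have h2 : (1 - θ) / θ * (s - lo) ≤ δ / 2 := by
        calc (1 - θ) / θ * (s - lo) ≤ (1 - θ) / θ * (δ / ((1 - θ) / θ) / 2) :=
              mul_le_mul_of_nonneg_left (by simp [s]) hk.le
          _ = δ / 2 := by rw [← mul_div_assoc, mul_div_cancel₀ _ hk.ne']
      linarith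
    have h4 := hbl (-rr θ s) (by
      have := hrr lo s
      have := mul_pos hk (sub_pos.2 hs0)
      linarith) hlt (hfb hs)
    rw [flp_image_flp, flp_shift, flp_flp, neg_neg, div_le_iff₀ pD] at h4
    obtain ⟨m1, m2, -, m4⟩ := mono hs hsm
    refine ⟨s, hs, hsm, ?_⟩
    calc _ ≤ area Ka (z + m • e0) * area (flp '' Kb) (flp z + (-rr θ m) • e0) :=
          mul_le_mul m1 m2 (area_pos (flp_compact hKb) (hfb hs)).le pA.le
      _ ≤ area Kb (z + rr θ s • e0) * area (flp '' Ka) (flp z + (-m) • e0) := h4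
      _ ≤ _ := mul_le_mul_of_nonneg_left m4 (area_pos hKb hs.2).le
  · obtain ⟨δ, hδ, hbl⟩ := area_blow hKa ha hm.1 hcase hlm
      (area Ka (z + m • e0) * area (flp '' Kb) (flp z + (-rr θ m) • e0) /
        area Kb (z + rr θ m • e0))
    set s := lo + min (m - lo) (δ / 2)
    have hs0 : lo < s := lt_add_of_pos_right _ (lt_min (sub_pos.2 hlm) (by positivity))
    have hsm : s ≤ m := by
      have := min_le_left (m - lo) (δ / 2)
      simp only [s]
      linarith
    have hs := hin s hs0 hsm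
    have h4 := hbl s hs0 (by
      have := min_le_right (m - lo) (δ / 2)
      simp only [s]
      linarith) hs.1
    rw [flp_shift, div_le_iff₀ pC] at h4
    obtain ⟨m1, m2, m3, -⟩ := mono hs hsm
    refine ⟨s, hs, hsm, ?_⟩
    calc _ ≤ area Ka (z + m • e0) * area (flp '' Kb) (flp z + (-rr θ m) • e0) :=
          mul_le_mul m1 m2 (area_pos (flp_compact hKb) (hfb hs)).le pA.le
      _ ≤ area (flp '' Ka) (flp z + (-s) • e0) * area Kb (z + rr θ m • e0) := h4
      _ ≤ area (flp '' Ka) (flp z + (-s) • e0) * area Kb (z + rr θ s • e0) :=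
          mul_le_mul_of_nonneg_left m3 (area_pos (flp_compact hKa) (hfa hs)).le
      _ = _ := mul_comm _ _

/-- The halves are harmonically concave. -/
theorem area_concave {Ka K Kb : Set E3} (hKa : IsCompact Ka) (hKb : IsCompact Kb) (hK : IsCompact K)
    {θ : ℝ} (h0 : 0 < θ) (h1 : θ < 1)
    (hp : ∀ p ∈ K, ∃ s r : ℝ, p + s • e0 ∈ Ka ∧ p + r • e0 ∈ Kb ∧ (1 - θ) * s + θ * r = 0)
    {z : E3} (hz : z ∈ interior K) {sa sb : ℝ} (hsab : (1 - θ) * sa + θ * sb = 0)
    (hza : z + sa • e0 ∈ interior Ka) (hzb : z + sb • e0 ∈ interior Kb) :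
    1 / area K z ≤
      (1 - θ) * (1 / area Ka (z + sa • e0)) + θ * (1 / area Kb (z + sb • e0)) := by
  have h := bbl_plane h0 h1 (good_hgt hKa hza) (good_hgt hKb hzb) (good_hgt hK hz) fun W V => by
    obtain ⟨p, hpK, he⟩ := exists_hgt hK ⟨z, interior_subset hz⟩ z ((1 - θ) • W + θ • V)
    obtain ⟨s, r, hs, hr, hsr⟩ := hp p hpK
    have a1 := mul_le_mul_of_nonneg_left (le_hgt hKa hs (z + sa • e0) W) (sub_nonneg.2 h1.le)
    have a2 := mul_le_mul_of_nonneg_left (le_hgt hKb hr (z + sb • e0) V) h0.le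
    rw [pr_shift, pr_shift] at a1 a2
    rw [he]
    simp [pr] at a1 a2 ⊢
    linarith
  simp only [area, one_div, mul_inv, inv_inv] at h ⊢
  linarith

/-- Piece A. -/
theorem polarStmt : PolarStmt := by
  intro Ka K Kb hKa ha hKb hb hK θ h0 h1 hp hia hib z hz
  obtain ⟨m, hm⟩ := exists_ctr ha hb h0 hp hia hib hz
  obtain ⟨s₁, hs₁, hs₁m, hle₁⟩ := exists_le hKa ha hKb hb h0 h1 hm
  obtain ⟨s', hs', hs'm, hle'⟩ := exists_le (flp_compact hKa) (flp_convex ha) (flp_compact hKb)
    (flp_convex hb) h0 h1 ((ctr_flp Ka Kb θ z (-m)).2 (by rwa [neg_neg]))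
  have hs₂ : -s' ∈ ctr Ka Kb θ z := (ctr_flp Ka Kb θ z s').1 hs'
  rw [flp_image_flp, flp_image_flp, flp_flp, ← rr_neg] at hle'
  have hI : ∀ x ∈ Icc s₁ (-s'), x ∈ ctr Ka Kb θ z := fun x hx =>
    (ordConnected_ctr ha hb θ z).out hs₁ hs₂ hx
  have hr : ∀ x ∈ Icc s₁ (-s'), rr θ x ∈ Icc (rr θ (-s')) (rr θ s₁) := fun x hx => by
    constructor
    · have := mul_nonneg (div_nonneg (sub_nonneg.2 h1.le) h0.le) (sub_nonneg.2 hx.2)
      simp only [rr] at *
      ring_nf at *
      linarith
    · have := mul_nonneg (div_nonneg (sub_nonneg.2 h1.le) h0.le) (sub_nonneg.2 hx.1)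
      simp only [rr] at *
      ring_nf at *
      linarith
  have hrc : Continuous (rr θ) := by
    show Continuous fun s => -(1 - θ) * s / θ
    fun_prop
  have hrI : ∀ y ∈ Icc (rr θ (-s')) (rr θ s₁), z + y • e0 ∈ interior Kb := by
    intro y hy
    obtain ⟨x, hx, rfl⟩ :=
      intermediate_value_Icc' (by linarith : s₁ ≤ -s') hrc.continuousOn hy
    exact (hI x hx).2
  have hfb : ∀ y ∈ Icc (-rr θ s₁) (-rr θ (-s')), flp z + y • e0 ∈ interior (flp '' Kb) := by
    intro y hy
    have := flp_interior.2 (hrI (-y) ⟨by linarith [hy.2], by linarith [hy.1]⟩)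
    rwa [flp_shift, neg_neg] at this
  have hfa : ∀ y ∈ Icc s' (-s₁), flp z + y • e0 ∈ interior (flp '' Ka) := by
    intro y hy
    have := flp_interior.2 (hI (-y) ⟨by linarith [hy.2], by linarith [hy.1]⟩).1
    rwa [flp_shift, neg_neg] at this
  set D : ℝ → ℝ := fun x => area Ka (z + x • e0) * area (flp '' Kb) (flp z + (-rr θ x) • e0) -
    area Kb (z + rr θ x • e0) * area (flp '' Ka) (flp z + (-x) • e0)
  have hD : ContinuousOn D (Icc s₁ (-s')) :=
    ((area_continuousOn hKa fun x hx => (hI x hx).1).mul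
      ((area_continuousOn (flp_compact hKb) hfb).comp hrc.neg.continuousOn fun x hx =>
        ⟨neg_le_neg (hr x hx).2, neg_le_neg (hr x hx).1⟩)).sub
    (((area_continuousOn hKb hrI).comp hrc.continuousOn fun x hx => hr x hx).mul
      ((area_continuousOn (flp_compact hKa) hfa).comp continuous_neg.continuousOn fun x hx =>
        ⟨by linarith [hx.2], by linarith [hx.1]⟩))
  obtain ⟨x, hx, hD0⟩ := intermediate_value_Icc (by linarith : s₁ ≤ -s') hD
    (show (0 : ℝ) ∈ Icc (D s₁) (D (-s')) from ⟨sub_nonpos.2 hle₁, by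
      simp only [D, rr_neg, neg_neg] at hle' ⊢
      linarith⟩)
  obtain ⟨hza, hzb⟩ := hI x hx
  refine ⟨_, hza, _, hzb, ?_⟩
  have hab : (1 - θ) * x + θ * rr θ x = 0 := by
    rw [rr]
    field_simp
    ring
  have c1 := area_concave hKa hKb hK h0 h1 hp hz hab hza hzb
  have c2 := area_concave (flp_compact hKa) (flp_compact hKb) (flp_compact hK) h0 h1
    (K := flp '' K) (z := flp z) (sa := -x) (sb := -rr θ x)
    (by
      rintro _ ⟨p, hpK, rfl⟩
      obtain ⟨s, r, hs, hr', hsr⟩ := hp p hpK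
      exact ⟨-s, -r, flp_shift p s ▸ mem_image_of_mem _ hs,
        flp_shift p r ▸ mem_image_of_mem _ hr', by linarith⟩)
    (flp_interior.2 hz) (by linarith)
    (by rw [← flp_shift]; exact flp_interior.2 hza)
    (by rw [← flp_shift]; exact flp_interior.2 hzb)
  rw [polVol_eq hK hz, polVol_eq hKa hza, polVol_eq hKb hzb, flp_shift, flp_shift]
  have pa := area_pos hKa hza
  have pb := area_pos hKb hzb
  have pa' := area_pos (flp_compact hKa) (show flp z + (-x) • e0 ∈ interior (flp '' Ka) by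
    rw [← flp_shift]; exact flp_interior.2 hza)
  have pb' := area_pos (flp_compact hKb) (show flp z + (-rr θ x) • e0 ∈ interior (flp '' Kb) by
    rw [← flp_shift]; exact flp_interior.2 hzb)
  have pc := area_pos hK hz
  have pc' := area_pos (flp_compact hK) (flp_interior.2 hz)
  simp only [D, sub_eq_zero] at hD0
  generalize area Ka (z + x • e0) = A at *
  generalize area (flp '' Ka) (flp z + (-x) • e0) = B at *
  generalize area Kb (z + rr θ x • e0) = A' at *
  generalize area (flp '' Kb) (flp z + (-rr θ x) • e0) = B' at *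
  generalize area K z = C at *
  generalize area (flp '' K) (flp z) = C' at *
  set X := (1 - θ) * (1 / B) + θ * (1 / B')
  have hX : 0 < X := add_pos (mul_pos (by linarith) (one_div_pos.2 pa')) (mul_pos h0
    (one_div_pos.2 pb'))
  have hk : (1 - θ) * (1 / A) + θ * (1 / A') = B / A * X := by
    have hA' : A' = A * B' / B := by rw [eq_div_iff pa'.ne', hD0]
    subst hA'
    simp only [X]
    field_simp
  rw [hk] at c1
  have d1 : A / B / X ≤ C := by
    have := one_div_le_one_div_of_le (by positivity) c1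
    rw [one_div_one_div] at this
    calc A / B / X = 1 / (B / A * X) := by field_simp
      _ ≤ C := this
  have d2 : 1 / X ≤ C' := by
    have := one_div_le_one_div_of_le (by positivity) c2
    rwa [one_div_one_div] at this
  have d3 : (A + B) / B / X ≤ C + C' := by
    calc (A + B) / B / X = A / B / X + 1 / X := by field_simp
      _ ≤ C + C' := add_le_add d1 d2
  have d4 := inv_anti₀ (by positivity) d3
  refine d4.trans (le_of_eq ?_)
  have hA' : A' = A * B' / B := by rw [eq_div_iff pa'.ne', hD0]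
  subst hA'
  simp only [X]
  field_simp

end Vale.Agent.P248.Three.Polar
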