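import Vale.Agent.P245.PL

/-!
P248, dimension three: the Borell-Brascamp-Lieb inequality in the plane for the negative third
powers of positive functions of linear growth, in two steps on the line.
-/

noncomputable section

open MeasureTheory Set Filter
open scoped ENNReal Topology

namespace Vale.Agent.P248.Three.Polar

/-- Functions of supremum one: the integrals are concave for the minimum. -/
theorem line_min {θ : ℝ} (h0 : 0 < θ) (h1 : θ < 1) {f g h : ℝ → ℝ} (hf : Measurable f)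
    (hg : Measurable g) (hf0 : ∀ x, 0 ≤ f x) (hg0 : ∀ x, 0 ≤ g x) (hh0 : ∀ x, 0 ≤ h x)
    (hf1 : ∀ x, f x ≤ 1) (hg1 : ∀ x, g x ≤ 1) (hh : Measurable h)
    (hfs : ∀ t < 1, ∃ x, t < f x) (hgs : ∀ t < 1, ∃ x, t < g x)
    (hfgh : ∀ x y, min (f x) (g y) ≤ h ((1 - θ) * x + θ * y)) :
    ENNReal.ofReal (1 - θ) * (∫⁻ x, ENNReal.ofReal (f x)) +
        ENNReal.ofReal θ * (∫⁻ x, ENNReal.ofReal (g x)) ≤ ∫⁻ x, ENNReal.ofReal (h x) := by
  rw [lintegral_eq_lintegral_meas_lt volume (Eventually.of_forall hf0) hf.aemeasurable,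
    lintegral_eq_lintegral_meas_lt volume (Eventually.of_forall hg0) hg.aemeasurable,
    lintegral_eq_lintegral_meas_lt volume (Eventually.of_forall hh0) hh.aemeasurable]
  have hm : ∀ u : ℝ → ℝ, Measurable fun t : ℝ => volume {x | t < u x} := fun u =>
    (show Antitone fun t : ℝ => volume {x | t < u x} from fun s t hst =>
      measure_mono fun x (hx : t < u x) => lt_of_le_of_lt hst hx).measurable
  rw [← lintegral_const_mul _ (hm f), ← lintegral_const_mul _ (hm g),
    ← lintegral_add_left ((hm f).const_mul _)]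
  refine lintegral_mono fun t => ?_
  by_cases ht : t < 1
  · exact P245.bm_measurable h0 h1 (measurableSet_lt measurable_const hf)
      (measurableSet_lt measurable_const hg) (hfs t ht) (hgs t ht)
      fun a ha b hb => lt_of_lt_of_le (lt_min ha hb) (hfgh a b)
  · have e1 : {x | t < f x} = ∅ :=
      eq_empty_iff_forall_notMem.2 fun x hx => ht (lt_of_lt_of_le hx (hf1 x))
    have e2 : {x | t < g x} = ∅ :=
      eq_empty_iff_forall_notMem.2 fun x hx => ht (lt_of_lt_of_le hx (hg1 x))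
    simp [e1, e2]

/-- One step on the line before the choice of the exponent. -/
theorem line_pow {θ : ℝ} (h0 : 0 < θ) (h1 : θ < 1) (q : ℕ) {F G H : ℝ → ℝ} (hF : Continuous F)
    (hG : Continuous G) (hH : Continuous H) {c : ℝ} (hc : 0 < c) (hFc : ∀ x, c ≤ F x)
    (hGc : ∀ x, c ≤ G x) (hHc : ∀ x, c ≤ H x)
    (iF : Integrable fun x => 1 / F x ^ q) (iG : Integrable fun x => 1 / G x ^ q)
    (iH : Integrable fun x => 1 / H x ^ q)
    (hle : ∀ x y, H ((1 - θ) * x + θ * y) ≤ (1 - θ) * F x + θ * G y) :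
    ∃ α β : ℝ, 0 < α ∧ 0 < β ∧
      (1 - θ) * α ^ q * (∫ x, 1 / F x ^ q) + θ * β ^ q * (∫ x, 1 / G x ^ q) ≤
        ((1 - θ) * α + θ * β) ^ q * ∫ x, 1 / H x ^ q := by
  have h1' : 0 < 1 - θ := by linarith
  set α := ⨅ x, F x
  set β := ⨅ x, G x
  have hbF : BddBelow (range F) := ⟨c, by rintro _ ⟨x, rfl⟩; exact hFc x⟩
  have hbG : BddBelow (range G) := ⟨c, by rintro _ ⟨x, rfl⟩; exact hGc x⟩
  have hα : 0 < α := lt_of_lt_of_le hc (le_ciInf hFc)
  have hβ : 0 < β := lt_of_lt_of_le hc (le_ciInf hGc)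
  set γ := (1 - θ) * α + θ * β
  have hγ : 0 < γ := by positivity
  have hFp : ∀ x, 0 < F x := fun x => lt_of_lt_of_le hc (hFc x)
  have hGp : ∀ x, 0 < G x := fun x => lt_of_lt_of_le hc (hGc x)
  have hHp : ∀ x, 0 < H x := fun x => lt_of_lt_of_le hc (hHc x)
  have sup1 : ∀ {P : ℝ → ℝ} {p : ℝ}, p = ⨅ x, P x → 0 < p → (∀ x, 0 < P x) →
      ∀ t < 1, ∃ x, t < (p / P x) ^ q := by
    intro P p hp hp0 hP t ht
    have hcon : Tendsto (fun r : ℝ => r ^ q) (𝓝[<] 1) (𝓝 1) := by
      have := ((continuous_pow q).tendsto (1 : ℝ)).mono_left (nhdsWithin_le_nhds (s := Iio 1))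
      simpa using this
    have e1 : ∀ᶠ r in 𝓝[<] (1 : ℝ), r < 1 := self_mem_nhdsWithin
    have e0 : ∀ᶠ r in 𝓝[<] (1 : ℝ), 0 < r :=
      eventually_nhdsWithin_of_eventually_nhds (lt_mem_nhds zero_lt_one)
    obtain ⟨r, hr, hr1, hr0⟩ := ((hcon.eventually (lt_mem_nhds ht)).and (e1.and e0)).exists
    have hr1' : r < 1 := hr1
    obtain ⟨x, hx⟩ : ∃ x, P x < p / r := by
      refine exists_lt_of_ciInf_lt ?_
      rw [← hp, lt_div_iff₀ hr0]
      calc p * r < p * 1 := mul_lt_mul_of_pos_left hr1' hp0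
        _ = p := mul_one p
    refine ⟨x, lt_of_lt_of_le hr (pow_le_pow_left₀ hr0.le ?_ q)⟩
    rw [le_div_iff₀ (hP x)]
    rw [lt_div_iff₀ hr0] at hx
    linarith [mul_comm r (P x)]
  have key := line_min h0 h1 (f := fun x => (α / F x) ^ q) (g := fun x => (β / G x) ^ q)
    (h := fun x => (γ / H x) ^ q)
    ((continuous_const.div hF fun x => (hFp x).ne').pow q).measurable
    ((continuous_const.div hG fun x => (hGp x).ne').pow q).measurable
    (fun x => pow_nonneg (div_nonneg hα.le (hFp x).le) q)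
    (fun x => pow_nonneg (div_nonneg hβ.le (hGp x).le) q)
    (fun x => pow_nonneg (div_nonneg hγ.le (hHp x).le) q)
    (fun x => pow_le_one₀ (div_nonneg hα.le (hFp x).le)
      ((div_le_one (hFp x)).2 (ciInf_le hbF x)))
    (fun x => pow_le_one₀ (div_nonneg hβ.le (hGp x).le)
      ((div_le_one (hGp x)).2 (ciInf_le hbG x)))
    ((continuous_const.div hH fun x => (hHp x).ne').pow q).measurable
    (sup1 rfl hα hFp) (sup1 rfl hβ hGp)
    (fun x y => by
      rcases le_total (α / F x) (β / G y) with h | h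
      · refine (min_le_left _ _).trans (pow_le_pow_left₀ (div_nonneg hα.le (hFp x).le) ?_ q)
        rw [div_le_div_iff₀ (hFp x) (hHp _)]
        rw [div_le_div_iff₀ (hFp x) (hGp y)] at h
        calc α * H ((1 - θ) * x + θ * y) ≤ α * ((1 - θ) * F x + θ * G y) :=
              mul_le_mul_of_nonneg_left (hle x y) hα.le
          _ = (1 - θ) * α * F x + θ * (α * G y) := by ring
          _ ≤ (1 - θ) * α * F x + θ * (β * F x) := by
              linarith [mul_le_mul_of_nonneg_left h h0.le]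
          _ = γ * F x := by simp only [γ]; ring
      · refine (min_le_right _ _).trans (pow_le_pow_left₀ (div_nonneg hβ.le (hGp y).le) ?_ q)
        rw [div_le_div_iff₀ (hGp y) (hHp _)]
        rw [div_le_div_iff₀ (hGp y) (hFp x)] at h
        calc β * H ((1 - θ) * x + θ * y) ≤ β * ((1 - θ) * F x + θ * G y) :=
              mul_le_mul_of_nonneg_left (hle x y) hβ.le
          _ = (1 - θ) * (β * F x) + θ * β * G y := by ring
          _ ≤ (1 - θ) * (α * G y) + θ * β * G y := by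
              linarith [mul_le_mul_of_nonneg_left h h1'.le]
          _ = γ * G y := by simp only [γ]; ring)
  have conv : ∀ {P : ℝ → ℝ} (p : ℝ), 0 < p → (∀ x, 0 < P x) →
      Integrable (fun x => 1 / P x ^ q) →
      ∫⁻ x, ENNReal.ofReal ((p / P x) ^ q) = ENNReal.ofReal (p ^ q * ∫ x, 1 / P x ^ q) := by
    intro P p hp hP iP
    rw [← integral_const_mul, ofReal_integral_eq_lintegral_ofReal (iP.const_mul _)
      (Eventually.of_forall fun x => mul_nonneg (pow_nonneg hp.le q)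
        (one_div_nonneg.2 (pow_nonneg (hP x).le q)))]
    exact lintegral_congr fun x => by rw [div_pow, mul_one_div]
  rw [conv α hα hFp iF, conv β hβ hGp iG, conv γ hγ hHp iH] at key
  have hI : ∀ {P : ℝ → ℝ}, (∀ x, 0 < P x) → 0 ≤ ∫ x, 1 / P x ^ q := fun hP =>
    integral_nonneg fun x => one_div_nonneg.2 (pow_nonneg (hP x).le q)
  have n1 := mul_nonneg (pow_nonneg hα.le q) (hI hFp)
  have n2 := mul_nonneg (pow_nonneg hβ.le q) (hI hGp)
  rw [← ENNReal.ofReal_mul h1'.le, ← ENNReal.ofReal_mul h0.le,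
    ← ENNReal.ofReal_add (mul_nonneg h1'.le n1) (mul_nonneg h0.le n2),
    ENNReal.ofReal_le_ofReal_iff (mul_nonneg (pow_nonneg hγ.le q) (hI hHp))] at key
  exact ⟨α, β, hα, hβ, by rw [mul_assoc, mul_assoc]; exact key⟩

theorem cube_tangent {a u k : ℝ} (ha : 0 ≤ a) (hu : 0 < u) (hk : 0 ≤ k) :
    3 * a * k ^ 2 - 2 * u * k ^ 3 ≤ a ^ 3 / u ^ 2 := by
  rw [le_div_iff₀ (by positivity)]
  have : 0 ≤ (a - k * u) ^ 2 * (a + 2 * k * u) :=
    mul_nonneg (sq_nonneg _) (by positivity)
  linear_combination this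

/-- From the third powers to the second. -/
theorem alg_three {θ α β u v Ih : ℝ} (h0 : 0 < θ) (h1 : θ < 1) (hα : 0 < α) (hβ : 0 < β)
    (hu : 0 < u) (hv : 0 < v)
    (h : (1 - θ) * α ^ 3 * (1 / u ^ 2) + θ * β ^ 3 * (1 / v ^ 2) ≤
      ((1 - θ) * α + θ * β) ^ 3 * Ih) :
    1 / ((1 - θ) * u + θ * v) ^ 2 ≤ Ih := by
  have h1' : 0 < 1 - θ := by linarith
  set g := (1 - θ) * α + θ * β
  set w := (1 - θ) * u + θ * v
  have hg : 0 < g := by positivity
  have hw : 0 < w := by positivity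
  set k := g / w
  have hk : 0 ≤ k := by positivity
  have ta := mul_le_mul_of_nonneg_left (cube_tangent hα.le hu hk) h1'.le
  have tb := mul_le_mul_of_nonneg_left (cube_tangent hβ.le hv hk) h0.le
  have e : g ^ 3 / w ^ 2 = 3 * g * k ^ 2 - 2 * w * k ^ 3 := by
    simp only [k]
    field_simp
    ring
  have : g ^ 3 * (1 / w ^ 2) ≤ g ^ 3 * Ih := by
    rw [mul_one_div, e]
    simp only [mul_one_div, mul_div_assoc] at h
    simp only [g, w] at *
    linarith
  exact le_of_mul_le_mul_left this (by positivity)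

/-- From the second powers to the harmonic mean. -/
theorem alg_two {θ α β A B Ih : ℝ} (h0 : 0 < θ) (h1 : θ < 1) (hα : 0 < α) (hβ : 0 < β)
    (hA : 0 < A) (hB : 0 < B)
    (h : (1 - θ) * α ^ 2 * A + θ * β ^ 2 * B ≤ ((1 - θ) * α + θ * β) ^ 2 * Ih) :
    1 / Ih ≤ (1 - θ) * (1 / A) + θ * (1 / B) := by
  have h1' : 0 < 1 - θ := by linarith
  set g := (1 - θ) * α + θ * β
  set w := (1 - θ) * (1 / A) + θ * (1 / B)
  have hg : 0 < g := by positivity
  have hw : 0 < w := by positivity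
  have key : g ^ 2 ≤ ((1 - θ) * α ^ 2 * A + θ * β ^ 2 * B) * w := by
    have : 0 ≤ (1 - θ) * θ * (α * A - β * B) ^ 2 / (A * B) := by positivity
    have e : ((1 - θ) * α ^ 2 * A + θ * β ^ 2 * B) * w - g ^ 2 =
        (1 - θ) * θ * (α * A - β * B) ^ 2 / (A * B) := by
      simp only [w, g]
      field_simp
      ring
    linarith
  have h2 : g ^ 2 * 1 ≤ g ^ 2 * (Ih * w) := by
    rw [mul_one, ← mul_assoc]
    exact key.trans (mul_le_mul_of_nonneg_right h hw.le)
  have h3 := le_of_mul_le_mul_left h2 (by positivity)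
  have hIh : 0 < Ih := by
    by_contra hc
    have := mul_nonpos_of_nonpos_of_nonneg (not_lt.1 hc) hw.le
    linarith
  rw [div_le_iff₀ hIh]
  linarith [mul_comm Ih w]

/-- Continuous functions on the plane of linear growth from below. -/
def Good (H : ℝ × ℝ → ℝ) : Prop :=
  Continuous H ∧ ∃ c > 0, ∀ W, c * (1 + ‖W‖) ≤ H W

theorem Good.pos {H : ℝ × ℝ → ℝ} (h : Good H) (W : ℝ × ℝ) : 0 < H W := by
  obtain ⟨-, c, hc, hW⟩ := h
  exact lt_of_lt_of_le (by positivity) (hW W)

theorem Good.continuous_inv {H : ℝ × ℝ → ℝ} (h : Good H) :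
    Continuous fun W => 1 / H W ^ 3 :=
  continuous_const.div (h.1.pow 3) fun W => (pow_pos (h.pos W) 3).ne'

theorem Good.integrable {H : ℝ × ℝ → ℝ} (h : Good H) : Integrable fun W => 1 / H W ^ 3 := by
  obtain ⟨c, hc, hW⟩ := h.2
  refine ((integrable_one_add_norm (E := ℝ × ℝ) (μ := volume) (r := 3)
    (by norm_num [Module.finrank_prod])).const_mul (1 / c ^ 3)).mono'
      h.continuous_inv.aestronglyMeasurable (Eventually.of_forall fun W => ?_)
  have hp := h.pos W
  rw [Real.norm_of_nonneg (by positivity), Real.rpow_neg (by positivity),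
    show (3 : ℝ) = (3 : ℕ) by norm_num, Real.rpow_natCast, one_div, one_div, ← mul_inv, ← mul_pow]
  exact inv_anti₀ (by positivity) (pow_le_pow_left₀ (by positivity) (hW W) 3)

theorem Good.integral_pos {H : ℝ × ℝ → ℝ} (h : Good H) : 0 < ∫ W, 1 / H W ^ 3 := by
  have hs : Function.support (fun W => 1 / H W ^ 3) = univ :=
    eq_univ_of_forall fun W => (one_div_pos.2 (pow_pos (h.pos W) 3)).ne'
  rw [integral_pos_iff_support_of_nonneg (fun W => (one_div_pos.2 (pow_pos (h.pos W) 3)).le)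
    h.integrable, hs]
  exact Measure.measure_univ_pos.2 (NeZero.ne _)

theorem Good.slice {H : ℝ × ℝ → ℝ} (h : Good H) (a : ℝ) :
    Integrable (fun b => 1 / H (a, b) ^ 3) ∧ 0 < ∫ b, 1 / H (a, b) ^ 3 := by
  obtain ⟨c, hc, hW⟩ := h.2
  have hcont : Continuous fun b => 1 / H (a, b) ^ 3 :=
    h.continuous_inv.comp (Continuous.prodMk_right a)
  have hpos : ∀ b, 0 < 1 / H (a, b) ^ 3 := fun b => one_div_pos.2 (pow_pos (h.pos _) 3)
  have hi : Integrable fun b => 1 / H (a, b) ^ 3 := by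
    refine ((integrable_one_add_norm (E := ℝ) (μ := volume) (r := 3)
      (by norm_num)).const_mul (1 / c ^ 3)).mono' hcont.aestronglyMeasurable
        (Eventually.of_forall fun b => ?_)
    rw [Real.norm_of_nonneg (hpos b).le, Real.rpow_neg (by positivity),
      show (3 : ℝ) = (3 : ℕ) by norm_num, Real.rpow_natCast, one_div, one_div, ← mul_inv,
      ← mul_pow]
    refine inv_anti₀ (by positivity) (pow_le_pow_left₀ (by positivity) (le_trans ?_ (hW _)) 3)
    have : ‖b‖ ≤ ‖(a, b)‖ := norm_snd_le (a, b)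
    gcongr
  refine ⟨hi, ?_⟩
  rw [integral_pos_iff_support_of_nonneg (fun b => (hpos b).le) hi,
    show Function.support (fun b => 1 / H (a, b) ^ 3) = univ from
      eq_univ_of_forall fun b => (hpos b).ne']
  exact Measure.measure_univ_pos.2 (NeZero.ne _)

/-- The first integration. -/
def root (H : ℝ × ℝ → ℝ) (a : ℝ) : ℝ := 1 / Real.sqrt (∫ b, 1 / H (a, b) ^ 3)

theorem Good.root_pos {H : ℝ × ℝ → ℝ} (h : Good H) (a : ℝ) : 0 < root H a :=
  one_div_pos.2 (Real.sqrt_pos.2 (h.slice a).2)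

theorem Good.root_sq {H : ℝ × ℝ → ℝ} (h : Good H) (a : ℝ) :
    1 / root H a ^ 2 = ∫ b, 1 / H (a, b) ^ 3 := by
  rw [root, div_pow, one_pow, one_div_one_div, Real.sq_sqrt (h.slice a).2.le]

theorem Good.root_facts {H : ℝ × ℝ → ℝ} (h : Good H) :
    Continuous (root H) ∧ ∃ c > 0, ∀ a, c ≤ root H a := by
  obtain ⟨c, hc, hW⟩ := h.2
  set bd := fun b : ℝ => 1 / c ^ 3 * (1 + ‖b‖) ^ (-(3 : ℝ))
  have hbd : Integrable bd :=
    (integrable_one_add_norm (E := ℝ) (μ := volume) (r := 3) (by norm_num)).const_mul _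
  have hle : ∀ a b, 1 / H (a, b) ^ 3 ≤ bd b := fun a b => by
    simp only [bd]
    rw [Real.rpow_neg (by positivity), show (3 : ℝ) = (3 : ℕ) by norm_num, Real.rpow_natCast,
      one_div, one_div, ← mul_inv, ← mul_pow]
    refine inv_anti₀ (by positivity) (pow_le_pow_left₀ (by positivity) (le_trans ?_ (hW _)) 3)
    have : ‖b‖ ≤ ‖(a, b)‖ := norm_snd_le (a, b)
    gcongr
  have hcont : Continuous fun a => ∫ b, 1 / H (a, b) ^ 3 := by
    refine continuous_of_dominated (fun a => (h.slice a).1.aestronglyMeasurable) (bound := bd)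
      (fun a => Eventually.of_forall fun b => ?_) hbd
      (Eventually.of_forall fun b => h.continuous_inv.comp (Continuous.prodMk_left b))
    rw [Real.norm_of_nonneg (one_div_pos.2 (pow_pos (h.pos _) 3)).le]
    exact hle a b
  refine ⟨continuous_const.div (Real.continuous_sqrt.comp hcont)
    fun a => (Real.sqrt_pos.2 (h.slice a).2).ne', ?_⟩
  have hB : 0 < ∫ b, bd b :=
    lt_of_lt_of_le (h.slice 0).2 (integral_mono (h.slice 0).1 hbd (hle 0))
  refine ⟨1 / Real.sqrt (∫ b, bd b), one_div_pos.2 (Real.sqrt_pos.2 hB), fun a => ?_⟩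
  exact one_div_le_one_div_of_le (Real.sqrt_pos.2 (h.slice a).2)
    (Real.sqrt_le_sqrt (integral_mono (h.slice a).1 hbd (hle a)))

/-- Borell-Brascamp-Lieb in the plane for negative third powers. -/
theorem bbl_plane {θ : ℝ} (h0 : 0 < θ) (h1 : θ < 1) {F G H : ℝ × ℝ → ℝ} (hF : Good F)
    (hG : Good G) (hH : Good H)
    (hle : ∀ W V, H ((1 - θ) • W + θ • V) ≤ (1 - θ) * F W + θ * G V) :
    1 / ∫ W, 1 / H W ^ 3 ≤ (1 - θ) * (1 / ∫ W, 1 / F W ^ 3) + θ * (1 / ∫ W, 1 / G W ^ 3) := by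
  have hroot : ∀ a b, root H ((1 - θ) * a + θ * b) ≤ (1 - θ) * root F a + θ * root G b := by
    intro a b
    obtain ⟨cF, hcF, hFc⟩ := hF.2
    obtain ⟨cG, hcG, hGc⟩ := hG.2
    obtain ⟨cH, hcH, hHc⟩ := hH.2
    set c := min cF (min cG cH)
    have hc : 0 < c := lt_min hcF (lt_min hcG hcH)
    have low : ∀ {c' x : ℝ} (W : ℝ × ℝ), c ≤ c' → 0 < c' → c' * (1 + ‖W‖) ≤ x → c ≤ x :=
      fun W hcc hc' hx => hcc.trans (le_trans (le_mul_of_one_le_right hc'.le
        (le_add_of_nonneg_right (norm_nonneg W))) hx)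
    obtain ⟨α, β, hα, hβ, h⟩ := line_pow h0 h1 3
      (F := fun y => F (a, y)) (G := fun y => G (b, y))
      (H := fun y => H ((1 - θ) * a + θ * b, y))
      (hF.1.comp (Continuous.prodMk_right _)) (hG.1.comp (Continuous.prodMk_right _))
      (hH.1.comp (Continuous.prodMk_right _)) hc
      (fun y => low (a, y) (min_le_left _ _) hcF (hFc _))
      (fun y => low (b, y) ((min_le_right _ _).trans (min_le_left _ _)) hcG (hGc _))
      (fun y => low (_, y) ((min_le_right _ _).trans (min_le_right _ _)) hcH (hHc _))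
      (hF.slice a).1 (hG.slice b).1 (hH.slice _).1
      (fun x y => by simpa using hle (a, x) (b, y))
    rw [← hF.root_sq, ← hG.root_sq] at h
    have h2 := alg_three h0 h1 hα hβ (hF.root_pos a) (hG.root_pos b) h
    have hp : 0 < (1 - θ) * root F a + θ * root G b :=
      add_pos (mul_pos (by linarith) (hF.root_pos a)) (mul_pos h0 (hG.root_pos b))
    rw [← hH.root_sq] at h2
    have h3 := (one_div_le_one_div (by positivity) (pow_pos (hH.root_pos _) 2)).1 h2
    exact (pow_le_pow_iff_left₀ (hH.root_pos _).le hp.le two_ne_zero).1 h3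
  obtain ⟨cF, hcF, hFc⟩ := hF.root_facts.2
  obtain ⟨cG, hcG, hGc⟩ := hG.root_facts.2
  obtain ⟨cH, hcH, hHc⟩ := hH.root_facts.2
  have tot : ∀ {P : ℝ × ℝ → ℝ}, Good P →
      Integrable (fun a => 1 / root P a ^ 2) ∧ ∫ a, 1 / root P a ^ 2 = ∫ W, 1 / P W ^ 3 := by
    intro P hP
    simp only [hP.root_sq]
    have hi := hP.integrable
    rw [Measure.volume_eq_prod] at hi ⊢
    exact ⟨hi.integral_prod_left, (integral_prod _ hi).symm⟩
  obtain ⟨α, β, hα, hβ, h⟩ := line_pow h0 h1 2 hF.root_facts.1 hG.root_facts.1 hH.root_facts.1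
    (c := min cF (min cG cH)) (lt_min hcF (lt_min hcG hcH))
    (fun a => (min_le_left _ _).trans (hFc a))
    (fun a => ((min_le_right _ _).trans (min_le_left _ _)).trans (hGc a))
    (fun a => ((min_le_right _ _).trans (min_le_right _ _)).trans (hHc a))
    (tot hF).1 (tot hG).1 (tot hH).1 hroot
  rw [(tot hF).2, (tot hG).2, (tot hH).2] at h
  exact alg_two h0 h1 hα hβ hF.integral_pos hG.integral_pos h

end Vale.Agent.P248.Three.Polar
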