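import Vale.Agent.P248.Three.Defs
import Vale.Agent.P248.Three.PolarBBL

/-!
P248, dimension three: the two halves of the volume of a polar as integrals over the plane, their
monotonicity and continuity along a line, and their growth at the boundary.
-/

noncomputable section

open MeasureTheory Set Filter
open scoped ENNReal Topology
open Vale.Agent.P248.Ellipsoids (polarSet)

namespace Vale.Agent.P248.Three.Polar

/-- The functional with coefficients `(1, W)`. -/
def pr (x : E3) (W : ℝ × ℝ) : ℝ := x 0 + W.1 * x 1 + W.2 * x 2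

/-- The support function of `K - z` at `(1, W)`. -/
def hgt (K : Set E3) (z : E3) (W : ℝ × ℝ) : ℝ := sSup ((fun x => pr x W) '' K) - pr z W

/-- The volume of the part of the polar about `z` with positive first coordinate. -/
def area (K : Set E3) (z : E3) : ℝ := 1 / 3 * ∫ W, 1 / hgt K z W ^ 3

theorem e0_apply : e0 0 = 1 ∧ e0 1 = 0 ∧ e0 2 = 0 := by simp [e0]

theorem pr_shift (x : E3) (s : ℝ) (W : ℝ × ℝ) : pr (x + s • e0) W = pr x W + s := by
  simp [pr, e0_apply.1, e0_apply.2.1, e0_apply.2.2]
  ring

theorem continuous_pr : Continuous fun q : (ℝ × ℝ) × E3 => pr q.2 q.1 := by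
  simp only [pr]
  fun_prop

theorem le_hgt {K : Set E3} (hK : IsCompact K) {x : E3} (hx : x ∈ K) (z : E3) (W : ℝ × ℝ) :
    pr x W - pr z W ≤ hgt K z W :=
  sub_le_sub_right (le_csSup (hK.image (continuous_pr.comp (Continuous.prodMk_right W))).bddAbove
    (mem_image_of_mem _ hx)) _

theorem exists_hgt {K : Set E3} (hK : IsCompact K) (hne : K.Nonempty) (z : E3) (W : ℝ × ℝ) :
    ∃ x ∈ K, hgt K z W = pr x W - pr z W := by
  obtain ⟨x, hx, he⟩ :=
    (hK.image (continuous_pr.comp (Continuous.prodMk_right W))).sSup_mem (hne.image _)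
  exact ⟨x, hx, by rw [hgt]; exact congrArg (· - pr z W) he.symm⟩

theorem hgt_shift (K : Set E3) (z : E3) (s : ℝ) (W : ℝ × ℝ) :
    hgt K (z + s • e0) W = hgt K z W - s := by
  simp only [hgt, pr_shift]
  ring

theorem continuous_hgt {K : Set E3} (hK : IsCompact K) (z : E3) : Continuous (hgt K z) :=
  (hK.continuous_sSup (f := fun W x => pr x W) continuous_pr).sub
    (continuous_pr.comp (Continuous.prodMk_left z))

theorem good_hgt {K : Set E3} (hK : IsCompact K) {z : E3} (hz : z ∈ interior K) :
    Good (hgt K z) := by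
  refine ⟨continuous_hgt hK z, ?_⟩
  obtain ⟨ρ, hρ, hsub⟩ := Metric.nhds_basis_closedBall.mem_iff.1 (mem_interior_iff_mem_nhds.1 hz)
  refine ⟨ρ, hρ, fun W => ?_⟩
  set σ : ℝ → ℝ := fun t => if 0 ≤ t then 1 else -1
  have hσ : ∀ t, t * σ t = |t| := fun t => by
    simp only [σ]
    split_ifs with h
    · rw [mul_one, abs_of_nonneg h]
    · rw [mul_neg, mul_one, abs_of_neg (not_le.1 h)]
  have hσ1 : ∀ t, |σ t| = 1 := fun t => by simp only [σ]; split_ifs <;> simp
  set v : E3 := ![1, σ W.1, σ W.2]
  have hmem : z + ρ • v ∈ K := by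
    refine hsub ?_
    rw [mem_closedBall_iff_norm, add_sub_cancel_left, norm_smul, Real.norm_of_nonneg hρ.le]
    refine mul_le_of_le_one_right hρ.le ((pi_norm_le_iff_of_nonneg zero_le_one).2 fun i => ?_)
    fin_cases i <;> simp [v, hσ1]
  have hn : ‖W‖ ≤ |W.1| + |W.2| := by
    rw [Prod.norm_def]
    exact max_le (le_add_of_nonneg_right (abs_nonneg _)) (le_add_of_nonneg_left (abs_nonneg _))
  refine le_trans ?_ (le_hgt hK hmem z W)
  have e : pr (z + ρ • v) W - pr z W = ρ * (1 + (|W.1| + |W.2|)) := by
    rw [← hσ W.1, ← hσ W.2]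
    simp [pr, v]
    ring
  rw [e]
  exact mul_le_mul_of_nonneg_left (by linarith) hρ.le

/-- Reflection of the first coordinate. -/
def flp : E3 ≃L[ℝ] E3 :=
  LinearEquiv.toContinuousLinearEquiv
    { toFun := fun x i => if i = 0 then -x i else x i
      map_add' := fun x y => by funext i; by_cases h : i = 0 <;> simp [h]; ring
      map_smul' := fun c x => by funext i; by_cases h : i = 0 <;> simp [h]
      invFun := fun x i => if i = 0 then -x i else x i
      left_inv := fun x => by funext i; by_cases h : i = 0 <;> simp [h]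
      right_inv := fun x => by funext i; by_cases h : i = 0 <;> simp [h] }

theorem flp_apply (x : E3) (i : Fin 3) : flp x i = if i = 0 then -x i else x i := rfl

theorem flp_flp (x : E3) : flp (flp x) = x := by
  funext i
  by_cases h : i = 0 <;> simp [flp_apply, h]

theorem flp_shift (x : E3) (s : ℝ) : flp (x + s • e0) = flp x + (-s) • e0 := by
  funext i
  by_cases h : i = 0 <;> simp [flp_apply, h, e0]
  ring

theorem flp_image_flp (K : Set E3) : flp '' (flp '' K) = K := by
  simp [image_image, flp_flp]

theorem flp_interior {K : Set E3} {x : E3} :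
    flp x ∈ interior (flp '' K) ↔ x ∈ interior K := by
  rw [show interior (flp '' K) = flp '' interior K from (flp.toHomeomorph.image_interior K).symm]
  exact flp.injective.mem_set_image

theorem flp_compact {K : Set E3} (hK : IsCompact K) : IsCompact (flp '' K) :=
  hK.image flp.continuous

theorem flp_convex {K : Set E3} (hK : Convex ℝ K) : Convex ℝ (flp '' K) :=
  hK.linear_image (flp : E3 →L[ℝ] E3).toLinearMap

theorem measurePreserving_flp : MeasurePreserving (fun x : E3 => flp x) := by
  have h : MeasurePreserving (fun (x : E3) (i : Fin 3) =>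
      (if i = 0 then Neg.neg else id) (x i)) := by
    refine volume_preserving_pi (f := fun i : Fin 3 => if i = 0 then Neg.neg else id) fun i => ?_
    split_ifs
    · exact Measure.measurePreserving_neg _
    · exact MeasurePreserving.id _
  convert h using 1
  funext x i
  by_cases hi : i = 0 <;> simp [flp_apply, hi]

/-- The coordinates split as a height and a point of the plane. -/
def split3 (y : E3) : ℝ × (ℝ × ℝ) := (y 0, (y 1, y 2))

theorem measurePreserving_split3 : MeasurePreserving split3 := by
  have h := ((MeasurePreserving.id (volume : Measure ℝ)).prod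
    (volume_preserving_piFinTwo fun _ : Fin 2 => ℝ)).comp
    (volume_preserving_piFinSuccAbove (fun _ : Fin 3 => ℝ) 0)
  convert h using 1
  · funext y
    rfl
  · exact Measure.volume_eq_prod _ _

theorem plane_null : volume {y : E3 | y 0 = 0} = 0 := by
  have e : {y : E3 | y 0 = 0} = split3 ⁻¹' ({0} ×ˢ (univ : Set (ℝ × ℝ))) := by
    ext y
    simp [split3]
  rw [e, measurePreserving_split3.measure_preimage
    ((measurableSet_singleton _).prod MeasurableSet.univ).nullMeasurableSet,
    Measure.volume_eq_prod, Measure.prod_prod]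
  simp

theorem lintegral_sq {b : ℝ} (hb : 0 ≤ b) :
    ∫⁻ a in Ioc 0 b, ENNReal.ofReal (a ^ 2) = ENNReal.ofReal (b ^ 3 / 3) := by
  rw [← ofReal_integral_eq_lintegral_ofReal
    ((continuous_pow 2).integrableOn_Ioc (a := (0 : ℝ)) (b := b))
    (Eventually.of_forall fun a => sq_nonneg a), ← intervalIntegral.integral_of_le hb,
    integral_pow]
  norm_num

theorem polar_upper {K : Set E3} (hK : IsCompact K) {z : E3} (hz : z ∈ interior K) :
    volume (polarSet ((fun x => x - z) '' K) ∩ {y | 0 < y 0}) = ENNReal.ofReal (area K z) := by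
  have hg := good_hgt hK hz
  have hne : K.Nonempty := ⟨z, interior_subset hz⟩
  set h := hgt K z
  set S : Set (ℝ × (ℝ × ℝ)) := {p | 0 < p.1 ∧ p.1 * h (p.1⁻¹ • p.2) ≤ 1}
  have hS : MeasurableSet S :=
    (measurableSet_lt measurable_const measurable_fst).inter (measurableSet_le
      (measurable_fst.mul (hg.1.measurable.comp (measurable_fst.inv.smul measurable_snd)))
      measurable_const)
  have e : polarSet ((fun x => x - z) '' K) ∩ {y | 0 < y 0} = split3 ⁻¹' S := by
    ext y
    simp only [polarSet, mem_inter_iff, mem_ofPred_eq, mem_preimage, S, split3, forall_mem_image]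
    have key : 0 < y 0 → ∀ x : E3, ∑ i, y i * (x - z) i =
        y 0 * (pr x ((y 0)⁻¹ • (y 1, y 2)) - pr z ((y 0)⁻¹ • (y 1, y 2))) := fun h0 x => by
      simp [Fin.sum_univ_three, pr]
      field_simp
      ring
    constructor
    · rintro ⟨hy, h0⟩
      obtain ⟨x, hx, he⟩ := exists_hgt hK hne z ((y 0)⁻¹ • (y 1, y 2))
      refine ⟨h0, ?_⟩
      have := hy hx
      rwa [key h0 x, ← he] at this
    · rintro ⟨h0, hle⟩
      refine ⟨fun x hx => ?_, h0⟩
      rw [key h0 x]
      exact le_trans (mul_le_mul_of_nonneg_left (le_hgt hK hx z _) h0.le) hle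
  rw [e, measurePreserving_split3.measure_preimage hS.nullMeasurableSet, Measure.volume_eq_prod,
    Measure.prod_apply hS]
  set T : Set (ℝ × (ℝ × ℝ)) := {p | 0 < p.1 ∧ p.1 * h p.2 ≤ 1}
  have hT : MeasurableSet T := (measurableSet_lt measurable_const measurable_fst).inter
    (measurableSet_le (measurable_fst.mul (hg.1.measurable.comp measurable_snd)) measurable_const)
  have hslice : ∀ a : ℝ, (volume : Measure (ℝ × ℝ)) (Prod.mk a ⁻¹' S) =
      ∫⁻ W, T.indicator (fun p => ENNReal.ofReal (p.1 ^ 2)) (a, W) := by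
    intro a
    by_cases ha : 0 < a
    · have e1 : Prod.mk a ⁻¹' S = (fun Y : ℝ × ℝ => a⁻¹ • Y) ⁻¹' {W | a * h W ≤ 1} := by
        ext Y
        simp [S, ha]
      have e2 : (fun W => T.indicator (fun p => ENNReal.ofReal (p.1 ^ 2)) (a, W)) =
          {W | a * h W ≤ 1}.indicator fun _ => ENNReal.ofReal (a ^ 2) := by
        funext W
        by_cases hW : a * h W ≤ 1 <;> simp [T, Set.indicator, ha, hW]
      rw [e1, e2, Measure.addHaar_preimage_smul _ (inv_ne_zero ha.ne'),
        lintegral_indicator_const
          (measurableSet_le (hg.1.measurable.const_mul a) measurable_const)]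
      simp [Module.finrank_prod, abs_of_nonneg (sq_nonneg a)]
    · have e1 : Prod.mk a ⁻¹' S = ∅ := by
        ext Y
        simp [S, ha]
      simp [e1, T, Set.indicator, ha]
  have hcalc : ∫⁻ a, (volume : Measure (ℝ × ℝ)) (Prod.mk a ⁻¹' S) =
      ENNReal.ofReal (area K z) := by
    simp only [hslice]
    rw [lintegral_lintegral_swap (f := fun a W => T.indicator (fun p => ENNReal.ofReal (p.1 ^ 2))
      (a, W)) ((Measurable.indicator (by fun_prop) hT).aemeasurable)]
    have hW : ∀ W, (∫⁻ a, T.indicator (fun p => ENNReal.ofReal (p.1 ^ 2)) (a, W)) =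
        ENNReal.ofReal (1 / 3 * (1 / h W ^ 3)) := by
      intro W
      have hp := hg.pos W
      have e1 : (fun a => T.indicator (fun p => ENNReal.ofReal (p.1 ^ 2)) (a, W)) =
          (Ioc 0 (1 / h W)).indicator fun a => ENNReal.ofReal (a ^ 2) := by
        funext a
        simp only [T, Set.indicator, mem_ofPred_eq, mem_Ioc, le_div_iff₀ hp]
      rw [e1, lintegral_indicator measurableSet_Ioc, lintegral_sq (one_div_pos.2 hp).le, div_pow,
        one_pow]
      congr 1
      ring
    simp only [hW]
    rw [← ofReal_integral_eq_lintegral_ofReal (hg.integrable.const_mul _)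
      (Eventually.of_forall fun W => mul_nonneg (by norm_num)
        (one_div_nonneg.2 (pow_nonneg (hg.pos W).le 3))), integral_const_mul]
    rfl
  exact hcalc

theorem area_pos {K : Set E3} (hK : IsCompact K) {z : E3} (hz : z ∈ interior K) :
    0 < area K z :=
  mul_pos (by norm_num) (good_hgt hK hz).integral_pos

theorem polVol_eq {K : Set E3} (hK : IsCompact K) {z : E3} (hz : z ∈ interior K) :
    polVol K z = area K z + area (flp '' K) (flp z) := by
  set P := polarSet ((fun x => x - z) '' K)
  have hP : MeasurableSet P := by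
    refine IsClosed.measurableSet ?_
    simp only [P, polarSet, ofPred_forall]
    exact isClosed_iInter fun x => isClosed_iInter fun _ =>
      isClosed_le (by fun_prop) continuous_const
  have hm : MeasurableSet {y : E3 | 0 < y 0} :=
    measurableSet_lt measurable_const (measurable_pi_apply 0)
  have hneg : P ∩ {y | y 0 < 0} = (fun y => flp y) ⁻¹'
      (polarSet ((fun x => x - flp z) '' (flp '' K)) ∩ {y | 0 < y 0}) := by
    ext y
    simp only [P, polarSet, mem_inter_iff, mem_ofPred_eq, mem_preimage, forall_mem_image,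
      Fin.sum_univ_three, flp_apply, Pi.sub_apply]
    simp
    intro _
    constructor <;> intro h x hx <;> have := h hx <;> linarith
  have h1 := measure_inter_add_sdiff P hm (μ := volume)
  have h2 : volume (P \ {y | 0 < y 0}) = volume (P ∩ {y | y 0 < 0}) := by
    refine le_antisymm ?_ (measure_mono fun y hy =>
      ⟨hy.1, fun (h0 : 0 < y 0) => lt_asymm h0 hy.2⟩)
    refine (measure_mono (t := (P ∩ {y | y 0 < 0}) ∪ {y | y 0 = 0}) fun y hy => ?_).trans
      ((measure_union_le _ _).trans (by rw [plane_null, add_zero]))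
    rcases lt_or_eq_of_le ((not_lt (α := ℝ)).1 (show ¬ 0 < y 0 from hy.2)) with h | h
    · exact Or.inl ⟨hy.1, h⟩
    · exact Or.inr h
  have h3 : volume (P ∩ {y | y 0 < 0}) = ENNReal.ofReal (area (flp '' K) (flp z)) := by
    rw [hneg, ← polar_upper (flp_compact hK) (flp_interior.2 hz)]
    refine measurePreserving_flp.measure_preimage (MeasurableSet.nullMeasurableSet ?_)
    refine MeasurableSet.inter ?_ hm
    refine IsClosed.measurableSet ?_
    simp only [polarSet, ofPred_forall]
    exact isClosed_iInter fun x => isClosed_iInter fun _ =>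
      isClosed_le (by fun_prop) continuous_const
  rw [polVol, ← h1, polar_upper hK hz, h2, h3,
    ← ENNReal.ofReal_add (area_pos hK hz).le (area_pos (flp_compact hK) (flp_interior.2 hz)).le,
    ENNReal.toReal_ofReal (add_pos (area_pos hK hz)
      (area_pos (flp_compact hK) (flp_interior.2 hz))).le]

/-- The upper half grows when the centre moves up. -/
theorem area_mono {K : Set E3} (hK : IsCompact K) {z : E3} {s t : ℝ}
    (hs : z + s • e0 ∈ interior K) (ht : z + t • e0 ∈ interior K) (hst : s ≤ t) :
    area K (z + s • e0) ≤ area K (z + t • e0) := by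
  refine mul_le_mul_of_nonneg_left (integral_mono (good_hgt hK hs).integrable
    (good_hgt hK ht).integrable fun W => ?_) (by norm_num)
  refine one_div_le_one_div_of_le (pow_pos ((good_hgt hK ht).pos W) 3)
    (pow_le_pow_left₀ ((good_hgt hK ht).pos W).le ?_ 3)
  rw [hgt_shift, hgt_shift]
  linarith

theorem area_continuousOn {K : Set E3} (hK : IsCompact K) {z : E3} {s t : ℝ}
    (h : ∀ x ∈ Icc s t, z + x • e0 ∈ interior K) :
    ContinuousOn (fun x => area K (z + x • e0)) (Icc s t) := by
  rcases lt_or_ge t s with hts | hst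
  · simp [Icc_eq_empty_of_lt hts]
  refine continuousOn_const.mul (continuousOn_of_dominated
    (bound := fun W => 1 / hgt K (z + t • e0) W ^ 3) (fun x hx => ?_) (fun x hx => ?_)
    (good_hgt hK (h t (right_mem_Icc.2 hst))).integrable (Eventually.of_forall fun W => ?_))
  · exact (good_hgt hK (h x hx)).continuous_inv.aestronglyMeasurable
  · refine Eventually.of_forall fun W => ?_
    have hp := (good_hgt hK (h t (right_mem_Icc.2 hst))).pos W
    rw [Real.norm_of_nonneg (one_div_pos.2 (pow_pos ((good_hgt hK (h x hx)).pos W) 3)).le]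
    refine one_div_le_one_div_of_le (pow_pos hp 3) (pow_le_pow_left₀ hp.le ?_ 3)
    rw [hgt_shift, hgt_shift]
    linarith [hx.2]
  · refine ContinuousOn.div continuousOn_const (ContinuousOn.pow ?_ 3) fun x hx =>
        (pow_pos ((good_hgt hK (h x hx)).pos W) 3).ne'
    simp only [hgt_shift]
    exact continuousOn_const.sub continuousOn_id

/-- The lower half blows up when the centre goes down to a point that is not interior. -/
theorem area_blow {K : Set E3} (hK : IsCompact K) (hc : Convex ℝ K) {z : E3} {lo m : ℝ}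
    (hm : z + m • e0 ∈ interior K) (hlo : z + lo • e0 ∉ interior K) (hlm : lo < m) (T : ℝ) :
    ∃ δ > 0, ∀ s, lo < s → s < lo + δ → z + s • e0 ∈ interior K →
      T ≤ area (flp '' K) (flp (z + s • e0)) := by
  obtain ⟨f, hf⟩ := geometric_hahn_banach_open_point hc.interior isOpen_interior hlo
  have hfK : ∀ x ∈ K, f x ≤ f (z + lo • e0) := by
    intro x hx
    have hx' : x ∈ closure (interior K) := by
      rw [hc.closure_interior_eq_closure_of_nonempty_interior ⟨_, hm⟩]
      exact subset_closure hx
    exact closure_minimal (fun y hy => (hf y hy).le) (isClosed_le f.continuous continuous_const) hx'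
  set N : E3 := fun i => f (Pi.single i 1)
  have hfN : ∀ x, f x = N 0 * x 0 + N 1 * x 1 + N 2 * x 2 := by
    intro x
    conv_lhs => rw [pi_eq_sum_univ' x, map_sum]
    simp [Fin.sum_univ_three, N, mul_comm]
  have hN : N 0 < 0 := by
    have h1 := hf _ hm
    rw [hfN, hfN] at h1
    simp [e0] at h1
    by_contra h0
    have := mul_le_mul_of_nonneg_left hlm.le (not_lt.1 h0)
    linarith
  set W₀ : ℝ × ℝ := (N 1 / -N 0, N 2 / -N 0)
  have hpr : ∀ x, pr (flp x) W₀ = f x / -N 0 := by
    intro x
    rw [hfN, eq_div_iff (neg_ne_zero.2 hN.ne)]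
    simp only [pr, W₀, flp_apply, Fin.isValue, if_true, one_ne_zero, if_false,
      show (2 : Fin 3) ≠ 0 by decide]
    field_simp [hN.ne]
    ring
  obtain ⟨R₀, hR₀⟩ := (hK.image (continuous_id.sub continuous_const : Continuous fun x : E3 =>
    x - z)).isBounded.exists_norm_le
  set R := max R₀ 0
  have hR : ∀ x ∈ K, ∀ i, |x i - z i| ≤ R := fun x hx i =>
    le_trans ((norm_le_pi_norm (x - z) i).trans (hR₀ _ ⟨x, hx, rfl⟩)) (le_max_left _ _)
  set δ₀ := 4 / (3 * (|T| + 1) * (1 + 2 * R) ^ 3)
  have hR0 : 0 ≤ R := le_max_right _ _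
  refine ⟨δ₀, by positivity, fun s hs1 hs2 hs => ?_⟩
  set d := s - lo
  have hd : 0 < d := sub_pos.2 hs1
  set K' := flp '' K
  set z' := flp (z + s • e0)
  have hg : Good (hgt K' z') := good_hgt (flp_compact hK) (flp_interior.2 hs)
  have hbound : ∀ W ∈ Metric.closedBall W₀ d, hgt K' z' W ≤ (1 + 2 * R) * d := by
    intro W hW
    obtain ⟨_, ⟨x, hx, rfl⟩, he⟩ := exists_hgt (flp_compact hK)
      (⟨_, mem_image_of_mem _ (interior_subset hm)⟩ : K'.Nonempty) z' W
    rw [mem_closedBall_iff_norm, Prod.norm_def, max_le_iff] at hW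
    have e : pr (flp x) W - pr z' W = (pr (flp x) W₀ - pr z' W₀) +
        (W.1 - W₀.1) * (x 1 - z 1) + (W.2 - W₀.2) * (x 2 - z 2) := by
      simp [pr, z', flp_apply, e0]
      ring
    have h1 : pr (flp x) W₀ - pr z' W₀ ≤ d := by
      have h2 : pr (flp x) W₀ ≤ pr (flp (z + lo • e0)) W₀ := by
        rw [hpr, hpr]
        exact div_le_div_of_nonneg_right (hfK x hx) (by linarith)
      simp only [z', flp_shift, pr_shift] at h2 ⊢
      linarith
    have hh : ∀ u v : ℝ, |u| ≤ d → |v| ≤ R → u * v ≤ R * d := fun u v hu hv => by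
      refine le_trans (le_abs_self _) ?_
      rw [abs_mul, mul_comm R d]
      exact mul_le_mul hu hv (abs_nonneg _) hd.le
    have a1 := hh (W.1 - W₀.1) (x 1 - z 1) (by simpa using hW.1) (hR x hx 1)
    have a2 := hh (W.2 - W₀.2) (x 2 - z 2) (by simpa using hW.2) (hR x hx 2)
    rw [he, e]
    linarith
  have hvol : volume.real (Metric.closedBall W₀ d) = (2 * d) ^ 2 := by
    rw [← closedBall_prod_same W₀.1 W₀.2, measureReal_def, Measure.volume_eq_prod,
      Measure.prod_prod, Real.volume_closedBall, Real.volume_closedBall,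
      ← ENNReal.ofReal_mul (by linarith), ENNReal.toReal_ofReal (by positivity)]
    ring
  have h1 : 1 / ((1 + 2 * R) * d) ^ 3 * (2 * d) ^ 2 ≤
      ∫ W in Metric.closedBall W₀ d, 1 / hgt K' z' W ^ 3 := by
    rw [← hvol]
    exact setIntegral_ge_of_const_le_real measurableSet_closedBall
      measure_closedBall_lt_top.ne (fun W hW => one_div_le_one_div_of_le (pow_pos (hg.pos W) 3)
        (pow_le_pow_left₀ (hg.pos W).le (hbound W hW) 3)) hg.integrable.integrableOn
  have h2 : ∫ W in Metric.closedBall W₀ d, 1 / hgt K' z' W ^ 3 ≤ ∫ W, 1 / hgt K' z' W ^ 3 :=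
    setIntegral_le_integral hg.integrable (Eventually.of_forall fun W =>
      (one_div_pos.2 (pow_pos (hg.pos W) 3)).le)
  have h3 : 3 * (|T| + 1) ≤ 1 / ((1 + 2 * R) * d) ^ 3 * (2 * d) ^ 2 := by
    have e : 1 / ((1 + 2 * R) * d) ^ 3 * (2 * d) ^ 2 = 4 / ((1 + 2 * R) ^ 3 * d) := by
      field_simp
      ring
    rw [e, le_div_iff₀ (by positivity)]
    have h4 : d * (3 * (|T| + 1) * (1 + 2 * R) ^ 3) ≤ 4 :=
      (le_div_iff₀ (by positivity)).1 (show d ≤ δ₀ by linarith)
    linarith
  have := h1.trans h2
  have := le_abs_self T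
  simp only [area]
  linarith

end Vale.Agent.P248.Three.Polar
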