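import Vale.Agent.P248.Three.Linear

/-!
P248, dimension three: leaving out points and half spaces, and the dual configuration.
-/

noncomputable section

open MeasureTheory Set Matrix
open Vale.Agent.P248.Ellipsoids (polarSet)

namespace Vale.Agent.P248.Three

namespace Cfg

variable {v f : ℕ} {C : Cfg v f}

/-- A configuration that is not reduced has a smaller one with the same body. -/
theorem IsCfg.reduce (h : C.IsCfg) (hn : ¬C.Reduced) :
    ∃ (v' f' : ℕ) (C' : Cfg v' f'), C'.IsCfg ∧ C'.body = C.body ∧ v' + f' < v + f := by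
  by_cases he : ∀ i, C.x i ∉ convexHull ℝ (C.x '' {k | k ≠ i})
  · obtain ⟨j, hj⟩ : ∃ j, ∀ p, (∀ k, k ≠ j → C.nrm k ⬝ᵥ p ≤ C.off k) →
        C.nrm j ⬝ᵥ p ≤ C.off j := by
      by_contra hc
      push Not at hc
      exact hn ⟨h, he, fun j => let ⟨p, h1, h2⟩ := hc j; ⟨p, h2, h1⟩⟩
    cases f with
    | zero => exact j.elim0
    | succ f' =>
      let C' : Cfg v f' := ⟨C.x, C.nrm ∘ j.succAbove, C.off ∘ j.succAbove⟩
      have hb : C'.body = C.body := by
        ext p
        refine ⟨fun hp k => ?_, fun hp k => hp _⟩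
        have hk' : ∀ k, k ≠ j → C.nrm k ⬝ᵥ p ≤ C.off k := fun k hk => by
          obtain ⟨m, rfl⟩ := Fin.exists_succAbove_eq hk
          exact hp m
        rcases eq_or_ne k j with rfl | hk
        · exact hj p hk'
        · exact hk' k hk
      exact ⟨v, f', C', ⟨hb.symm ▸ h.hull, hb.symm ▸ h.solid⟩, hb, by omega⟩
  · push Not at he
    obtain ⟨i, hi⟩ := he
    cases v with
    | zero => exact i.elim0
    | succ v' =>
      let C' : Cfg v' f := ⟨C.x ∘ i.succAbove, C.nrm, C.off⟩
      have hr : range C'.x = C.x '' {k | k ≠ i} := by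
        rw [show C'.x = C.x ∘ i.succAbove from rfl, range_comp, Fin.range_succAbove]
        rfl
      refine ⟨v', f, C', ⟨?_, h.solid⟩, rfl, by omega⟩
      refine Subset.antisymm ?_ ?_
      · rw [hr]
        exact (convexHull_mono (image_subset_range _ _)).trans h.hull.subset
      · intro p hp
        have hp' : p ∈ convexHull ℝ (range C.x) := h.hull.symm ▸ hp
        refine convexHull_min ?_ (convex_convexHull ℝ _) hp'
        rintro _ ⟨k, rfl⟩
        rw [hr]
        rcases eq_or_ne k i with rfl | hk
        · exact hi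
        · exact subset_convexHull ℝ _ ⟨k, hk, rfl⟩

/-- The distance of a point to the planes, up to the lengths of the normals. -/
def gap (C : Cfg v f) (z : E3) (j : Fin f) : ℝ := C.off j - C.nrm j ⬝ᵥ z

/-- The dual configuration about a point. -/
def dual (C : Cfg v f) (z : E3) : Cfg f v where
  x j := (C.gap z j)⁻¹ • C.nrm j
  nrm i := C.x i - z
  off _ := 1

theorem dual_slack {z : E3} {j : Fin f} (hg : C.gap z j ≠ 0) (i : Fin v) :
    (C.dual z).slack j i = C.slack i j / C.gap z j := by
  have e : (C.x i - z) ⬝ᵥ C.nrm j = C.nrm j ⬝ᵥ C.x i - C.nrm j ⬝ᵥ z := by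
    rw [sub_dotProduct, dotProduct_comm, dotProduct_comm z]
  simp only [slack, dual, dotProduct_smul, smul_eq_mul, e]
  field_simp
  simp only [gap]
  ring

theorem dual_nonInc {z : E3} (hg : ∀ j, C.gap z j ≠ 0) : (C.dual z).nonInc = C.nonInc := by
  refine Finset.card_equiv (Equiv.prodComm _ _) fun q => ?_
  simp [dual_slack (hg q.1), hg q.1]

/-- The body of the dual configuration is the polar. -/
theorem dual_body (h : C.IsCfg) (z : E3) :
    (C.dual z).body = polarSet ((fun p => p - z) '' C.body) := by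
  ext y
  constructor
  · rintro hy _ ⟨p, hp, rfl⟩
    show y ⬝ᵥ (p - z) ≤ 1
    obtain ⟨l, l0, l1, rfl⟩ := h.exists_comb hp
    calc y ⬝ᵥ ((∑ i, l i • C.x i) - z) = ∑ i, l i * ((C.x i - z) ⬝ᵥ y) := by
          rw [dotProduct_sub, dot_comb]
          simp only [sub_dotProduct, mul_sub, Finset.sum_sub_distrib, ← Finset.sum_mul, l1,
            one_mul, dotProduct_comm y]
      _ ≤ ∑ i, l i * 1 := Finset.sum_le_sum fun i _ => mul_le_mul_of_nonneg_left (hy i) (l0 i)
      _ = 1 := by simp [l1]
  · intro hy i
    show (C.x i - z) ⬝ᵥ y ≤ 1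
    rw [dotProduct_comm]
    exact hy _ ⟨_, h.mem i, rfl⟩

theorem dual_isCfg (h : C.IsCfg) (hn : ∀ j, C.nrm j ≠ 0) {z : E3} (hz : z ∈ interior C.body) :
    (C.dual z).IsCfg := by
  have hg : ∀ j, 0 < C.gap z j := fun j => sub_pos.2 (strict_of_interior hz j (hn j))
  refine ⟨Subset.antisymm (hull_subset fun j i => ?_) fun y hy => ?_, ?_⟩
  · rw [dual_slack (hg j).ne']
    exact div_nonpos_of_nonpos_of_nonneg (h.slack_nonpos i j) (hg j).le
  · by_contra hyn
    obtain ⟨L, s, hL, hLy⟩ := geometric_hahn_banach_closed_point (convex_convexHull ℝ _)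
      ((finite_range (C.dual z).x).isCompact_convexHull ℝ).isClosed hyn
    set w : E3 := fun k => L (Pi.single k 1) with hw
    have hLw : ∀ p : E3, L p = w ⬝ᵥ p := fun p => by
      conv_lhs => rw [pi_eq_sum_univ p]
      simp only [map_sum, map_smul, smul_eq_mul, dotProduct, hw]
      refine Finset.sum_congr rfl fun k _ => ?_
      rw [mul_comm]
      congr 2
      funext m
      simp [Pi.single_apply, eq_comm]
    have hj : ∀ j, C.nrm j ⬝ᵥ w < s * C.gap z j := fun j => by
      have := hL _ (subset_convexHull ℝ _ ⟨j, rfl⟩)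
      simp only [hLw, dual, dotProduct_smul, smul_eq_mul, ← div_eq_inv_mul, div_lt_iff₀ (hg j)]
        at this
      rwa [dotProduct_comm]
    rw [hLw] at hLy
    have hmem : ∀ t : ℝ, 0 ≤ t → t * s ≤ 1 → z + t • w ∈ C.body := fun t ht hts j => by
      have h1 := mul_le_mul_of_nonneg_left (hj j).le ht
      have h2 := mul_le_mul_of_nonneg_right hts (hg j).le
      rw [dotProduct_add, dotProduct_smul, smul_eq_mul]
      have e : C.off j = C.nrm j ⬝ᵥ z + C.gap z j := by simp [gap]
      nlinarith
    have key : ∀ t : ℝ, 0 ≤ t → t * s ≤ 1 → t * (w ⬝ᵥ y) ≤ 1 := fun t ht hts => by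
      have h1 := (dual_body h z ▸ hy) _ ⟨_, hmem t ht hts, rfl⟩
      have h2 : y ⬝ᵥ (z + t • w - z) ≤ 1 := h1
      rwa [add_sub_cancel_left, dotProduct_smul, smul_eq_mul, dotProduct_comm] at h2
    rcases le_or_gt s 0 with hs | hs
    · obtain ⟨R, hR⟩ := (Metric.isBounded_iff_subset_closedBall z).1 h.compact.isBounded
      rcases eq_or_ne w 0 with hw0 | hw0
      · simp only [hw0, zero_dotProduct] at hLy
        cases f with
        | zero =>
          obtain ⟨q, hq⟩ := h.solid
          have : ∀ p, p ∈ C.body := fun p j => j.elim0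
          have h2 := mem_closedBall_iff_norm.1 (hR (this (z + (fun _ => |R| + 1))))
          rw [add_sub_cancel_left] at h2
          have h3 := (norm_le_pi_norm (fun _ : Fin 3 => |R| + 1) 0).trans h2
          rw [Real.norm_eq_abs, abs_of_nonneg (by positivity)] at h3
          have := le_abs_self R
          linarith
        | succ f' =>
          have := hj 0
          simp only [hw0, dotProduct_zero] at this
          have := mul_nonpos_of_nonpos_of_nonneg hs (hg 0).le
          linarith
      · set t := (|R| + 1) / ‖w‖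
        have hw' : 0 < ‖w‖ := norm_pos_iff.2 hw0
        have ht : 0 ≤ t := by positivity
        have h2 := mem_closedBall_iff_norm.1
          (hR (hmem t ht ((mul_nonpos_of_nonneg_of_nonpos ht hs).trans zero_le_one)))
        rw [add_sub_cancel_left, norm_smul, Real.norm_eq_abs, abs_of_nonneg ht,
          div_mul_cancel₀ _ hw'.ne'] at h2
        linarith [le_abs_self R]
    · have := key s⁻¹ (inv_nonneg.2 hs.le) (inv_mul_cancel₀ hs.ne').le
      rw [inv_mul_le_iff₀ hs, mul_one] at this
      linarith
  · refine ⟨0, mem_interior_of_strict fun i => ?_⟩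
    simp [dual]

theorem polar_dual_body (h : C.IsCfg) (hn : ∀ j, C.nrm j ≠ 0) {z : E3}
    (hz : z ∈ interior C.body) :
    polarSet ((fun p => p - 0) '' (C.dual z).body) = (fun p => p - z) '' C.body := by
  have hd := dual_isCfg h hn hz
  have hg : ∀ j, 0 < C.gap z j := fun j => sub_pos.2 (strict_of_interior hz j (hn j))
  simp only [sub_zero, image_id']
  ext p
  constructor
  · intro hp
    refine ⟨p + z, fun j => ?_, by simp⟩
    have h1 : p ⬝ᵥ (C.dual z).x j ≤ 1 := hp _ (hd.mem j)
    rw [dual, dotProduct_smul, smul_eq_mul, inv_mul_le_iff₀ (hg j), mul_one] at h1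
    rw [dotProduct_add, dotProduct_comm]
    simp only [gap] at h1
    linarith
  · rintro ⟨q, hq, rfl⟩ y hy
    rw [dual_body h z] at hy
    show (q - z) ⬝ᵥ y ≤ 1
    rw [dotProduct_comm]
    exact hy _ ⟨q, hq, rfl⟩

/-- The bound for the dual about the origin gives the bound about the point. -/
theorem bound_of_dual (h : C.IsCfg) (hn : ∀ j, C.nrm j ≠ 0) {z : E3} (hz : z ∈ interior C.body)
    (hb : Bound (C.dual z).body) : 64 / 9 ≤ (volume C.body).toReal * polVol C.body z := by
  have h0 : (0 : E3) ∈ interior (C.dual z).body := mem_interior_of_strict fun i => by simp [dual]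
  have := hb 0 h0
  rw [polVol, polar_dual_body h hn hz, volume_sub, dual_body h z] at this
  rw [polVol, mul_comm]
  exact this

end Cfg

end Vale.Agent.P248.Three
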