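import Vale.Agent.P248.Three.Moved
import Mathlib.MeasureTheory.Measure.Lebesgue.Basic

/-!
P248, dimension three: piece C, the volume is affine along a move. The lines in the direction of
the move meet all the moved bodies simultaneously, and their end points move linearly, as an end
point lies in a facet which is not parallel to the direction.
-/

noncomputable section

open MeasureTheory Set Matrix Filter Topology

namespace Vale.Agent.P248.Three

namespace Cfg

variable {v f : ℕ} {C : Cfg v f}

/-- The fibre of the body over a point of the plane. -/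
def fibre (C : Cfg v f) (y : Fin 2 → ℝ) : Set ℝ := {s | (Fin.cons s y : E3) ∈ C.body}

theorem cons_add_e0 (s r : ℝ) (y : Fin 2 → ℝ) :
    (Fin.cons s y : E3) + r • e0 = Fin.cons (s + r) y := by
  funext k
  refine Fin.cases ?_ (fun i => ?_) k
  · simp [e0]
  · simp [e0, Fin.succ_ne_zero]

theorem moved_comb (M : C.Move) (t : ℝ) (l : Fin v → ℝ) :
    ∑ i, l i • (C.moved M t).x i = ∑ i, l i • C.x i + (t * ∑ i, l i * M.c i) • M.u := by
  simp only [moved, smul_add, Finset.sum_add_distrib, smul_smul, Finset.mul_sum, Finset.sum_smul]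
  congr 1
  exact Finset.sum_congr rfl fun i _ => by ring_nf

/-- A combination on a supporting plane stays on it. -/
theorem face_moved (hC : C.IsCfg) (M : C.Move) (t : ℝ) {l : Fin v → ℝ} (l0 : ∀ i, 0 ≤ l i)
    (l1 : ∑ i, l i = 1) {j : Fin f} (hj : C.nrm j ⬝ᵥ (∑ i, l i • C.x i) = C.off j) :
    (C.moved M t).nrm j ⬝ᵥ (∑ i, l i • (C.moved M t).x i) = (C.moved M t).off j := by
  rw [← sub_eq_zero, comb_slack _ l1]
  refine Finset.sum_eq_zero fun i _ => ?_
  by_cases h : C.slack i j = 0
  · rw [slack_moved, h, M.D_eq_zero h]; simp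
  · simp [comb_support hC.slack_nonpos l0 l1 hj i h]

/-- An end point in the direction of the move moves linearly and stays an end point. -/
theorem end_moved (hC : C.IsCfg) (M : C.Move) (σ : ℝ) {p : E3} (hp : p ∈ C.body)
    (hmax : ∀ r : ℝ, 0 < r → p + (r * σ) • M.u ∉ C.body) :
    ∃ γ : ℝ, ∀ t, (C.moved M t).IsCfg → p + (t * γ) • M.u ∈ (C.moved M t).body ∧
      ∀ r : ℝ, 0 < r → p + (t * γ + r * σ) • M.u ∉ (C.moved M t).body := by
  obtain ⟨l, l0, l1, hl⟩ := hC.exists_comb hp
  obtain ⟨j, hj, hju⟩ : ∃ j, C.nrm j ⬝ᵥ p = C.off j ∧ 0 < σ * (C.nrm j ⬝ᵥ M.u) := by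
    by_contra hc
    push Not at hc
    have ev : ∀ᶠ r : ℝ in 𝓝[>] 0, ∀ j, C.nrm j ⬝ᵥ (p + (r * σ) • M.u) ≤ C.off j := by
      refine eventually_all.2 fun j => ?_
      rcases (hp j).lt_or_eq with h | h
      · have hcont : Continuous fun r : ℝ => C.nrm j ⬝ᵥ (p + (r * σ) • M.u) :=
          (continuous_dot _).comp (by fun_prop)
        exact (((hcont.tendsto 0).eventually (gt_mem_nhds (by simpa using h))).filter_mono
          nhdsWithin_le_nhds).mono fun r hr => hr.le
      · filter_upwards [self_mem_nhdsWithin] with r (hr : (0:ℝ) < r)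
        rw [dotProduct_add, dotProduct_smul, smul_eq_mul, h, mul_assoc]
        linarith [mul_nonpos_of_nonneg_of_nonpos hr.le (hc j h)]
    obtain ⟨r, hr, hr0⟩ := (ev.and self_mem_nhdsWithin).exists
    exact hmax r hr0 hr
  refine ⟨∑ i, l i * M.c i, fun t ht => ?_⟩
  have hq : ∑ i, l i • (C.moved M t).x i = p + (t * ∑ i, l i * M.c i) • M.u := by
    rw [moved_comb, hl]
  refine ⟨hq ▸ ht.hull ▸ (hull_range _).2 ⟨l, l0, l1, rfl⟩, fun r hr hmem => ?_⟩
  have e := face_moved hC M t l0 l1 (hl.symm ▸ hj)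
  rw [hq] at e
  have h2 := hmem j
  rw [add_smul, ← add_assoc, dotProduct_add, e, dotProduct_smul, nrm_moved_dot, smul_eq_mul,
    mul_assoc] at h2
  linarith [mul_pos hr hju]

theorem fibre_nonempty_of_moved (hC : C.IsCfg) (M : C.Move) (hu : M.u = e0) {t : ℝ}
    (ht : (C.moved M t).IsCfg) {y : Fin 2 → ℝ} (h : ((C.moved M t).fibre y).Nonempty) :
    (C.fibre y).Nonempty := by
  obtain ⟨s, hs⟩ := h
  obtain ⟨l, l0, l1, hl⟩ := ht.exists_comb hs
  rw [moved_comb, hu] at hl
  refine ⟨s + -(t * ∑ i, l i * M.c i), ?_⟩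
  show (Fin.cons _ y : E3) ∈ C.body
  rw [← cons_add_e0, ← hl, neg_smul, add_neg_cancel_right]
  exact hC.hull ▸ (hull_range _).2 ⟨l, l0, l1, rfl⟩

theorem ordConnected_fibre (C : Cfg v f) (y : Fin 2 → ℝ) : (C.fibre y).OrdConnected := by
  refine Convex.ordConnected fun s hs r hr a b ha hb hab => ?_
  have := C.convex_body hs hr ha hb hab
  show (Fin.cons _ y : E3) ∈ C.body
  convert this using 1
  funext k
  refine Fin.cases ?_ (fun i => ?_) k
  · simp
  · simp [← add_mul, hab]

/-- The fibres of the moved bodies are empty together, or segments with linearly moving ends. -/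
theorem fibre_moved (hC : C.IsCfg) (M : C.Move) (hu : M.u = e0) (y : Fin 2 → ℝ) :
    (∀ t, (C.moved M t).IsCfg → (C.moved M t).fibre y = ∅) ∨
      ∃ b τ β γ : ℝ, ∀ t, (C.moved M t).IsCfg →
        b + t * β ≤ τ + t * γ ∧ (C.moved M t).fibre y = Icc (b + t * β) (τ + t * γ) := by
  by_cases hne : (C.fibre y).Nonempty
  swap
  · exact Or.inl fun t ht => not_nonempty_iff_eq_empty.1
      fun h => hne (fibre_nonempty_of_moved hC M hu ht h)
  refine Or.inr ?_
  have hcl : IsClosed (C.fibre y) := C.isClosed_body.preimage (by fun_prop)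
  have hsub : C.fibre y ⊆ (fun p : E3 => p 0) '' C.body :=
    fun s hs => ⟨Fin.cons s y, hs, Fin.cons_zero _ _⟩
  have hcp : IsCompact (C.fibre y) :=
    (hC.compact.image (continuous_apply 0)).of_isClosed_subset hcl hsub
  obtain ⟨τ, hτ, hτmax⟩ := hcp.exists_isGreatest hne
  obtain ⟨b, hb, hbmin⟩ := hcp.exists_isLeast hne
  obtain ⟨γ, hγ⟩ := end_moved hC M 1 (p := Fin.cons τ y) hτ fun r hr h => by
    rw [mul_one, hu, cons_add_e0] at h
    linarith [hτmax h]
  obtain ⟨β, hβ⟩ := end_moved hC M (-1) (p := Fin.cons b y) hb fun r hr h => by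
    rw [hu, cons_add_e0] at h
    linarith [hbmin h]
  refine ⟨b, τ, β, γ, fun t ht => ?_⟩
  obtain ⟨htop, htop'⟩ := hγ t ht
  obtain ⟨hbot, hbot'⟩ := hβ t ht
  rw [hu, cons_add_e0] at htop hbot
  have up : ∀ s ∈ (C.moved M t).fibre y, s ≤ τ + t * γ := fun s hs => by
    by_contra h
    refine htop' (s - (τ + t * γ)) (by linarith) ?_
    rw [hu, cons_add_e0, show τ + (t * γ + (s - (τ + t * γ)) * 1) = s by ring]
    exact hs
  have low : ∀ s ∈ (C.moved M t).fibre y, b + t * β ≤ s := fun s hs => by
    by_contra h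
    refine hbot' (b + t * β - s) (by linarith) ?_
    rw [hu, cons_add_e0, show b + (t * β + (b + t * β - s) * -1) = s by ring]
    exact hs
  exact ⟨low _ htop, Subset.antisymm (fun s hs => ⟨low s hs, up s hs⟩)
    ((ordConnected_fibre _ y).out hbot htop)⟩

theorem volume_body (C : Cfg v f) :
    volume C.body = ∫⁻ y : Fin 2 → ℝ, volume (C.fibre y) := by
  have hmp := volume_preserving_piFinSuccAbove (fun _ : Fin 3 => ℝ) 0
  set e := MeasurableEquiv.piFinSuccAbove (fun _ : Fin 3 => ℝ) 0
  have hT : MeasurableSet (e.symm ⁻¹' C.body) :=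
    e.symm.measurable C.isClosed_body.measurableSet
  have h1 : volume C.body = volume (e.symm ⁻¹' C.body) := by
    rw [← hmp.measure_preimage hT.nullMeasurableSet]
    congr 1
  rw [h1, Measure.volume_eq_prod, Measure.prod_apply_symm hT]
  refine lintegral_congr fun y => ?_
  congr 1

theorem measurable_fibre (C : Cfg v f) :
    Measurable fun y : Fin 2 → ℝ => volume (C.fibre y) := by
  set e := MeasurableEquiv.piFinSuccAbove (fun _ : Fin 3 => ℝ) 0
  have hT : MeasurableSet (e.symm ⁻¹' C.body) :=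
    e.symm.measurable C.isClosed_body.measurableSet
  convert measurable_measure_prodMk_right (μ := (volume : Measure ℝ)) hT using 1
  funext y
  congr 1

end Cfg

open Cfg in
/-- Piece C. -/
theorem volumeStmt : VolumeStmt := by
  intro v f C hC M hu lo hi hlo hhi hL hH
  have h0 : (C.moved M 0).IsCfg := (moved_zero M).symm ▸ hC
  have key : ∀ y, ENNReal.ofReal (hi - lo) * volume (C.fibre y) =
      ENNReal.ofReal hi * volume ((C.moved M lo).fibre y) +
        ENNReal.ofReal (-lo) * volume ((C.moved M hi).fibre y) := by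
    intro y
    have e0' : C.fibre y = (C.moved M 0).fibre y := by rw [moved_zero]
    rcases fibre_moved hC M hu y with h | ⟨b, τ, β, γ, h⟩
    · rw [e0', h 0 h0, h lo hL, h hi hH]; simp
    · obtain ⟨a0, b0⟩ := h 0 h0
      obtain ⟨a1, b1⟩ := h lo hL
      obtain ⟨a2, b2⟩ := h hi hH
      rw [e0', b0, b1, b2, Real.volume_Icc, Real.volume_Icc, Real.volume_Icc,
        ← ENNReal.ofReal_mul (by linarith), ← ENNReal.ofReal_mul (by linarith),
        ← ENNReal.ofReal_mul (by linarith),
        ← ENNReal.ofReal_add (mul_nonneg (by linarith) (by linarith))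
          (mul_nonneg (by linarith) (by linarith))]
      congr 1
      ring
  have hsum := lintegral_congr (μ := (volume : Measure (Fin 2 → ℝ))) key
  rw [lintegral_const_mul _ C.measurable_fibre,
    lintegral_add_left ((measurable_fibre _).const_mul _),
    lintegral_const_mul _ (measurable_fibre _), lintegral_const_mul _ (measurable_fibre _),
    ← volume_body, ← volume_body, ← volume_body] at hsum
  have h := congrArg ENNReal.toReal hsum
  rw [ENNReal.toReal_add (ENNReal.mul_ne_top ENNReal.ofReal_ne_top hL.compact.measure_lt_top.ne)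
      (ENNReal.mul_ne_top ENNReal.ofReal_ne_top hH.compact.measure_lt_top.ne),
    ENNReal.toReal_mul, ENNReal.toReal_mul, ENNReal.toReal_mul,
    ENNReal.toReal_ofReal (by linarith), ENNReal.toReal_ofReal hhi.le,
    ENNReal.toReal_ofReal (by linarith)] at h
  linarith

end Vale.Agent.P248.Three
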